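import Vale.Agent.P148.R2.H995.CombGeo

/-!
# P148, row N1/N2: the layout of the comb gates (global statements)
-/

open Set Metric Complex
open scoped ComplexConjugate

namespace Vale.Agent.P148.R2.H995

open Vale.Agent.P148.R2.N Vale.Agent.P148.R2.H678

variable {M k l : ℕ}

theorem disj_of_sub {A B C D : Set ℂ} (h : Disjoint C D) (hA : A ⊆ C) (hB : B ⊆ D) :
    Disjoint A B := h.mono hA hB

/-! ### different gates -/

theorem hboxes_disj (hM : 0 < M) (hk : k < nc M) (hl : l < nc M) (h : k ≠ l) :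
    Disjoint (hbox M (pin M k) ∪ hbox M (pout M k)) (hbox M (pin M l) ∪ hbox M (pout M l)) :=
  (disjoint_gbox hM hk hl h).mono (union_subset (hbox_pin_sub hM k) (hbox_pout_sub hM k))
    (union_subset (hbox_pin_sub hM l) (hbox_pout_sub hM l))

theorem tooth_hbox_disj (hM : 0 < M) (hk : k < nc M) (hl : l < nc M) (h : k ≠ l) :
    Disjoint (CBox M (pin M k) (pout M k)) (hbox M (pin M l) ∪ hbox M (pout M l)) :=
  (disjoint_gbox hM hk hl h).mono (tooth_sub hM k)
    (union_subset (hbox_pin_sub hM l) (hbox_pout_sub hM l))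

theorem tooth_tooth_disj (hM : 0 < M) (hk : k < nc M) (hl : l < nc M) (h : k ≠ l) :
    Disjoint (CBox M (pin M k) (pout M k)) (CBox M (pin M l) (pout M l)) :=
  (disjoint_gbox hM hk hl h).mono (tooth_sub hM k) (tooth_sub hM l)

/-- The rails of different sections. -/
theorem rail_rail_disj (hM : 0 < M) (hk : k < nc M) (hl : l < nc M) (h : k ≠ l) :
    Disjoint (CBox M (pin M k) (pin M (k + 1)) ∪ CBox M (pout M k) (pout M (k + 1)))
      (CBox M (pin M l) (pin M (l + 1)) ∪ CBox M (pout M l) (pout M (l + 1))) :=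
  (disjoint_cell hM hk hl h).mono (union_subset (rail_in_sub hM k) (rail_out_sub hM k))
    (union_subset (rail_in_sub hM l) (rail_out_sub hM l))

/-- Teeth and rails are disjoint. -/
theorem tooth_rail_disj (hM : 0 < M) (hk : k < nc M) (hl : l < nc M) :
    Disjoint (CBox M (pin M l) (pout M l))
      (CBox M (pin M k) (pin M (k + 1)) ∪ CBox M (pout M k) (pout M (k + 1))) := by
  by_contra hcon
  rw [Set.not_disjoint_iff] at hcon
  obtain ⟨z, hz, hz'⟩ := hcon
  have hzc : z ∈ cell M k := (union_subset (rail_in_sub hM k) (rail_out_sub hM k)) hz'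
  have key : l = k ∨ l = (k + 1) % nc M := gbox_cell hM hk hl ⟨z, tooth_sub hM l hz, hzc⟩
  rcases key with rfl | rfl
  · rcases hz' with hz' | hz'
    · rw [pin_eq M l, pin_eq M (l + 1)] at hz'
      exact Set.disjoint_left.1 (tooth_rail' hM le_rfl (by norm_num) l) hz hz'
    · rw [pout_eq M l, pout_eq M (l + 1)] at hz'
      exact Set.disjoint_left.1 (tooth_rail' hM (by norm_num) le_rfl l) hz hz'
  · rw [pin_mod, pout_mod] at hz
    rcases hz' with hz' | hz'
    · rw [pin_eq M k, pin_eq M (k + 1)] at hz'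
      exact Set.disjoint_left.1 (tooth_succ_rail' hM le_rfl (by norm_num) k) hz hz'
    · rw [pout_eq M k, pout_eq M (k + 1)] at hz'
      exact Set.disjoint_left.1 (tooth_succ_rail' hM (by norm_num) le_rfl k) hz hz'

/-- The inner rails are disjoint from all outer hub boxes. -/
theorem railin_hout_disj (hM : 0 < M) (hk : k < nc M) (hl : l < nc M) :
    Disjoint (CBox M (pin M k) (pin M (k + 1))) (hbox M (pout M l)) := by
  by_contra hcon
  rw [Set.not_disjoint_iff] at hcon
  obtain ⟨z, hz, hz'⟩ := hcon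
  have key : l = k ∨ l = (k + 1) % nc M :=
    gbox_cell hM hk hl ⟨z, hbox_pout_sub hM l hz', rail_in_sub hM k hz⟩
  rcases key with rfl | rfl
  · rw [pin_eq, pin_eq] at hz
    rw [pout_eq] at hz'
    exact Set.disjoint_left.1 (rail_hbox' hM le_rfl (by norm_num) (by norm_num) l) hz hz'
  · rw [pout_mod] at hz'
    rw [pin_eq, pin_eq] at hz
    rw [pout_eq] at hz'
    exact Set.disjoint_left.1 (rail_hbox_succ' hM le_rfl (by norm_num) (by norm_num) k) hz hz'

/-- The outer rails are disjoint from all inner hub boxes. -/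
theorem railout_hin_disj (hM : 0 < M) (hk : k < nc M) (hl : l < nc M) :
    Disjoint (CBox M (pout M k) (pout M (k + 1))) (hbox M (pin M l)) := by
  by_contra hcon
  rw [Set.not_disjoint_iff] at hcon
  obtain ⟨z, hz, hz'⟩ := hcon
  have key : l = k ∨ l = (k + 1) % nc M :=
    gbox_cell hM hk hl ⟨z, hbox_pin_sub hM l hz', rail_out_sub hM k hz⟩
  rcases key with rfl | rfl
  · rw [pout_eq, pout_eq] at hz
    rw [pin_eq] at hz'
    exact Set.disjoint_left.1 (rail_hbox' hM (by norm_num) le_rfl (by norm_num) l) hz hz'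
  · rw [pin_mod] at hz'
    rw [pout_eq, pout_eq] at hz
    rw [pin_eq] at hz'
    exact Set.disjoint_left.1 (rail_hbox_succ' hM (by norm_num) le_rfl (by norm_num) k) hz hz'

/-- The rails are disjoint from the hub boxes of the other gates. -/
theorem rail_hbox_disj (hM : 0 < M) (hk : k < nc M) (hl : l < nc M) (h1 : l ≠ k)
    (h2 : l ≠ (k + 1) % nc M) :
    Disjoint (CBox M (pin M k) (pin M (k + 1)) ∪ CBox M (pout M k) (pout M (k + 1)))
      (hbox M (pin M l) ∪ hbox M (pout M l)) := by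
  by_contra hcon
  rw [Set.not_disjoint_iff] at hcon
  obtain ⟨z, hz, hz'⟩ := hcon
  have key : l = k ∨ l = (k + 1) % nc M :=
    gbox_cell hM hk hl ⟨z, (union_subset (hbox_pin_sub hM l) (hbox_pout_sub hM l)) hz',
      (union_subset (rail_in_sub hM k) (rail_out_sub hM k)) hz⟩
  rcases key with h | h
  · exact h1 h
  · exact h2 h

/-! ### lengths -/

theorem norm_uo (M k : ℕ) : ‖uo M k‖ = 1 := by
  unfold uo; rw [norm_pow, norm_I, one_pow]

theorem pout_sub_pin (M k : ℕ) : pout M k - pin M k = uo M k * ((ms M / 8 : ℝ) : ℂ) := by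
  unfold pout pin
  push_cast
  ring

theorem norm_tooth (hM : 0 < M) (k : ℕ) : ‖pout M k - pin M k‖ = ms M / 8 := by
  have h0 := ms_pos hM
  rw [pout_sub_pin, norm_mul, norm_uo, one_mul, Complex.norm_real, Real.norm_of_nonneg]
  positivity

theorem norm_rail (hM : 0 < M) {c : ℝ} (hc : 7 / 16 ≤ c) (hc' : c ≤ 9 / 16) (k : ℕ) :
    ms M / 2 ≤ ‖hp M (k + 1) c - hp M k c‖ ∧ ‖hp M (k + 1) c - hp M k c‖ ≤ ms M := by
  have h0 := ms_pos hM
  have hI : ‖(I : ℂ) ^ (k / (2 * M + 1))‖ = 1 := by rw [norm_pow, norm_I, one_pow]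
  by_cases hk : k % (2 * M + 1) = 2 * M
  · rw [hp_succ_of_eq hM hk]
    unfold hp
    rw [hk, ← mul_sub, norm_mul, hI, one_mul]
    have e : lq M c - lp M c (2 * M) = ((c * ms M : ℝ) : ℂ) * (-1 + I) := by
      have h1 := M_mul_ms hM
      apply Complex.ext
      · simp [lq, lp]
      · simp [lq, lp]; linarith
    have h1 : ‖(-1 + I : ℂ)‖ = Real.sqrt 2 := by
      rw [Complex.norm_def, Complex.normSq_apply]
      simp
      norm_num
    rw [e, norm_mul, h1, Complex.norm_real, Real.norm_of_nonneg (by positivity)]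
    have h2 := sqrt_two_bd
    have h3 : 7 / 16 * ms M ≤ c * ms M := mul_le_mul_of_nonneg_right hc h0.le
    have h4 : c * ms M ≤ 9 / 16 * ms M := mul_le_mul_of_nonneg_right hc' h0.le
    constructor
    · calc ms M / 2 ≤ 7 / 16 * ms M * 1.41 := by norm_num; linarith
        _ ≤ c * ms M * Real.sqrt 2 := mul_le_mul h3 h2.1.le (by norm_num) (by positivity)
    · calc c * ms M * Real.sqrt 2 ≤ 9 / 16 * ms M * 1.42 :=
          mul_le_mul h4 h2.2.le (Real.sqrt_nonneg _) (by positivity)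
        _ ≤ ms M := by norm_num; linarith
  · rw [hp_succ_of_ne hk]
    unfold hp
    rw [← mul_sub, norm_mul, hI, one_mul]
    have e : lp M c (k % (2 * M + 1) + 1) - lp M c (k % (2 * M + 1)) = ((ms M : ℝ) : ℂ) * I := by
      apply Complex.ext
      · simp [lp]
      · simp [lp]; ring
    rw [e, norm_mul, norm_I, mul_one, Complex.norm_real, Real.norm_of_nonneg h0.le]
    exact ⟨by linarith, le_rfl⟩

theorem norm_railin (hM : 0 < M) (k : ℕ) :
    ms M / 2 ≤ ‖pin M (k + 1) - pin M k‖ ∧ ‖pin M (k + 1) - pin M k‖ ≤ ms M := by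
  rw [pin_eq, pin_eq]; exact norm_rail hM le_rfl (by norm_num) k

theorem norm_railout (hM : 0 < M) (k : ℕ) :
    ms M / 2 ≤ ‖pout M (k + 1) - pout M k‖ ∧ ‖pout M (k + 1) - pout M k‖ ≤ ms M := by
  rw [pout_eq, pout_eq]; exact norm_rail hM (by norm_num) le_rfl k

/-! ### the ends of the corridors are in the seeds -/

theorem norm_cio {z z' : ℂ} (h : z ≠ z') : ‖cio z z'‖ = 1 := by
  have h1 : ‖z' - z‖ ≠ 0 := norm_ne_zero_iff.2 (sub_ne_zero.2 h.symm)
  unfold cio
  rw [norm_div, Complex.norm_conj, Complex.norm_real, norm_norm]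
  exact div_self h1

theorem cio_mul_sub {z z' : ℂ} (h : z ≠ z') : cio z z' * (z' - z) = (‖z' - z‖ : ℂ) := by
  have h1 : (‖z' - z‖ : ℂ) ≠ 0 := by
    exact_mod_cast norm_ne_zero_iff.2 (sub_ne_zero.2 h.symm)
  unfold cio
  rw [div_mul_eq_mul_div, ← Complex.normSq_eq_conj_mul_self, Complex.normSq_eq_norm_sq]
  push_cast
  rw [sq, mul_div_assoc, div_self h1, mul_one]

/-- The beginning of a crossing is in the first seed. -/
theorem start_mem (hM : 0 < M) {z z' v : ℂ} (h : z ≠ z') (hv : v ∈ CBox M z z')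
    (h0 : (cio z z' * (v - z)).re ≤ sd M / 2) : v ∈ ball z (sd M) := by
  have hs := sd_pos hM
  obtain ⟨a1, a2, a3, a4⟩ := hv
  rw [mem_ball, dist_eq_turn (norm_cio h)]
  refine (norm_le_re_add_im _).trans_lt ?_
  have h1 : |(cio z z' * (v - z)).re| ≤ sd M / 2 := by
    rw [abs_le]; constructor <;> linarith
  have h2 : |(cio z z' * (v - z)).im| ≤ sd M / 8 := by
    rw [abs_le]; constructor <;> linarith
  linarith

/-- The end of a crossing is in the second seed. -/
theorem end_mem (hM : 0 < M) {z z' v : ℂ} (h : z ≠ z') (hv : v ∈ CBox M z z')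
    (h0 : ‖z' - z‖ - sd M / 2 ≤ (cio z z' * (v - z)).re) : v ∈ ball z' (sd M) := by
  have hs := sd_pos hM
  obtain ⟨a1, a2, a3, a4⟩ := hv
  rw [mem_ball, dist_eq_turn (norm_cio h)]
  have e : cio z z' * (v - z') = cio z z' * (v - z) - (‖z' - z‖ : ℂ) := by
    rw [← cio_mul_sub h]; ring
  refine (norm_le_re_add_im _).trans_lt ?_
  rw [e, sub_re, sub_im, ofReal_re, ofReal_im, sub_zero]
  have h1 : |(cio z z' * (v - z)).re - ‖z' - z‖| ≤ sd M / 2 := by
    rw [abs_le]; constructor <;> linarith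
  have h2 : |(cio z z' * (v - z)).im| ≤ sd M / 8 := by
    rw [abs_le]; constructor <;> linarith
  linarith

theorem pin_ne_pout (hM : 0 < M) (k : ℕ) : pin M k ≠ pout M k := by
  intro h
  have h1 := norm_tooth hM k
  rw [← h, sub_self, norm_zero] at h1
  have := ms_pos hM
  linarith

theorem pin_ne_succ (hM : 0 < M) (k : ℕ) : pin M k ≠ pin M (k + 1) := by
  intro h
  have h1 := (norm_railin hM k).1
  rw [← h, sub_self, norm_zero] at h1
  have := ms_pos hM
  linarith

theorem pout_ne_succ (hM : 0 < M) (k : ℕ) : pout M k ≠ pout M (k + 1) := by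
  intro h
  have h1 := (norm_railout hM k).1
  rw [← h, sub_self, norm_zero] at h1
  have := ms_pos hM
  linarith

/-- The data of a corridor are admissible for `tcr_whp` with aspect ratio `1024`. -/
theorem corridor_ok (hM : 0 < M) {z z' : ℂ} (h1 : ms M / 8 ≤ ‖z' - z‖) (h2 : ‖z' - z‖ ≤ ms M) :
    z ≠ z' ∧ ‖cio z z'‖ = 1 ∧ sd M / 2 < ‖z' - z‖ - sd M / 2 ∧ -(sd M / 8) < sd M / 8 ∧
      ‖z' - z‖ - sd M / 2 - sd M / 2 ≤ 1024 * (sd M / 8 - -(sd M / 8)) ∧ 0 < sd M / 8 := by
  obtain ⟨h0, h3, -, -⟩ := num hM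
  have hs := sd_pos hM
  have hz : z ≠ z' := by
    rintro rfl
    rw [sub_self, norm_zero] at h1
    linarith
  exact ⟨hz, norm_cio hz, by linarith, by linarith, by linarith, by linarith⟩

/-! ### a window -/

theorem norm_hp_le (hM : 0 < M) {c : ℝ} (hc : 7 / 16 ≤ c) (hc' : c ≤ 9 / 16) (k : ℕ) :
    ‖hp M k c‖ ≤ 3 := by
  have h0 := ms_pos hM
  have h1 := ms_le_one (M := M)
  have h2 := mod_mul_le hM k
  have h3 : (0 : ℝ) ≤ ((k % (2 * M + 1) : ℕ) : ℝ) * ms M := by positivity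
  have hcm : 0 ≤ c * ms M := by positivity
  have hcm' : c * ms M ≤ 9 / 16 * ms M := mul_le_mul_of_nonneg_right hc' h0.le
  unfold hp
  rw [norm_mul, norm_pow, norm_I, one_pow, one_mul]
  refine (norm_le_re_add_im _).trans ?_
  simp only [lp]
  have e1 : |1 + c * ms M| ≤ 2 := by rw [abs_le]; constructor <;> linarith
  have e2 : |-1 + ((k % (2 * M + 1) : ℕ) : ℝ) * ms M| ≤ 1 := by rw [abs_le]; constructor <;> linarith
  linarith

theorem norm_pin_le (hM : 0 < M) (k : ℕ) : ‖pin M k‖ ≤ 3 := by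
  rw [pin_eq]; exact norm_hp_le hM le_rfl (by norm_num) k

theorem norm_pout_le (hM : 0 < M) (k : ℕ) : ‖pout M k‖ ≤ 3 := by
  rw [pout_eq]; exact norm_hp_le hM (by norm_num) le_rfl k

theorem gbox_sub_ball (hM : 0 < M) (k : ℕ) : gbox M k ⊆ ball 0 4 := by
  intro z hz
  obtain ⟨w, rfl⟩ := exists_eq_I_pow_mul (k / (2 * M + 1)) z
  have h0 := ms_pos hM
  have h1 := ms_le_one (M := M)
  have h2 := mod_mul_le hM k
  have h3 : (0 : ℝ) ≤ ((k % (2 * M + 1) : ℕ) : ℝ) * ms M := by positivity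
  obtain ⟨⟨a1, a2⟩, a3, a4⟩ := mem_gbox_iff.1 hz
  rw [mem_ball_zero_iff, norm_mul, norm_pow, norm_I, one_pow, one_mul]
  refine (norm_le_re_add_im _).trans_lt ?_
  have e1 : |w.re| ≤ 2 := by rw [abs_le]; constructor <;> linarith
  have e2 : |w.im| < 3 / 2 := by rw [abs_lt]; constructor <;> linarith
  linarith

theorem cell_sub_ball (hM : 0 < M) (k : ℕ) : cell M k ⊆ ball 0 5 := by
  intro z hz
  obtain ⟨w, rfl⟩ := exists_eq_I_pow_mul (k / (2 * M + 1)) z
  have h0 := ms_pos hM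
  have h1 := ms_le_one (M := M)
  have h2 := mod_mul_le hM k
  have h3 : (0 : ℝ) ≤ ((k % (2 * M + 1) : ℕ) : ℝ) * ms M := by positivity
  obtain ⟨⟨a1, a2⟩, a3, a4⟩ := mem_cell_iff.1 hz
  rw [mem_ball_zero_iff, norm_mul, norm_pow, norm_I, one_pow, one_mul]
  refine (norm_le_re_add_im _).trans_lt ?_
  have e1 : |w.re| ≤ 2 := by rw [abs_le]; constructor <;> linarith
  have e2 : |w.im| ≤ 2 := by rw [abs_le]; constructor <;> linarith
  linarith

end Vale.Agent.P148.R2.H995
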