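import Mathlib

/-!
# Path surgery: an arm across a square annulus contains a half-plane arm (P148, module R5)
-/

open Set Metric

namespace Vale.Agent.P148.R2.H995

/-- The four turns. -/
def Turn (ι : ℂ) : Prop := ι = 1 ∨ ι = Complex.I ∨ ι = -1 ∨ ι = -Complex.I

/-- sup norm -/
noncomputable def nsup (z : ℂ) : ℝ := max |z.re| |z.im|

theorem Turn.bd {ι : ℂ} (h : Turn ι) (z : ℂ) : |(ι * z).re| ≤ nsup z ∧ |(ι * z).im| ≤ nsup z := by
  rcases h with rfl | rfl | rfl | rfl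
  · simp [nsup]
  · simp [nsup, Complex.mul_re, Complex.mul_im]
  · simp [nsup]
  · simp [nsup, Complex.mul_re, Complex.mul_im]

theorem Turn.norm {ι : ℂ} (h : Turn ι) : ‖ι‖ = 1 := by
  rcases h with rfl | rfl | rfl | rfl <;> simp

theorem Turn.conj_mul {ι : ℂ} (h : Turn ι) : ι * (starRingEnd ℂ) ι = 1 := by
  rcases h with rfl | rfl | rfl | rfl <;> simp

theorem exists_turn_re (z : ℂ) : ∃ ι : ℂ, Turn ι ∧ (ι * z).re = nsup z := by
  have hm : nsup z = |z.re| ∨ nsup z = |z.im| := max_choice _ _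
  rcases hm with h | h
  · rcases abs_choice z.re with h' | h'
    · exact ⟨1, Or.inl rfl, by rw [h, h', one_mul]⟩
    · refine ⟨-1, Or.inr (Or.inr (Or.inl rfl)), ?_⟩
      rw [h, h']; simp
  · rcases abs_choice z.im with h' | h'
    · refine ⟨-Complex.I, Or.inr (Or.inr (Or.inr rfl)), ?_⟩
      rw [h, h']; simp
    · refine ⟨Complex.I, Or.inr (Or.inl rfl), ?_⟩
      rw [h, h']; simp

theorem turn_re_sub_le {ι : ℂ} (h : Turn ι) (p z w : ℂ) :
    (ι * (z - p)).re ≤ (ι * (w - p)).re + dist z w := by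
  have h1 : (ι * (z - p)).re - (ι * (w - p)).re = (ι * (z - w)).re := by
    rw [← Complex.sub_re]; congr 1; ring
  have h2 : (ι * (z - w)).re ≤ dist z w := by
    refine (Complex.re_le_norm _).trans ?_
    rw [norm_mul, h.norm, one_mul, Complex.dist_eq]
  linarith

/-- **Path surgery.** -/
theorem surgery {p : ℂ} {r R ε : ℝ} (hε : ε < R - r) {m : ℕ} {w : ℕ → ℂ}
    (hw : ∀ i < m, dist (w i) (w (i + 1)) ≤ ε) (h0 : nsup (w 0 - p) ≤ r)
    (h1 : R ≤ nsup (w m - p)) (hrR : r < R) :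
    ∃ ι, Turn ι ∧ ∃ a b, a ≤ b ∧ b ≤ m ∧ (∀ i, a ≤ i → i ≤ b → r < (ι * (w i - p)).re) ∧
      (ι * (w a - p)).re ≤ r + ε ∧ |(ι * (w a - p)).im| ≤ R ∧ R ≤ (ι * (w b - p)).re := by
  classical
  -- first exit
  have hex : ∃ n, R ≤ nsup (w n - p) := ⟨m, h1⟩
  set b := Nat.find hex with hb
  have hbR : R ≤ nsup (w b - p) := Nat.find_spec hex
  have hbm : b ≤ m := Nat.find_min' hex h1
  have hlt : ∀ i < b, nsup (w i - p) < R := fun i hi => not_le.1 (Nat.find_min hex hi)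
  obtain ⟨ι, hι, hιb⟩ := exists_turn_re (w b - p)
  have hb0 : b ≠ 0 := by
    intro h
    rw [h] at hbR
    linarith
  -- last time in the half plane
  have hz : (ι * (w 0 - p)).re ≤ r := ((abs_le.1 (hι.bd (w 0 - p)).1).2).trans h0
  set q := Nat.findGreatest (fun i => (ι * (w i - p)).re ≤ r) b with hq
  have hq1 : (ι * (w q - p)).re ≤ r := Nat.findGreatest_spec (P := fun i => (ι * (w i - p)).re ≤ r)
    (Nat.zero_le b) hz
  have hqb : q ≤ b := Nat.findGreatest_le b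
  have hqb' : q < b := by
    rcases hqb.lt_or_eq with h | h
    · exact h
    · rw [h, hιb] at hq1; linarith
  have hgt : ∀ i, q + 1 ≤ i → i ≤ b → r < (ι * (w i - p)).re := by
    intro i hi hib
    exact not_le.1 (Nat.findGreatest_is_greatest (P := fun i => (ι * (w i - p)).re ≤ r) hi hib)
  have hstep : (ι * (w (q + 1) - p)).re ≤ r + ε := by
    have := turn_re_sub_le hι p (w (q + 1)) (w q)
    have h2 := hw q (hqb'.trans_le hbm)
    rw [dist_comm] at h2
    linarith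
  have hlt' : q + 1 < b := by
    rcases (Nat.succ_le_of_lt hqb').lt_or_eq with h | h
    · exact h
    · exfalso
      have h' : q + 1 = b := h
      rw [h', hιb] at hstep
      linarith
  refine ⟨ι, hι, q + 1, b, hlt'.le, hbm, hgt, hstep, ?_, hιb ▸ hbR⟩
  exact ((hι.bd _).2).trans (hlt _ hlt').le

/-- The centres on the side of the inner square (moved inside by `h`). -/
noncomputable def centre (p ι : ℂ) (r h s : ℝ) (j : ℤ) : ℂ :=
  p + (starRingEnd ℂ) ι * (((r - h : ℝ) : ℂ) + ((j * s : ℝ) : ℂ) * Complex.I)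

theorem mul_centre {ι : ℂ} (hι : Turn ι) (p : ℂ) (r h s : ℝ) (j : ℤ) (z : ℂ) :
    ι * (z - centre p ι r h s j) =
      ι * (z - p) - (((r - h : ℝ) : ℂ) + ((j * s : ℝ) : ℂ) * Complex.I) := by
  unfold centre
  have := hι.conj_mul
  linear_combination (-(((r - h : ℝ) : ℂ) + ((j * s : ℝ) : ℂ) * Complex.I)) * this

theorem re_mul_centre {ι : ℂ} (hι : Turn ι) (p : ℂ) (r h s : ℝ) (j : ℤ) (z : ℂ) :
    (ι * (z - centre p ι r h s j)).re = (ι * (z - p)).re - (r - h) := by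
  rw [mul_centre hι]; simp

theorem im_mul_centre {ι : ℂ} (hι : Turn ι) (p : ℂ) (r h s : ℝ) (j : ℤ) (z : ℂ) :
    (ι * (z - centre p ι r h s j)).im = (ι * (z - p)).im - j * s := by
  rw [mul_centre hι]; simp

theorem dist_eq_mul {ι : ℂ} (hι : Turn ι) (z k : ℂ) : dist z k = ‖ι * (z - k)‖ := by
  rw [norm_mul, hι.norm, one_mul, Complex.dist_eq]

theorem norm_le_re_add_im (z : ℂ) : ‖z‖ ≤ |z.re| + |z.im| := Complex.norm_le_abs_re_add_abs_im z

/-- An arm across a square annulus contains a half-plane arm started near one of the centres. -/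
theorem surgery_centre {p : ℂ} {r R ε h s : ℝ} (hε : ε < R - r) (hh : 0 ≤ h) (hs : 0 < s)
    {m : ℕ} {w : ℕ → ℂ} (hw : ∀ i < m, dist (w i) (w (i + 1)) ≤ ε) (h0 : nsup (w 0 - p) ≤ r)
    (h1 : R ≤ nsup (w m - p)) (hrR : r < R) :
    ∃ ι, Turn ι ∧ ∃ j : ℤ, |(j : ℝ)| ≤ R / s + 1 ∧ ∃ a b, a ≤ b ∧ b ≤ m ∧
      (∀ i, a ≤ i → i ≤ b → h < (ι * (w i - centre p ι r h s j)).re) ∧
      dist (w a) (centre p ι r h s j) ≤ ε + h + s ∧
      R - r + h ≤ dist (w b) (centre p ι r h s j) := by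
  obtain ⟨ι, hι, a, b, hab, hbm, hgt, ha, him, hb⟩ := surgery hε hw h0 h1 hrR
  set y := (ι * (w a - p)).im with hy
  set j : ℤ := round (y / s) with hj
  have hjy : |y / s - j| ≤ 1 / 2 := abs_sub_round _
  have hjy' : |y - j * s| ≤ s := by
    have h2 : y - j * s = (y / s - j) * s := by field_simp
    rw [h2, abs_mul, abs_of_pos hs]
    nlinarith
  refine ⟨ι, hι, j, ?_, a, b, hab, hbm, fun i hi hib => ?_, ?_, ?_⟩
  · have h3 : |(j : ℝ)| ≤ |y / s| + 1 / 2 := by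
      have := abs_sub_abs_le_abs_sub (j : ℝ) (y / s)
      rw [abs_sub_comm] at this
      linarith
    have h4 : |y / s| ≤ R / s := by
      rw [abs_div, abs_of_pos hs]
      exact div_le_div_of_nonneg_right him hs.le
    linarith
  · rw [re_mul_centre hι]
    have := hgt i hi hib
    linarith
  · rw [dist_eq_mul hι]
    refine (norm_le_re_add_im _).trans ?_
    rw [re_mul_centre hι, im_mul_centre hι]
    have h5 := hgt a le_rfl hab
    have h6 : |(ι * (w a - p)).re - (r - h)| ≤ ε + h := by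
      rw [abs_le]; constructor <;> linarith
    linarith
  · rw [dist_eq_mul hι]
    refine le_trans ?_ (Complex.re_le_norm _)
    rw [re_mul_centre hι]
    linarith

/-- Half-plane arms: paths for `rel` in `W` staying in `{h < Re ι(z - k)}` from the ball of radius
`ρ` at `k` to distance `D`. -/
def HPArm (rel : ℂ → ℂ → Prop) (W : Set ℂ) (k ι : ℂ) (h ρ D : ℝ) : Prop :=
  ∃ (n : ℕ) (v : ℕ → ℂ), (∀ i < n, rel (v i) (v (i + 1))) ∧
    (∀ i ≤ n, v i ∈ W ∧ h < (ι * (v i - k)).re) ∧ dist (v 0) k ≤ ρ ∧ D ≤ dist (v n) k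

/-- Arms across a square annulus. -/
def SqArm (rel : ℂ → ℂ → Prop) (W : Set ℂ) (p : ℂ) (r R : ℝ) : Prop :=
  ∃ (n : ℕ) (v : ℕ → ℂ), (∀ i < n, rel (v i) (v (i + 1))) ∧ (∀ i ≤ n, v i ∈ W) ∧
    nsup (v 0 - p) ≤ r ∧ R ≤ nsup (v n - p)

theorem SqArm.hp {rel : ℂ → ℂ → Prop} {W : Set ℂ} {p : ℂ} {r R ε h s : ℝ}
    (hA : SqArm rel W p r R) (hrel : ∀ u v, rel u v → u ∈ W → v ∈ W → dist u v ≤ ε)
    (hε : ε < R - r) (hh : 0 ≤ h) (hs : 0 < s) (hrR : r < R) :
    ∃ ι, Turn ι ∧ ∃ j : ℤ, |(j : ℝ)| ≤ R / s + 1 ∧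
      HPArm rel W (centre p ι r h s j) ι h (ε + h + s) (R - r + h) := by
  obtain ⟨n, v, h1, h2, h3, h4⟩ := hA
  obtain ⟨ι, hι, j, hj, a, b, hab, hbm, hgt, ha, hb⟩ := surgery_centre (h := h) (s := s) hε hh hs
    (fun i hi => hrel _ _ (h1 i hi) (h2 i hi.le) (h2 (i + 1) hi)) h3 h4 hrR
  refine ⟨ι, hι, j, hj, b - a, fun i => v (a + i), fun i hi => ?_, fun i hi => ⟨?_, ?_⟩, ?_, ?_⟩
  · exact h1 (a + i) (by omega)
  · exact h2 (a + i) (by omega)
  · exact hgt (a + i) (by omega) (by omega)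
  · simpa using ha
  · have : a + (b - a) = b := by omega
    simpa [this] using hb

/-- The set of centres is finite. -/
theorem finite_centres (c : ℝ) : {j : ℤ | |(j : ℝ)| ≤ c}.Finite := by
  refine (Set.finite_Icc (-⌈c⌉) ⌈c⌉).subset fun j hj => ?_
  have h1 := abs_le.1 (show |(j : ℝ)| ≤ c from hj)
  have h2 : c ≤ ⌈c⌉ := Int.le_ceil c
  constructor
  · have : -(⌈c⌉ : ℝ) ≤ j := by linarith
    exact_mod_cast this
  · have : (j : ℝ) ≤ ⌈c⌉ := by linarith
    exact_mod_cast this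

end Vale.Agent.P148.R2.H995
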