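import Vale.Agent.P148.R2.H995.Circ2

/-!
# P148, module E2: circuits in rectangular annuli, in any frame (deterministic and quenched)
-/

open Set Metric
open scoped unitInterval

namespace Vale.Agent.P148.R2.H995

open H592 H938

/-- The extent of the turned box: `x` for `u = ± 1`, `y` for `u = ± I`. -/
noncomputable def sw (u : ℂ) (x y : ℝ) : ℝ := by
  classical exact if u = 1 ∨ u = -1 then x else y

theorem one_ne_I : (1 : ℂ) ≠ Complex.I := fun h => by simpa using congrArg Complex.im h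

theorem neg_one_ne_I : (-1 : ℂ) ≠ Complex.I := fun h => by simpa using congrArg Complex.im h

@[simp] theorem sw_one (x y : ℝ) : sw 1 x y = x := by simp [sw]

@[simp] theorem sw_neg_one (x y : ℝ) : sw (-1) x y = x := by simp [sw]

@[simp] theorem sw_I (x y : ℝ) : sw Complex.I x y = y := by
  have h1 : Complex.I ≠ 1 := one_ne_I.symm
  have h2 : Complex.I ≠ -1 := neg_one_ne_I.symm
  simp [sw, h1, h2]

@[simp] theorem sw_neg_I (x y : ℝ) : sw (-Complex.I) x y = y := by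
  have h1 : -Complex.I ≠ 1 := fun h => neg_one_ne_I (by rw [← h, neg_neg])
  have h2 : -Complex.I ≠ -1 := fun h => one_ne_I.symm (neg_injective h)
  simp [sw, h1, h2]

theorem sw_next {u : ℂ} (hu : Turn u) (x y : ℝ) : sw (-Complex.I * u) x y = sw u y x := by
  rcases hu with rfl | rfl | rfl | rfl
  · simp
  · rw [neg_mul, Complex.I_mul_I, neg_neg]; simp
  · rw [show -Complex.I * -1 = Complex.I by ring]; simp
  · rw [neg_mul_neg, Complex.I_mul_I]; simp

theorem Turn.next {u : ℂ} (hu : Turn u) : Turn (-Complex.I * u) := by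
  rcases hu with rfl | rfl | rfl | rfl
  · right; right; right; ring
  · left; rw [neg_mul, Complex.I_mul_I, neg_neg]
  · right; left; ring
  · right; right; left; rw [neg_mul_neg, Complex.I_mul_I]

/-- A curve from the inner rectangle to the outside of the outer rectangle crosses one of the four
strips. -/
theorem exists_turn_rect {f : I → ℂ} (hf : Continuous f) {a1 a2 b1 b2 : ℝ} (ha1 : 0 ≤ a1)
    (ha : a1 < a2) (hb1 : 0 ≤ b1) (hb : b1 < b2) (h0 : |(f 0).re| ≤ a1) (h0' : |(f 0).im| ≤ b1)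
    (h1 : a2 ≤ |(f 1).re| ∨ b2 ≤ |(f 1).im|) :
    ∃ u : ℂ, Turn u ∧ ∃ S T : I, S ≤ T ∧
      (∀ s, S ≤ s → s ≤ T → -sw u a2 b2 ≤ (u * f s).re ∧ (u * f s).re ≤ sw u a2 b2) ∧
      (u * f S).im ≤ sw u b1 a1 ∧ sw u b2 a2 ≤ (u * f T).im := by
  have ha2 : 0 < a2 := by linarith
  have hb2 : 0 < b2 := by linarith
  set n : ℂ → ℝ := fun z => max (|z.re| / a2) (|z.im| / b2) with hn
  have hnc : Continuous n := by
    rw [hn]
    exact ((continuous_abs.comp Complex.continuous_re).div_const _).max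
      ((continuous_abs.comp Complex.continuous_im).div_const _)
  have hc : Continuous fun s => n (f s) := hnc.comp hf
  have n0 : n (f 0) < 1 := by
    rw [hn]
    refine max_lt ?_ ?_
    · rw [div_lt_one ha2]; linarith
    · rw [div_lt_one hb2]; linarith
  have n1 : 1 ≤ n (f 1) := by
    rcases h1 with h | h
    · exact le_trans ((one_le_div ha2).2 h) (le_max_left _ _)
    · exact le_trans ((one_le_div hb2).2 h) (le_max_right _ _)
  have hne : {s : I | 1 ≤ n (f s)}.Nonempty := ⟨1, n1⟩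
  have hcl : IsClosed {s : I | 1 ≤ n (f s)} := isClosed_le continuous_const hc
  obtain ⟨T, hT⟩ := hcl.isCompact.exists_isLeast hne
  have hTR : ∀ s, s ≤ T → n (f s) ≤ 1 := by
    intro s hs
    rcases hs.lt_or_eq with hlt | rfl
    · by_contra hcon
      exact absurd (hT.2 (show 1 ≤ n (f s) from (not_le.1 hcon).le)) (not_le.2 hlt)
    · by_contra hcon
      have hcon' : 1 < n (f s) := not_le.1 hcon
      have h3 : (1 : ℝ) ∈ Icc (n (f 0)) (n (f s)) := ⟨n0.le, hcon'.le⟩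
      obtain ⟨u, hu, hu2⟩ := intermediate_value_Icc (show (0 : I) ≤ s from bot_le)
        hc.continuousOn h3
      have h5 : s ≤ u := hT.2 (show 1 ≤ n (f u) from hu2.ge)
      have h6 : u = s := le_antisymm hu.2 h5
      rw [h6] at hu2
      exact absurd hu2 hcon'.ne'
  have hTe : n (f T) = 1 := le_antisymm (hTR T le_rfl) hT.1
  -- bounds up to time T
  have hbd : ∀ s, s ≤ T → |(f s).re| ≤ a2 ∧ |(f s).im| ≤ b2 := by
    intro s hs
    have h3 := hTR s hs
    have h4 : |(f s).re| / a2 ≤ 1 := (le_max_left _ _).trans h3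
    have h5 : |(f s).im| / b2 ≤ 1 := (le_max_right _ _).trans h3
    exact ⟨(div_le_one ha2).1 h4, (div_le_one hb2).1 h5⟩
  -- choose the side
  have side : ∃ u : ℂ, Turn u ∧ (u * f T).im = sw u b2 a2 := by
    have hm : n (f T) = |(f T).re| / a2 ∨ n (f T) = |(f T).im| / b2 := max_choice _ _
    rcases hm with h | h
    · have h' : |(f T).re| = a2 := by
        rw [hTe] at h
        field_simp at h
        linarith
      rcases abs_choice (f T).re with h'' | h''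
      · refine ⟨Complex.I, Or.inr (Or.inl rfl), ?_⟩
        simp only [Complex.mul_im, Complex.I_re, Complex.I_im, sw_I]
        linarith
      · refine ⟨-Complex.I, Or.inr (Or.inr (Or.inr rfl)), ?_⟩
        simp only [Complex.mul_im, Complex.neg_re, Complex.neg_im, Complex.I_re, Complex.I_im,
          sw_neg_I]
        linarith
    · have h' : |(f T).im| = b2 := by
        rw [hTe] at h
        field_simp at h
        linarith
      rcases abs_choice (f T).im with h'' | h''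
      · exact ⟨1, Or.inl rfl, by rw [one_mul, sw_one]; linarith⟩
      · refine ⟨-1, Or.inr (Or.inr (Or.inl rfl)), ?_⟩
        simp only [neg_mul, one_mul, Complex.neg_im, sw_neg_one]; linarith
  obtain ⟨u, hu, huT⟩ := side
  have hre : ∀ s, s ≤ T → -sw u a2 b2 ≤ (u * f s).re ∧ (u * f s).re ≤ sw u a2 b2 := by
    intro s hs
    obtain ⟨h3, h4⟩ := hbd s hs
    rw [abs_le] at h3 h4
    rcases hu with rfl | rfl | rfl | rfl
    · simp only [one_mul, sw_one]; exact ⟨by linarith, by linarith⟩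
    · simp only [Complex.mul_re, Complex.I_re, Complex.I_im, sw_I]
      exact ⟨by linarith, by linarith⟩
    · simp only [neg_mul, one_mul, Complex.neg_re, sw_neg_one]; exact ⟨by linarith, by linarith⟩
    · simp only [Complex.mul_re, Complex.neg_re, Complex.neg_im, Complex.I_re, Complex.I_im,
        sw_neg_I]
      exact ⟨by linarith, by linarith⟩
  have him0 : (u * f 0).im ≤ sw u b1 a1 := by
    rw [abs_le] at h0 h0'
    rcases hu with rfl | rfl | rfl | rfl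
    · simp only [one_mul, sw_one]; linarith
    · simp only [Complex.mul_im, Complex.I_re, Complex.I_im, sw_I]
      linarith
    · simp only [neg_mul, one_mul, Complex.neg_im, sw_neg_one]; linarith
    · simp only [Complex.mul_im, Complex.neg_re, Complex.neg_im, Complex.I_re, Complex.I_im,
        sw_neg_I]
      linarith
  have hcι : Continuous fun s => (u * f s).im :=
    Complex.continuous_im.comp (continuous_const.mul hf)
  have hne2 : {s : I | s ≤ T ∧ (u * f s).im ≤ sw u b1 a1}.Nonempty := ⟨0, bot_le, him0⟩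
  have hcl2 : IsClosed {s : I | s ≤ T ∧ (u * f s).im ≤ sw u b1 a1} :=
    (isClosed_le continuous_id continuous_const).inter (isClosed_le hcι continuous_const)
  obtain ⟨S, hS⟩ := hcl2.isCompact.exists_isGreatest hne2
  exact ⟨u, hu, S, T, hS.1.1, fun s _ hs => hre s hs, hS.1.2, huT.ge⟩

/-- **No arm** out of a rectangle. -/
theorem no_arm_rect {X : Set ℂ} (hX : Three X) {ι p : ℂ} (hι : ‖ι‖ = 1) {a1 a2 b1 b2 : ℝ}
    (ha1 : 0 ≤ a1) (ha : a1 < a2) (hb1 : 0 ≤ b1) (hb : b1 < b2) {B W : Set ℂ}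
    (hBW : Disjoint B W)
    (hB : ∀ u : ℂ, Turn u → ∃ (n : ℕ) (v : ℕ → ℂ), (∀ i < n, nbr X (v i) (v (i + 1))) ∧
        (∀ i ≤ n, v i ∈ B ∧ sw u b1 a1 ≤ (u * ι * (v i - p)).im ∧
          (u * ι * (v i - p)).im ≤ sw u b2 a2) ∧
        (u * ι * (v 0 - p)).re ≤ -sw u a2 b2 ∧ sw u a2 b2 ≤ (u * ι * (v n - p)).re)
    {m : ℕ} {w : ℕ → ℂ} (hw : ∀ i < m, nbr X (w i) (w (i + 1))) (hwW : ∀ i ≤ m, w i ∈ W)
    (hw0 : |(ι * (w 0 - p)).re| ≤ a1) (hw0' : |(ι * (w 0 - p)).im| ≤ b1)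
    (hw1 : a2 ≤ |(ι * (w m - p)).re| ∨ b2 ≤ |(ι * (w m - p)).im|) : False := by
  have hm : m ≠ 0 := by
    rintro rfl
    rcases hw1 with h | h <;> linarith
  obtain ⟨m, rfl⟩ := Nat.exists_eq_succ_of_ne_zero hm
  obtain ⟨γ, hγ⟩ := exists_curve w m
  obtain ⟨u, hu, S, T, hST, hre, h0, h1⟩ := exists_turn_rect (f := fun s => ι * (γ s - p))
    (by fun_prop) ha1 ha hb1 hb (by simpa using hw0) (by simpa using hw0') (by simpa using hw1)
  obtain ⟨n, v, hv, hvB, hv0, hv1⟩ := hB u hu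
  have hswp : 0 < sw u a2 b2 := by
    rcases hu with rfl | rfl | rfl | rfl <;> simp <;> linarith
  have hn : n ≠ 0 := by rintro rfl; linarith
  obtain ⟨n, rfl⟩ := Nat.exists_eq_succ_of_ne_zero hn
  obtain ⟨δ, hδ⟩ := exists_curve v n
  let δ' : C(I, ℂ) := ⟨fun t => u * ι * (δ t - p), by fun_prop⟩
  have hδ' : ∀ t, sw u b1 a1 ≤ (δ' t).im ∧ (δ' t).im ≤ sw u b2 a2 := by
    intro t
    obtain ⟨i, hi, x, hu0, hu1, he⟩ := hδ t
    show sw u b1 a1 ≤ (u * ι * (δ t - p)).im ∧ (u * ι * (δ t - p)).im ≤ sw u b2 a2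
    rw [he, sg_affine, sg_im]
    exact ⟨le_cvx hu0 hu1 (hvB i (by omega)).2.1 (hvB (i + 1) (by omega)).2.1,
      cvx_le hu0 hu1 (hvB i (by omega)).2.2 (hvB (i + 1) (by omega)).2.2⟩
  obtain ⟨s, t, he⟩ := crossing_sub (a := -sw u a2 b2) (b := sw u a2 b2) (c := sw u b1 a1)
    (d := sw u b2 a2) (f := fun s => u * (ι * (γ s - p))) (by fun_prop) δ' hST hre hδ' h0 h1
    (by show (u * ι * (δ 0 - p)).re ≤ _; rw [δ.source]; exact hv0)
    (by show _ ≤ (u * ι * (δ 1 - p)).re; rw [δ.target]; exact hv1)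
  have hι0 : u * ι ≠ 0 := by
    have h2 : ‖u * ι‖ = 1 := by rw [norm_mul, hu.norm, hι, one_mul]
    intro h3
    rw [h3] at h2
    simp at h2
  have he' : γ s = δ t := by
    have h2 : u * (ι * (γ s - p)) = u * ι * (δ t - p) := he
    rw [← mul_assoc] at h2
    have := mul_left_cancel₀ hι0 h2
    linear_combination this
  obtain ⟨i, hi, x, hu0, hu1, e1⟩ := hγ s
  obtain ⟨j, hj, x', hu0', hu1', e2⟩ := hδ t
  have neq : ∀ i ≤ m + 1, ∀ j ≤ n + 1, w i ≠ v j := by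
    intro i hi j hj h
    exact (Set.disjoint_left.1 hBW (hvB j hj).1) (h ▸ hwW i hi)
  refine seg_disjoint hX (hw i hi) (hv j hj) (neq _ (by omega) _ (by omega))
    (neq _ (by omega) _ (by omega)) (neq _ (by omega) _ (by omega))
    (neq _ (by omega) _ (by omega)) hu0 hu1 hu0' hu1' ?_
  rw [← e1, ← e2, he']

/-- The closed rectangular annulus in the frame `ι`. -/
def RAn (ι p : ℂ) (a1 a2 b1 b2 : ℝ) : Set ℂ :=
  {z | |(ι * (z - p)).re| ≤ a2 ∧ |(ι * (z - p)).im| ≤ b2 ∧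
    (a1 ≤ |(ι * (z - p)).re| ∨ b1 ≤ |(ι * (z - p)).im|)}

/-- A connected set of points of `W` in the closed rectangular annulus, which is met by every path
from the inner rectangle to the outside. -/
def RCirc (X W : Set ℂ) (ι p : ℂ) (a1 a2 b1 b2 : ℝ) : Prop :=
  ∃ K : Set ℂ, K ⊆ W ∧ K.Finite ∧ K.Nonempty ∧ K ⊆ RAn ι p a1 a2 b1 b2 ∧
    (∀ u ∈ K, ∀ w ∈ K, Chain (nbr X) K u w) ∧
    ∀ (m : ℕ) (w : ℕ → ℂ), (∀ i < m, nbr X (w i) (w (i + 1))) →
      |(ι * (w 0 - p)).re| ≤ a1 → |(ι * (w 0 - p)).im| ≤ b1 →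
      (a2 ≤ |(ι * (w m - p)).re| ∨ b2 ≤ |(ι * (w m - p)).im|) → ∃ i ≤ m, w i ∈ K

theorem RCirc.mono {X W W' : Set ℂ} {ι p : ℂ} {a1 a2 b1 b2 : ℝ}
    (h : RCirc X W ι p a1 a2 b1 b2) (hW : W ∩ RAn ι p a1 a2 b1 b2 ⊆ W') :
    RCirc X W' ι p a1 a2 b1 b2 := by
  obtain ⟨K, h1, h2, h3, h4, h5⟩ := h
  exact ⟨K, fun z hz => hW ⟨h1 hz, h4 hz⟩, h2, h3, h4, h5⟩

theorem rAn_of_box {u ι p z : ℂ} (hu : Turn u) {a1 a2 b1 b2 t : ℝ} (ha1 : 0 ≤ a1) (hb1 : 0 ≤ b1)
    (ht : 0 ≤ t)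
    (h : u * ι * (z - p) ∈ Rc (-sw u a2 b2 - t) (sw u a2 b2 + t) (sw u b1 a1) (sw u b2 a2)) :
    z ∈ RAn ι p a1 (a2 + t) b1 (b2 + t) := by
  obtain ⟨c1, c2, c3, c4⟩ := h
  rw [mul_assoc] at c1 c2 c3 c4
  rcases hu with rfl | rfl | rfl | rfl
  · simp only [one_mul, sw_one] at c1 c2 c3 c4
    refine ⟨abs_le.2 ⟨by linarith, by linarith⟩, abs_le.2 ⟨by linarith, by linarith⟩, Or.inr ?_⟩
    exact c3.trans (le_abs_self _)
  · rw [Complex.I_mul_re, sw_I] at c1 c2
    rw [Complex.I_mul_im, sw_I] at c3 c4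
    refine ⟨abs_le.2 ⟨by linarith, by linarith⟩, abs_le.2 ⟨by linarith, by linarith⟩, Or.inl ?_⟩
    exact c3.trans (le_abs_self _)
  · simp only [neg_mul, one_mul, Complex.neg_re, Complex.neg_im, sw_neg_one] at c1 c2 c3 c4
    refine ⟨abs_le.2 ⟨by linarith, by linarith⟩, abs_le.2 ⟨by linarith, by linarith⟩, Or.inr ?_⟩
    exact c3.trans (neg_le_abs _)
  · rw [neg_mul, Complex.neg_re, Complex.I_mul_re, sw_neg_I] at c1 c2
    rw [neg_mul, Complex.neg_im, Complex.I_mul_im, sw_neg_I] at c3 c4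
    refine ⟨abs_le.2 ⟨by linarith, by linarith⟩, abs_le.2 ⟨by linarith, by linarith⟩, Or.inl ?_⟩
    exact c3.trans (neg_le_abs _)

/-- **Four crossings give a circuit in a rectangular annulus.** -/
theorem rcirc_of_tcr {X W : Set ℂ} (hX : Three X) {ι p : ℂ} (hι : ‖ι‖ = 1)
    {a1 a2 b1 b2 t : ℝ} (ha1 : 0 ≤ a1) (ha : a1 < a2) (hb1 : 0 ≤ b1) (hb : b1 < b2) (ht : 0 ≤ t)
    (h : ∀ u, Turn u → TCr X W (u * ι) p (-sw u a2 b2) (sw u a2 b2) (sw u b1 a1) (sw u b2 a2) t) :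
    RCirc X W ι p a1 (a2 + t) b1 (b2 + t) := by
  choose! n v h1 h2 h3 h4 using h
  set P : ℂ → Set ℂ := fun ι => {z | ∃ k ≤ n ι, z = v ι k} with hP
  set K : Set ℂ := P 1 ∪ P (-Complex.I) ∪ P (-1) ∪ P Complex.I with hK
  have t1 : Turn 1 := Or.inl rfl
  have t2 : Turn (-Complex.I) := Or.inr (Or.inr (Or.inr rfl))
  have t3 : Turn (-1) := Or.inr (Or.inr (Or.inl rfl))
  have t4 : Turn Complex.I := Or.inr (Or.inl rfl)
  have mem : ∀ ι, Turn ι → P ι ⊆ K := by
    rintro ι (rfl | rfl | rfl | rfl) z hz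
    · exact Or.inl (Or.inl (Or.inl hz))
    · exact Or.inr hz
    · exact Or.inl (Or.inr hz)
    · exact Or.inl (Or.inl (Or.inr hz))
  have cases : ∀ z ∈ K, ∃ ι, Turn ι ∧ z ∈ P ι := by
    rintro z (((hz | hz) | hz) | hz)
    · exact ⟨_, t1, hz⟩
    · exact ⟨_, t2, hz⟩
    · exact ⟨_, t3, hz⟩
    · exact ⟨_, t4, hz⟩
  have hs : ∀ a b, nbr X a b → nbr X b a := fun a b => nbr_symm
  have sp : ∀ u, Turn u → 0 < sw u a2 b2 := by
    rintro u (rfl | rfl | rfl | rfl) <;> simp <;> linarith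
  have sp1 : ∀ u, Turn u → 0 ≤ sw u a1 b1 := by
    rintro u (rfl | rfl | rfl | rfl) <;> simp <;> linarith
  have sp2 : ∀ u, Turn u → 0 ≤ sw u b1 a1 := by
    rintro u (rfl | rfl | rfl | rfl) <;> simp <;> linarith
  have sp3 : ∀ u, Turn u → sw u a1 b1 < sw u a2 b2 := by
    rintro u (rfl | rfl | rfl | rfl) <;> simp <;> linarith
  have sp4 : ∀ u, Turn u → sw u b1 a1 < sw u b2 a2 := by
    rintro u (rfl | rfl | rfl | rfl) <;> simp <;> linarith
  -- consecutive paths share a vertex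
  have share : ∀ u, Turn u → ∃ z, z ∈ P u ∧ z ∈ P (-Complex.I * u) := by
    intro u hu
    have hu' := hu.next
    have k2 : ∀ i ≤ n (-Complex.I * u), (-Complex.I * (u * ι)) * (v (-Complex.I * u) i - p) ∈
        Rc (-sw u b2 a2 - t) (sw u b2 a2 + t) (sw u a1 b1) (sw u a2 b2) := by
      intro i hi
      have := (h2 _ hu' i hi).2
      simp only [sw_next hu] at this
      rwa [mul_assoc (-Complex.I) u ι] at this
    have k3 : ((-Complex.I * (u * ι)) * (v (-Complex.I * u) 0 - p)).re ≤ -sw u b2 a2 := by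
      have := h3 _ hu'
      simp only [sw_next hu] at this
      rwa [mul_assoc (-Complex.I) u ι] at this
    have k4 : sw u b2 a2 ≤
        ((-Complex.I * (u * ι)) * (v (-Complex.I * u) (n (-Complex.I * u)) - p)).re := by
      have := h4 _ hu'
      simp only [sw_next hu] at this
      rwa [mul_assoc (-Complex.I) u ι] at this
    obtain ⟨i, hi, j, hj, he⟩ := tcr_meet hX (ι := u * ι) (p := p)
      (by rw [norm_mul, hu.norm, hι, one_mul]) (x0 := -sw u a2 b2) (x1 := sw u a2 b2)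
      (y0 := sw u b1 a1) (y1 := sw u b2 a2) (x0' := -sw u b2 a2) (x1' := sw u b2 a2)
      (y0' := sw u a1 b1) (y1' := sw u a2 b2) (t := t) (t' := t) (h1 u hu)
      (fun i hi => (h2 u hu i hi).2) (h3 u hu) (h4 u hu) (h1 _ hu') k2 k3 k4
      le_rfl (by linarith [sp1 u hu, sp u hu])
      (by linarith [sp2 u hu, sp4 u hu]) le_rfl (sp3 u hu) (sp4 u hu)
    exact ⟨_, ⟨i, hi, rfl⟩, ⟨j, hj, he⟩⟩
  have inP : ∀ ι, Turn ι → ∀ u ∈ P ι, ∀ w ∈ P ι, Chain (nbr X) K u w := by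
    rintro ι hι u ⟨i, hi, rfl⟩ w ⟨j, hj, rfl⟩
    exact (chain_path hs (h1 ι hι) hi hj).mono (mem ι hι)
  obtain ⟨z0, hz0⟩ : ∃ z, z ∈ P 1 := ⟨v 1 0, 0, Nat.zero_le _, rfl⟩
  obtain ⟨z1, k1, l1⟩ := share 1 t1
  rw [mul_one] at l1
  have e2 : -Complex.I * -Complex.I = -1 := by
    rw [neg_mul_neg, Complex.I_mul_I]
  obtain ⟨z2, k2, l2⟩ := share (-Complex.I) t2
  rw [e2] at l2
  have e3 : -Complex.I * -1 = Complex.I := by ring
  obtain ⟨z3, k3, l3⟩ := share (-1) t3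
  rw [e3] at l3
  have c1 : Chain (nbr X) K z0 z1 := inP 1 t1 _ hz0 _ k1
  have c2 : Chain (nbr X) K z0 z2 := c1.trans (inP _ t2 _ l1 _ k2)
  have c3 : Chain (nbr X) K z0 z3 := c2.trans (inP _ t3 _ l2 _ k3)
  have all : ∀ z ∈ K, Chain (nbr X) K z0 z := by
    rintro z (((hz | hz) | hz) | hz)
    · exact inP 1 t1 _ hz0 _ hz
    · exact c1.trans (inP _ t2 _ l1 _ hz)
    · exact c2.trans (inP _ t3 _ l2 _ hz)
    · exact c3.trans (inP _ t4 _ l3 _ hz)
  have fin : ∀ ι, (P ι).Finite := by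
    intro ι
    refine ((Set.finite_Iic (n ι)).image (v ι)).subset ?_
    rintro z ⟨k, hk, rfl⟩
    exact ⟨k, hk, rfl⟩
  refine ⟨K, ?_, (((fin _).union (fin _)).union (fin _)).union (fin _), ⟨z0, mem 1 t1 hz0⟩, ?_,
    fun u hu w hw => ((all u hu).symm hs).trans (all w hw), ?_⟩
  · intro z hz
    obtain ⟨u, hu, k, hk, rfl⟩ := cases z hz
    exact (h2 u hu k hk).1
  · intro z hz
    obtain ⟨u, hu, k, hk, rfl⟩ := cases z hz
    exact rAn_of_box hu ha1 hb1 ht (h2 u hu k hk).2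
  · intro m w hw hw0 hw0' hw1
    by_contra hcon
    push Not at hcon
    refine no_arm_rect hX hι ha1 ha hb1 hb (B := K) (W := Kᶜ) disjoint_compl_right
      (fun u hu => ⟨n u, v u, h1 u hu, fun i hi => ⟨mem u hu ⟨i, hi, rfl⟩,
        (h2 u hu i hi).2.2.2.1, (h2 u hu i hi).2.2.2.2⟩, h3 u hu, h4 u hu⟩) hw
      (fun i hi => hcon i hi) hw0 hw0' ?_
    rcases hw1 with h | h
    · left; linarith
    · right; linarith

/-- Harris: a lower bound for circuits in rectangular annuli. -/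
theorem cp_rcirc_ge {X N : Set ℂ} (hX : Three X) (hN : N.Finite) {ι p : ℂ} (hι : ‖ι‖ = 1)
    {a1 a2 b1 b2 t : ℝ} (ha1 : 0 ≤ a1) (ha : a1 < a2) (hb1 : 0 ≤ b1) (hb : b1 < b2) (ht : 0 ≤ t)
    {c : ℝ} (hc : 0 ≤ c)
    (h : ∀ u, Turn u → c ≤ cp N (fun W => TCr X W (u * ι) p (-sw u a2 b2) (sw u a2 b2)
      (sw u b1 a1) (sw u b2 a2) t)) :
    c ^ 4 ≤ cp N (fun W => RCirc X W ι p a1 (a2 + t) b1 (b2 + t)) := by
  classical
  set s : Finset ℂ := {1, Complex.I, -1, -Complex.I} with hs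
  have hmem : ∀ u ∈ s, Turn u := by
    intro u hu
    simp only [hs, Finset.mem_insert, Finset.mem_singleton] at hu
    exact hu
  have hmem' : ∀ u, Turn u → u ∈ s := by
    intro u hu
    simp only [hs, Finset.mem_insert, Finset.mem_singleton]
    exact hu
  have h1 := cp_harris_prod_inc hN s (Q := fun u W => TCr X W (u * ι) p (-sw u a2 b2) (sw u a2 b2)
      (sw u b1 a1) (sw u b2 a2) t)
    (fun u _ W W' hWW' H => H.mono fun z hz => hWW' hz.1)
  have h2 : ∏ u ∈ s, c ≤ ∏ u ∈ s, cp N (fun W => TCr X W (u * ι) p (-sw u a2 b2) (sw u a2 b2)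
      (sw u b1 a1) (sw u b2 a2) t) :=
    Finset.prod_le_prod (fun _ _ => hc) fun u hu => h u (hmem u hu)
  have hcard : s.card = 4 := card_turns
  rw [Finset.prod_const, hcard] at h2
  refine h2.trans (h1.trans (cp_mono hN fun W _ hW => ?_))
  exact rcirc_of_tcr hX hι ha1 ha hb1 hb ht fun u hu => hW u (hmem' u hu)

end Vale.Agent.P148.R2.H995
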