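import Vale.Agent.P148.R2.H938.ArmF
import Vale.Agent.P148.R2.H291.Whp
import Vale.Agent.P148.R2.H320.Hp
import Vale.Agent.P148.R2.H995.RCirc

/-!
# P148, module E2: lower bounds for crossings and circuits, quenched, with high probability
-/

open MeasureTheory Set Metric Topology Filter ProbabilityTheory
open _root_.P148
open scoped ENNReal NNReal

namespace Vale.Agent.P148.R2.H995

open Vale.Agent.P148.R2.F (whp)
open H592 H938

universe u

/-- The half-plane arm bound. -/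
theorem hpStmt : HPStmt.{u} :=
  H938.hpStmt (fun {_ _} h {_ _} hι {_ _ _ _ _ _ _ _} hJ hC hnet hb hε hη hρ0 hρ hR hD =>
    H320.hp_qpr h hι hJ hC hnet hb hε hη hρ0 hρ hR hD) H291.C0_nonneg
    fun k _ hr => H291.whp_ed_two k hr

theorem norm_le_of_Rc {ι p : ℂ} (hι : ‖ι‖ = 1) {x0 x1 y0 y1 : ℝ} {z : ℂ}
    (h : ι * (z - p) ∈ Rc x0 x1 y0 y1) : ‖z‖ ≤ ‖p‖ + (|x0| + |x1| + (|y0| + |y1|)) := by
  obtain ⟨a1, a2, a3, a4⟩ := h
  have h1 : ‖z - p‖ ≤ |x0| + |x1| + (|y0| + |y1|) := by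
    have h2 : ‖z - p‖ = ‖ι * (z - p)‖ := by rw [norm_mul, hι, one_mul]
    rw [h2]
    refine (Complex.norm_le_abs_re_add_abs_im _).trans (add_le_add ?_ ?_)
    · rw [abs_le]
      constructor
      · have := neg_abs_le x0
        have := abs_nonneg x1
        linarith
      · have := le_abs_self x1
        have := abs_nonneg x0
        linarith
    · rw [abs_le]
      constructor
      · have := neg_abs_le y0
        have := abs_nonneg y1
        linarith
      · have := le_abs_self y1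
        have := abs_nonneg y0
        linarith
  calc ‖z‖ = ‖p + (z - p)‖ := by congr 1; ring
    _ ≤ _ := (norm_add_le _ _).trans (by linarith)

/-- The net condition, from a net of a disc. -/
theorem netR_of_net {X : Set ℂ} (hfin : ∀ r : ℝ, (X ∩ ball (0 : ℂ) r).Finite) {ι p : ℂ}
    (hι : ‖ι‖ = 1) {x0 x1 y0 y1 s R : ℝ} (hs : 0 < s)
    (hR : ‖p‖ + (|x0| + |x1| + (|y0| + |y1|)) ≤ R)
    (hnet : ∀ z ∈ closedBall (0 : ℂ) R, ∃ w ∈ X, dist z w ≤ s) : NetR X ι p x0 x1 y0 y1 s := by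
  have hin : ∀ z, ι * (z - p) ∈ Rc x0 x1 y0 y1 → z ∈ closedBall (0 : ℂ) R := fun z hz =>
    mem_closedBall_zero_iff.2 ((norm_le_of_Rc hι hz).trans hR)
  have hnear : ∀ z, ι * (z - p) ∈ Rc x0 x1 y0 y1 → ∀ x, z ∈ vcell X x → dist z x ≤ s := by
    intro z hz x hx
    obtain ⟨w, hw, hzw⟩ := hnet z (hin z hz)
    exact (hx w hw).trans hzw
  refine ⟨?_, ?_, fun z hz x _ hx => hnear z hz x hx⟩
  · refine (hfin (R + s + 1)).subset ?_
    rintro x ⟨hxX, z, hz, hzR⟩
    refine ⟨hxX, ?_⟩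
    rw [mem_ball_zero_iff]
    have h1 := hnear z hzR x hz
    have h2 := mem_closedBall_zero_iff.1 (hin z hzR)
    have h3 : ‖x‖ ≤ ‖z‖ + dist z x := by
      rw [Complex.dist_eq]
      calc ‖x‖ = ‖z - (z - x)‖ := by congr 1; ring
        _ ≤ _ := norm_sub_le _ _
    linarith
  · intro z hz
    obtain ⟨w, hw, hzw⟩ := hnet z (hin z hz)
    have hzn := mem_closedBall_zero_iff.1 (hin z hz)
    have hF := hfin (R + s + 1)
    have hwF : w ∈ X ∩ ball (0 : ℂ) (R + s + 1) := by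
      refine ⟨hw, ?_⟩
      rw [mem_ball_zero_iff]
      have h3 : ‖w‖ ≤ ‖z‖ + dist z w := by
        rw [Complex.dist_eq]
        calc ‖w‖ = ‖z - (z - w)‖ := by congr 1; ring
          _ ≤ _ := norm_sub_le _ _
      linarith
    obtain ⟨x, hx, hmin⟩ := Set.exists_min_image _ (fun y => dist z y) hF ⟨w, hwF⟩
    refine ⟨x, hx.1, fun y hy => ?_⟩
    by_cases hyF : y ∈ ball (0 : ℂ) (R + s + 1)
    · exact hmin y ⟨hy, hyF⟩
    · have h4 : R + s + 1 ≤ ‖y‖ := by
        rw [mem_ball_zero_iff] at hyF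
        exact not_lt.1 hyF
      have h5 : ‖y‖ ≤ ‖z‖ + dist z y := by
        rw [Complex.dist_eq]
        calc ‖y‖ = ‖z - (z - y)‖ := by congr 1; ring
          _ ≤ _ := norm_sub_le _ _
      have h6 := hmin w hwF
      linarith

/-- **Crossings of rectangles.** For every aspect ratio there is `c > 0` such that every (turned)
rectangle of at most this aspect ratio is crossed with quenched probability at least `c`, with
high probability. -/
theorem tcr_whp (A : ℝ) : ∃ c > 0, ∀ (ι p : ℂ) (x0 x1 y0 y1 t : ℝ), ‖ι‖ = 1 → x0 < x1 → y0 < y1 →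
    x1 - x0 ≤ A * (y1 - y0) → 0 < t → ∀ᶠ m in whp.{u}, ∀ N ⊆ pts m.2, N.Finite →
      pts m.2 ∩ Box ι p x0 x1 y0 y1 t ⊆ N →
      c ≤ cp N (fun W => TCr (pts m.2) W ι p x0 x1 y0 y1 t) := by
  obtain ⟨κ, hκ, hHP⟩ := hpStmt.{u} (1 / 2) (by norm_num)
  have hκ0 : 0 < κ := by linarith
  set M : ℕ := ⌈8 * κ * (A + 2)⌉₊ with hMd
  refine ⟨(1 / 2) ^ (M + 1), by positivity, ?_⟩
  intro ι p x0 x1 y0 y1 t hι hx hy hA ht
  set H := y1 - y0 with hH
  have hH0 : 0 < H := by linarith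
  set t' := min t H with ht'
  have ht'0 : 0 < t' := lt_min ht hH0
  set s := min (t' / 2) (H / (32 * κ)) with hs
  have hs0 : 0 < s := lt_min (by linarith) (by positivity)
  set h := H / (32 * κ) with hh
  have hh0 : 0 < h := by positivity
  set g := H / (8 * κ) with hg
  have hg0 : 0 < g := by positivity
  have hsh : s ≤ h := min_le_right _ _
  have hhH : h ≤ H / 32 := by
    rw [hh]
    apply div_le_div_of_nonneg_left hH0.le (by norm_num)
    linarith
  have hgh : g = 4 * h := by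
    rw [hg, hh]; field_simp; norm_num
  have hD : H / 2 / κ = 16 * h := by
    rw [hh]; field_simp; norm_num
  -- the arms
  have h1 : ∀ᶠ m in whp.{u}, ∀ j ∈ Finset.range (M + 1), ∀ N ⊆ pts m.2, N.Finite →
      H847.qpr N (fun W => HPArm (nbr (pts m.2)) W (cen ι p (x0 - t' + j * g) (y0 - 2 * h))
        (-Complex.I * ι) h (H / 2 / κ) (H / 2)) ≤ 1 / 2 := by
    rw [Filter.eventually_all_finset]
    intro j _
    exact hHP _ _ (by rw [norm_mul, norm_neg, Complex.norm_I, one_mul, hι]) _ (by positivity) _ hh0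
  set R := ‖p‖ + (|x0 - s| + |x1 + s| + (|y0 + s| + |y1 - s|)) with hR
  filter_upwards [h1, H847.whp_net.{u} R hs0, H847.whp_finite_ball.{u}] with m h2 h3 h4 N hNX hN hbox
  have hnet : NetR (pts m.2) ι p (x0 - s) (x1 + s) (y0 + s) (y1 - s) s :=
    netR_of_net h4 hι hs0 le_rfl h3
  have hbox' : pts m.2 ∩ Box ι p x0 x1 y0 y1 t' ⊆ N := by
    refine (inter_subset_inter_right _ ?_).trans hbox
    rintro z ⟨a1, a2, a3, a4⟩
    have := min_le_left t H
    exact ⟨by linarith, by linarith, a3, a4⟩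
  have h5 := cp_tcr_ge hN hι (t := t') (s := s) (h := h) (g := g) hx hs0
    (by have := min_le_left (t' / 2) (H / (32 * κ)); linarith) (by linarith) hh0 hg0 hnet
    (M := M) (by
      have e1 : 8 * κ * (A + 2) ≤ M := Nat.le_ceil _
      have e2 : 8 * κ * (A + 2) * g = (A + 2) * H := by
        rw [hg]; field_simp
      have e3 : t' ≤ H := min_le_right _ _
      calc x1 - x0 + 2 * t' ≤ A * H + 2 * H := by linarith
        _ = 8 * κ * (A + 2) * g := by rw [e2]; ring
        _ ≤ M * g := mul_le_mul_of_nonneg_right e1 hg0.le) hbox' (q := 1 / 2) (by norm_num)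
    (fun j hj => by
      refine le_trans (cp_mono hN fun W _ hW => ?_) (h2 j (Finset.mem_range.2 (Nat.lt_succ_of_le hj))
        N hNX hN)
      refine hparm_shrink ?_ ?_ hW
      · rw [hD, hgh]; linarith
      · linarith)
  have h6 : (1 / 2 : ℝ) ^ (M + 1) = (1 - 1 / 2) ^ (M + 1) := by norm_num
  rw [h6]
  exact h5.trans (cp_mono hN fun W _ hW => hW.widen (min_le_left _ _))

theorem whp_three : ∀ᶠ m in whp.{u}, Three (pts m.2) := by
  filter_upwards [whp_generic.{u} (bfar 1)] with m hm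
  exact three_of_conc subset_union_left hm.2

theorem Circ.widen {X W : Set ℂ} {p : ℂ} {r R r' R' : ℝ} (h : Circ X W p r R) (hr : r' ≤ r)
    (hR : R ≤ R') : Circ X W p r' R' := by
  obtain ⟨K, h1, h2, h3, h4, h5, h6⟩ := h
  exact ⟨K, h1, h2, h3, fun z hz => ⟨hr.trans (h4 z hz).1, (h4 z hz).2.trans hR⟩, h5,
    fun m w hw h0 h1 => h6 m w hw (h0.trans hr) (hR.trans h1)⟩

/-- **Circuits.** For `B > 1` there is `c > 0` such that every square annulus `r ≤ |z - p| ≤ R`
with `B r ≤ R` contains a circuit with quenched probability at least `c`, with high probability. -/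
theorem circ_whp {B : ℝ} (hB : 1 < B) : ∃ c > 0, ∀ (p : ℂ) (r R : ℝ), 0 < r → B * r ≤ R →
    ∀ᶠ m in whp.{u}, ∀ N ⊆ pts m.2, N.Finite →
      (∀ z ∈ pts m.2, r ≤ nsup (z - p) → nsup (z - p) ≤ R → z ∈ N) →
      c ≤ cp N (fun W => Circ (pts m.2) W p r R) := by
  obtain ⟨c, hc, h⟩ := tcr_whp.{u} (2 * (B + 1) / (B - 1))
  refine ⟨c ^ 4, by positivity, fun p r R hr hR => ?_⟩
  set t := (B - 1) * r / 2 with ht
  have hB' : 0 < B - 1 := by linarith
  have ht0 : 0 < t := by positivity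
  set R' := B * r - t with hR'
  have hrR : r < R' := by
    have : R' - r = t := by rw [hR', ht]; ring
    linarith
  have h1 : ∀ᶠ m in whp.{u}, ∀ ι ∈ ({1, Complex.I, -1, -Complex.I} : Finset ℂ),
      ∀ N ⊆ pts m.2, N.Finite → pts m.2 ∩ Box ι p (-R') R' r R' t ⊆ N →
      c ≤ cp N (fun W => TCr (pts m.2) W ι p (-R') R' r R' t) := by
    rw [Filter.eventually_all_finset]
    intro ι hι
    have hT : Turn ι := by
      simp only [Finset.mem_insert, Finset.mem_singleton] at hι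
      exact hι
    refine h ι p (-R') R' r R' t hT.norm (by linarith) hrR ?_ ht0
    have e1 : R' - r = (B - 1) * r / 2 := by rw [hR', ht]; ring
    have e2 : R' - -R' = (B + 1) * r := by rw [hR', ht]; ring
    rw [e1, e2]
    apply le_of_eq
    field_simp
  filter_upwards [h1, whp_three.{u}] with m h2 h3 N hNX hN hbox
  have h4 := cp_circ_ge (X := pts m.2) (N := N) h3 hN (p := p) hr hrR ht0.le hc.le
    (fun ι hι => h2 ι (by simp only [Finset.mem_insert, Finset.mem_singleton]; exact hι) N hNX hN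
      (by
        rintro z ⟨hz, hzB⟩
        have h5 := nsup_of_box hι hr.le hzB ht0.le
        exact hbox z hz h5.1 (h5.2.trans (by linarith))))
  refine h4.trans (cp_mono hN fun W _ hW => hW.widen le_rfl (by linarith))

/-- **Circuits in rectangular annuli**, in any frame. -/
theorem rcirc_whp (A : ℝ) : ∃ c > 0, ∀ (ι p : ℂ) (a1 a2 b1 b2 : ℝ), ‖ι‖ = 1 → 0 ≤ a1 → a1 < a2 →
    0 ≤ b1 → b1 < b2 → a2 ≤ A * (b2 - b1) → b2 ≤ A * (a2 - a1) →
    ∀ᶠ m in whp.{u}, ∀ N ⊆ pts m.2, N.Finite → pts m.2 ∩ RAn ι p a1 a2 b1 b2 ⊆ N →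
      c ≤ cp N (fun W => RCirc (pts m.2) W ι p a1 a2 b1 b2) := by
  obtain ⟨c, hc, h⟩ := tcr_whp.{u} (4 * A)
  refine ⟨c ^ 4, by positivity, fun ι p a1 a2 b1 b2 hι ha1 ha hb1 hb hA hA' => ?_⟩
  set t := min (a2 - a1) (b2 - b1) / 2 with ht
  have ht0 : 0 < t := half_pos (lt_min (by linarith) (by linarith))
  have ht1 : t ≤ (a2 - a1) / 2 := by
    rw [ht]; linarith [min_le_left (a2 - a1) (b2 - b1)]
  have ht2 : t ≤ (b2 - b1) / 2 := by
    rw [ht]; linarith [min_le_right (a2 - a1) (b2 - b1)]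
  have hbox : ∀ u, Turn u → ∀ (X : Set ℂ), X ∩ Box (u * ι) p (-sw u (a2 - t) (b2 - t))
      (sw u (a2 - t) (b2 - t)) (sw u b1 a1) (sw u (b2 - t) (a2 - t)) t ⊆
      X ∩ RAn ι p a1 a2 b1 b2 := by
    rintro u hu X z ⟨hz, hzB⟩
    have h1 := rAn_of_box (a2 := a2 - t) (b2 := b2 - t) hu ha1 hb1 ht0.le hzB
    rw [sub_add_cancel, sub_add_cancel] at h1
    exact ⟨hz, h1⟩
  have h1 : ∀ᶠ m in whp.{u}, ∀ u ∈ ({1, Complex.I, -1, -Complex.I} : Finset ℂ),
      ∀ N ⊆ pts m.2, N.Finite → pts m.2 ∩ Box (u * ι) p (-sw u (a2 - t) (b2 - t))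
        (sw u (a2 - t) (b2 - t)) (sw u b1 a1) (sw u (b2 - t) (a2 - t)) t ⊆ N →
      c ≤ cp N (fun W => TCr (pts m.2) W (u * ι) p (-sw u (a2 - t) (b2 - t))
        (sw u (a2 - t) (b2 - t)) (sw u b1 a1) (sw u (b2 - t) (a2 - t)) t) := by
    rw [Filter.eventually_all_finset]
    intro u hu
    have hT : Turn u := by
      simp only [Finset.mem_insert, Finset.mem_singleton] at hu
      exact hu
    refine h (u * ι) p _ _ _ _ t (by rw [norm_mul, hT.norm, hι, one_mul]) ?_ ?_ ?_ ht0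
    · rcases hT with rfl | rfl | rfl | rfl <;> simp <;> linarith
    · rcases hT with rfl | rfl | rfl | rfl <;> simp <;> linarith
    · rcases hT with rfl | rfl | rfl | rfl
      · simp only [sw_one]; nlinarith
      · simp only [sw_I]; nlinarith
      · simp only [sw_neg_one]; nlinarith
      · simp only [sw_neg_I]; nlinarith
  filter_upwards [h1, whp_three.{u}] with m h2 h3 N hNX hN hbx
  have h4 := cp_rcirc_ge (X := pts m.2) (N := N) h3 hN (p := p) hι ha1
    (show a1 < a2 - t by linarith) hb1 (show b1 < b2 - t by linarith) ht0.le hc.le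
    (fun u hu => h2 u (by simp only [Finset.mem_insert, Finset.mem_singleton]; exact hu) N hNX hN
      ((hbox u hu _).trans hbx))
  rwa [sub_add_cancel, sub_add_cancel] at h4

end Vale.Agent.P148.R2.H995
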