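import Vale.Agent.P148.R2.H990.Chain

/-!
# P148: deterministic consequences of a dense configuration

`Net P Z ρ` (helper990) says that every point of `Z` has a point of `P` within `ρ`. Everything here
is deterministic: smallness of cells, of empty discs and of faces, and locality.
-/

open Set Metric Topology

namespace Vale.Agent.P148.R2.H995

open Vale.Agent.P148.R2.H990

variable {P P' : Set ℂ} {w : ℂ} {R ρ : ℝ}

theorem closedBall_sub {x : ℂ} {r s : ℝ} (h : dist x w + r ≤ s) :
    closedBall x r ⊆ closedBall w s :=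
  closedBall_subset_closedBall' (by linarith)

/-- A cell which meets `closedBall w R` has its nucleus within `R + ρ` of `w`. -/
theorem Net.nucleus (h : Net P (closedBall w R) ρ) {v z : ℂ} (hz : z ∈ vcell P v)
    (hzw : z ∈ closedBall w R) : dist z v ≤ ρ ∧ v ∈ closedBall w (R + ρ) := by
  have h1 := h.dist_le hzw hz
  refine ⟨h1, ?_⟩
  rw [mem_closedBall] at *
  calc dist v w ≤ dist v z + dist z w := dist_triangle _ _ _
    _ ≤ R + ρ := by rw [dist_comm v z]; linarith

/-- A cell which meets `closedBall w R` is contained in `closedBall v ρ`. -/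
theorem Net.cell_small (hρ : 0 < ρ) (h : Net P (closedBall w (R + 3 * ρ)) ρ) {v z : ℂ}
    (hz : z ∈ vcell P v) (hzw : z ∈ closedBall w R) : vcell P v ⊆ closedBall v ρ := by
  have h1 : Net P (closedBall w R) ρ :=
    h.mono (closedBall_subset_closedBall (by linarith)) le_rfl
  have h2 := (Net.nucleus h1 hz hzw).2
  refine vcell_subset_closedBall (h.mono (closedBall_sub ?_) le_rfl) hρ
  rw [mem_closedBall] at h2
  linarith

/-- A cell which meets `closedBall w R` is contained in `closedBall w (R + 2 ρ)`. -/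
theorem Net.cell_subset (hρ : 0 < ρ) (h : Net P (closedBall w (R + 3 * ρ)) ρ) {v z : ℂ}
    (hz : z ∈ vcell P v) (hzw : z ∈ closedBall w R) :
    vcell P v ⊆ closedBall w (R + 2 * ρ) := by
  have h1 : Net P (closedBall w R) ρ :=
    h.mono (closedBall_subset_closedBall (by linarith)) le_rfl
  have h2 := (Net.nucleus h1 hz hzw).2
  refine (Net.cell_small hρ h hz hzw).trans (closedBall_sub ?_)
  rw [mem_closedBall] at h2
  linarith

/-- An open disc without points of `P` which comes within `R` of `w` has radius at most `ρ`. -/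
theorem Net.empty_disc (hρ : 0 < ρ) (h : Net P (closedBall w (R + 2 * ρ)) ρ) {x y : ℂ} {s : ℝ}
    (hx : ball x s ∩ P = ∅) (hy : y ∈ closedBall w R) (hyx : dist y x ≤ s) : s ≤ ρ := by
  by_contra hcon
  rw [not_le] at hcon
  have key : ∀ x' : ℂ, x' ∈ closedBall w (R + 2 * ρ) → closedBall x' ρ ⊆ ball x s → False := by
    intro x' h1 h2
    obtain ⟨v, hv, hv'⟩ := h x' h1
    have : v ∈ ball x s ∩ P := ⟨h2 (by rw [mem_closedBall, dist_comm]; exact hv'), hv⟩
    rw [hx] at this
    exact this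
  rw [mem_closedBall] at hy
  by_cases hd : dist y x < 2 * ρ
  · refine key x ?_ (closedBall_subset_ball hcon)
    rw [mem_closedBall]
    calc dist x w ≤ dist x y + dist y w := dist_triangle _ _ _
      _ ≤ R + 2 * ρ := by rw [dist_comm x y]; linarith
  · rw [not_lt] at hd
    have hd0 : 0 < dist y x := by linarith
    set t : ℝ := 2 * ρ / dist y x with ht
    have ht0 : 0 < t := by positivity
    have ht1 : t ≤ 1 := (div_le_one hd0).2 hd
    set x' : ℂ := y + (t : ℂ) * (x - y) with hx'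
    have e1 : dist x' y = 2 * ρ := by
      rw [hx', Complex.dist_eq, add_sub_cancel_left, norm_mul, Complex.norm_real,
        Real.norm_of_nonneg ht0.le, ← Complex.dist_eq, dist_comm x y, ht]
      field_simp
    have e2 : dist x' x = dist y x - 2 * ρ := by
      have : x' - x = ((1 - t : ℝ) : ℂ) * (y - x) := by
        rw [hx']; push_cast; ring
      rw [Complex.dist_eq, this, norm_mul, Complex.norm_real,
        Real.norm_of_nonneg (by linarith), ← Complex.dist_eq, ht]
      field_simp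
    refine key x' ?_ ?_
    · rw [mem_closedBall]
      calc dist x' w ≤ dist x' y + dist y w := dist_triangle _ _ _
        _ ≤ R + 2 * ρ := by linarith
    · apply closedBall_subset_ball'
      rw [e2]
      linarith

/-- The distance to the nuclei of the cells which contain `z` is the same. -/
theorem dist_eq_of_mem {z a b : ℂ} (ha : a ∈ P) (hb : b ∈ P) (hza : z ∈ vcell P a)
    (hzb : z ∈ vcell P b) : dist z a = dist z b :=
  le_antisymm (hza b hb) (hzb a ha)

/-- Two cells which meet, one nucleus near `w`: the common points and the other nucleus are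
near. -/
theorem Net.near_of_adj (hρ : 0 < ρ) (h : Net P (closedBall w (R + 3 * ρ)) ρ) {a b z : ℂ}
    (ha : a ∈ P) (hb : b ∈ P) (haw : a ∈ closedBall w R) (hza : z ∈ vcell P a)
    (hzb : z ∈ vcell P b) :
    dist z a ≤ ρ ∧ dist z b ≤ ρ ∧ z ∈ closedBall w (R + ρ) ∧ dist a b ≤ 2 * ρ ∧
      b ∈ closedBall w (R + 2 * ρ) := by
  have h1 := Net.cell_small hρ h (mem_vcell_self (P := P) (v := a)) haw hza
  rw [mem_closedBall] at h1
  have h2 : dist z b ≤ ρ := by rw [← dist_eq_of_mem ha hb hza hzb]; exact h1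
  rw [mem_closedBall] at haw
  refine ⟨h1, h2, ?_, ?_, ?_⟩
  · rw [mem_closedBall]
    calc dist z w ≤ dist z a + dist a w := dist_triangle _ _ _
      _ ≤ R + ρ := by linarith
  · calc dist a b ≤ dist a z + dist z b := dist_triangle _ _ _
      _ ≤ 2 * ρ := by rw [dist_comm a z]; linarith
  · rw [mem_closedBall]
    calc dist b w ≤ dist b z + dist z w := dist_triangle _ _ _
      _ ≤ dist b z + (dist z a + dist a w) := by gcongr; exact dist_triangle _ _ _
      _ ≤ R + 2 * ρ := by rw [dist_comm b z]; linarith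

/-- Density is a local property. -/
theorem Net.congr (h : Net P (closedBall w R) ρ)
    (hP : P ∩ closedBall w (R + ρ) = P' ∩ closedBall w (R + ρ)) :
    Net P' (closedBall w R) ρ := by
  intro z hz
  obtain ⟨v, hv, hv'⟩ := h z hz
  have : v ∈ P ∩ closedBall w (R + ρ) := by
    refine ⟨hv, ?_⟩
    rw [mem_closedBall] at *
    calc dist v w ≤ dist v z + dist z w := dist_triangle _ _ _
      _ ≤ R + ρ := by rw [dist_comm v z]; linarith
  rw [hP] at this
  exact ⟨v, this.1, hv'⟩

theorem inter_congr_mono {A B : Set ℂ} (hAB : A ⊆ B) (hP : P ∩ B = P' ∩ B) :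
    P ∩ A = P' ∩ A := by
  have h1 : P ∩ A = P ∩ B ∩ A := by rw [inter_assoc, inter_eq_right.2 hAB]
  have h2 : P' ∩ A = P' ∩ B ∩ A := by rw [inter_assoc, inter_eq_right.2 hAB]
  rw [h1, h2, hP]

/-- Locality of the cells. -/
theorem mem_vcell_congr_of_net (h : Net P (closedBall w R) ρ)
    (hP : P ∩ closedBall w (R + ρ) = P' ∩ closedBall w (R + ρ)) {z : ℂ}
    (hz : z ∈ closedBall w R) (v : ℂ) : z ∈ vcell P v ↔ z ∈ vcell P' v := by
  refine mem_vcell_iff_of_net (h z hz) (inter_congr_mono (closedBall_sub ?_) hP) v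
  rw [mem_closedBall] at hz
  linarith

theorem mem_congr (hP : P ∩ closedBall w R = P' ∩ closedBall w R) {v : ℂ}
    (hv : v ∈ closedBall w R) : v ∈ P ↔ v ∈ P' := by
  constructor
  · intro h
    have : v ∈ P ∩ closedBall w R := ⟨h, hv⟩
    rw [hP] at this
    exact this.1
  · intro h
    have : v ∈ P' ∩ closedBall w R := ⟨h, hv⟩
    rw [← hP] at this
    exact this.1

theorem adj_congr_aux (hρ : 0 < ρ) (h : Net P (closedBall w (R + 3 * ρ)) ρ)
    (hP : P ∩ closedBall w (R + 4 * ρ) = P' ∩ closedBall w (R + 4 * ρ)) {a b : ℂ}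
    (haw : a ∈ closedBall w R) (hab : Adj P a b) : Adj P' a b := by
  obtain ⟨ha, hb, hne, z, hza, hzb⟩ := hab
  obtain ⟨-, -, hz, -, hbw⟩ := Net.near_of_adj hρ h ha hb haw hza hzb
  have hP3 : P ∩ closedBall w (R + 3 * ρ + ρ) = P' ∩ closedBall w (R + 3 * ρ + ρ) := by
    rw [show R + 3 * ρ + ρ = R + 4 * ρ by ring]; exact hP
  have hz3 : z ∈ closedBall w (R + 3 * ρ) :=
    closedBall_subset_closedBall (by linarith) hz
  refine ⟨(mem_congr hP (closedBall_subset_closedBall (by linarith) haw)).1 ha,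
    (mem_congr hP (closedBall_subset_closedBall (by linarith) hbw)).1 hb, hne, z,
    (mem_vcell_congr_of_net h hP3 hz3 a).1 hza, (mem_vcell_congr_of_net h hP3 hz3 b).1 hzb⟩

/-- Locality of adjacency. -/
theorem adj_congr (hρ : 0 < ρ) (h : Net P (closedBall w (R + 3 * ρ)) ρ)
    (hP : P ∩ closedBall w (R + 4 * ρ) = P' ∩ closedBall w (R + 4 * ρ)) {a b : ℂ}
    (haw : a ∈ closedBall w R) : Adj P a b ↔ Adj P' a b := by
  refine ⟨adj_congr_aux hρ h hP haw, adj_congr_aux hρ ?_ hP.symm haw⟩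
  refine Net.congr h ?_
  rw [show R + 3 * ρ + ρ = R + 4 * ρ by ring]
  exact hP

theorem face_congr_aux (hρ : 0 < ρ) (h : Net P (closedBall w (R + 3 * ρ)) ρ)
    (hP : P ∩ closedBall w (R + 4 * ρ) = P' ∩ closedBall w (R + 4 * ρ)) {a b c : ℂ}
    (haw : a ∈ closedBall w R) (hf : Face P a b c) : Face P' a b c := by
  obtain ⟨ha, hb, hc, hab, hbc, hac, z, ⟨hza, hzb⟩, hzc⟩ := hf
  obtain ⟨-, -, hz, -, hbw⟩ := Net.near_of_adj hρ h ha hb haw hza hzb
  obtain ⟨-, -, -, -, hcw⟩ := Net.near_of_adj hρ h ha hc haw hza hzc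
  have hP3 : P ∩ closedBall w (R + 3 * ρ + ρ) = P' ∩ closedBall w (R + 3 * ρ + ρ) := by
    rw [show R + 3 * ρ + ρ = R + 4 * ρ by ring]; exact hP
  have hz3 : z ∈ closedBall w (R + 3 * ρ) :=
    closedBall_subset_closedBall (by linarith) hz
  exact ⟨(mem_congr hP (closedBall_subset_closedBall (by linarith) haw)).1 ha,
    (mem_congr hP (closedBall_subset_closedBall (by linarith) hbw)).1 hb,
    (mem_congr hP (closedBall_subset_closedBall (by linarith) hcw)).1 hc, hab, hbc, hac, z,
    ⟨(mem_vcell_congr_of_net h hP3 hz3 a).1 hza, (mem_vcell_congr_of_net h hP3 hz3 b).1 hzb⟩,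
    (mem_vcell_congr_of_net h hP3 hz3 c).1 hzc⟩

/-- Locality of faces. -/
theorem face_congr (hρ : 0 < ρ) (h : Net P (closedBall w (R + 3 * ρ)) ρ)
    (hP : P ∩ closedBall w (R + 4 * ρ) = P' ∩ closedBall w (R + 4 * ρ)) {a b c : ℂ}
    (haw : a ∈ closedBall w R) : Face P a b c ↔ Face P' a b c := by
  refine ⟨face_congr_aux hρ h hP haw, face_congr_aux hρ ?_ hP.symm haw⟩
  refine Net.congr h ?_
  rw [show R + 3 * ρ + ρ = R + 4 * ρ by ring]
  exact hP

/-- The corners and the centre of a face with a corner near `w`. -/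
theorem Net.face_near (hρ : 0 < ρ) (h : Net P (closedBall w (R + 3 * ρ)) ρ) {a b c : ℂ}
    (haw : a ∈ closedBall w R) (hf : Face P a b c) :
    (∀ z ∈ vcell P a ∩ vcell P b ∩ vcell P c, dist z a ≤ ρ ∧ dist z b ≤ ρ ∧ dist z c ≤ ρ) ∧
      dist a b ≤ 2 * ρ ∧ dist a c ≤ 2 * ρ ∧ dist b c ≤ 2 * ρ := by
  obtain ⟨ha, hb, hc, -, -, -, z, ⟨hza, hzb⟩, hzc⟩ := hf
  have h1 := Net.near_of_adj hρ h ha hb haw hza hzb
  have h2 := Net.near_of_adj hρ h ha hc haw hza hzc
  refine ⟨?_, h1.2.2.2.1, h2.2.2.2.1, ?_⟩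
  · rintro y ⟨⟨hya, hyb⟩, hyc⟩
    have h3 := Net.near_of_adj hρ h ha hb haw hya hyb
    have h4 := Net.near_of_adj hρ h ha hc haw hya hyc
    exact ⟨h3.1, h3.2.1, h4.2.1⟩
  · calc dist b c ≤ dist b z + dist z c := dist_triangle _ _ _
      _ ≤ 2 * ρ := by rw [dist_comm b z]; linarith [h1.2.1, h2.2.1]

end Vale.Agent.P148.R2.H995
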