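import Vale.Agent.P148.R2.H592.Del3
import Vale.Agent.P148.R2.H995.Surg
import Vale.Agent.P148.R2.H729.Q3

/-!
# Locality of arms across a square annulus (P148, module R5d2)
-/

open Set Metric
open P148 P148.H729

namespace Vale.Agent.P148.R2.H995

open H592

/-- Closed square annulus. -/
def An (p : ℂ) (a b : ℝ) : Set ℂ := {z | a ≤ nsup (z - p) ∧ nsup (z - p) ≤ b}

theorem nsup_le_norm (z : ℂ) : nsup z ≤ ‖z‖ :=
  max_le (Complex.abs_re_le_norm z) (Complex.abs_im_le_norm z)

theorem norm_le_nsup (z : ℂ) : ‖z‖ ≤ 2 * nsup z := by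
  refine (Complex.norm_le_abs_re_add_abs_im z).trans ?_
  have h1 : |z.re| ≤ nsup z := le_max_left _ _
  have h2 : |z.im| ≤ nsup z := le_max_right _ _
  linarith

theorem nsup_add_le (z w : ℂ) : nsup (z + w) ≤ nsup z + nsup w := by
  unfold nsup
  refine max_le ?_ ?_
  · rw [Complex.add_re]
    exact (abs_add_le _ _).trans (add_le_add (le_max_left _ _) (le_max_left _ _))
  · rw [Complex.add_im]
    exact (abs_add_le _ _).trans (add_le_add (le_max_right _ _) (le_max_right _ _))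

theorem nsup_sub_le (z w p : ℂ) : nsup (z - p) ≤ nsup (w - p) + dist z w := by
  have h1 : z - p = (w - p) + (z - w) := by ring
  rw [h1]
  refine (nsup_add_le _ _).trans ?_
  have := nsup_le_norm (z - w)
  rw [← Complex.dist_eq] at this
  linarith

theorem continuous_nsup : Continuous nsup := by
  unfold nsup
  exact (continuous_abs.comp Complex.continuous_re).max (continuous_abs.comp Complex.continuous_im)

theorem measurableSet_An (p : ℂ) (a b : ℝ) : MeasurableSet (An p a b) := by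
  have h : Continuous fun z => nsup (z - p) := continuous_nsup.comp (continuous_id.sub continuous_const)
  exact ((isClosed_le continuous_const h).inter (isClosed_le h continuous_const)).measurableSet

/-- The net condition on the annulus. -/
def Nice (X : Set ℂ) (p : ℂ) (r : ℝ) : Prop :=
  ∀ z ∈ An p (3 / 4 * r) (7 / 2 * r), ∃ v ∈ X, dist z v ≤ r / 16

variable {X W U : Set ℂ} {p u v z : ℂ} {r : ℝ}

theorem Nice.dist_le (hN : Nice X p r) (hz : z ∈ An p (3 / 4 * r) (7 / 2 * r))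
    (hv : z ∈ vcell X v) : dist z v ≤ r / 16 := by
  obtain ⟨w, hw, h⟩ := hN z hz
  exact (hv w hw).trans h

/-- the point of the segment is in the cell -/
theorem seg_cell (hz : z ∈ vcell X v) {t : ℝ} (h0 : 0 ≤ t) (h1 : t ≤ 1) :
    v + (t : ℂ) * (z - v) ∈ vcell X v := seg_mem_vcell (self_mem_vcell X v) hz h0 h1

theorem Nice.through (hN : Nice X p r) (hz : z ∈ vcell X v) {a : ℝ} (ha1 : 3 / 4 * r ≤ a)
    (ha2 : a ≤ 7 / 2 * r)
    (h : nsup (v - p) ≤ a ∧ a ≤ nsup (z - p) ∨ nsup (z - p) ≤ a ∧ a ≤ nsup (v - p)) :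
    |nsup (v - p) - a| ≤ r / 16 := by
  have hc : Continuous fun t : ℝ => nsup (v + (t : ℂ) * (z - v) - p) :=
    continuous_nsup.comp (by fun_prop)
  have e0 : nsup (v + ((0 : ℝ) : ℂ) * (z - v) - p) = nsup (v - p) := by simp
  have e1 : nsup (v + ((1 : ℝ) : ℂ) * (z - v) - p) = nsup (z - p) := by simp
  obtain ⟨t, ht, he⟩ : ∃ t ∈ Icc (0 : ℝ) 1, nsup (v + (t : ℂ) * (z - v) - p) = a := by
    rcases h with h | h
    · have : a ∈ Icc (nsup (v + ((0 : ℝ) : ℂ) * (z - v) - p))
        (nsup (v + ((1 : ℝ) : ℂ) * (z - v) - p)) := by rw [e0, e1]; exact h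
      obtain ⟨t, ht, he⟩ := intermediate_value_Icc zero_le_one hc.continuousOn this
      exact ⟨t, ht, he⟩
    · have : a ∈ Icc (nsup (v + ((1 : ℝ) : ℂ) * (z - v) - p))
        (nsup (v + ((0 : ℝ) : ℂ) * (z - v) - p)) := by rw [e0, e1]; exact h
      obtain ⟨t, ht, he⟩ := intermediate_value_Icc' zero_le_one hc.continuousOn this
      exact ⟨t, ht, he⟩
  have hd := hN.dist_le (z := v + (t : ℂ) * (z - v)) ⟨he ▸ ha1, he ▸ ha2⟩ (seg_cell hz ht.1 ht.2)
  have h1 := nsup_sub_le v (v + (t : ℂ) * (z - v)) p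
  have h2 := nsup_sub_le (v + (t : ℂ) * (z - v)) v p
  rw [dist_comm] at h1
  rw [he] at h1 h2
  rw [abs_le]
  constructor <;> linarith

/-- Cells of vertices of the good annulus are small. -/
theorem Nice.small (hN : Nice X p r) (hr : 0 < r) (hv1 : 7 / 8 * r ≤ nsup (v - p))
    (hv2 : nsup (v - p) ≤ 25 / 8 * r) (hz : z ∈ vcell X v) : dist z v ≤ r / 16 := by
  by_contra hcon
  have hcon' : r / 16 < dist z v := not_le.1 hcon
  set t : ℝ := min 1 ((r / 8) / dist z v) with ht
  have hdpos : 0 < dist z v := lt_trans (by positivity) hcon'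
  have ht0 : 0 ≤ t := le_min zero_le_one (by positivity)
  have ht1 : t ≤ 1 := min_le_left _ _
  have hdt : dist (v + (t : ℂ) * (z - v)) v = t * dist z v := by
    rw [Complex.dist_eq, Complex.dist_eq]
    have : v + (t : ℂ) * (z - v) - v = (t : ℂ) * (z - v) := by ring
    rw [this, norm_mul, Complex.norm_real, Real.norm_eq_abs, abs_of_nonneg ht0]
  have hle : dist (v + (t : ℂ) * (z - v)) v ≤ r / 8 := by
    rw [hdt]
    calc t * dist z v ≤ (r / 8) / dist z v * dist z v :=
          mul_le_mul_of_nonneg_right (min_le_right _ _) hdpos.le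
      _ = r / 8 := by field_simp
  have hgt : r / 16 < dist (v + (t : ℂ) * (z - v)) v := by
    rw [hdt]
    rcases min_choice 1 ((r / 8) / dist z v) with h | h
    · rw [ht, h, one_mul]; exact hcon'
    · rw [ht, h, div_mul_cancel₀ _ hdpos.ne']; linarith
  have h1 := nsup_sub_le v (v + (t : ℂ) * (z - v)) p
  have h2 := nsup_sub_le (v + (t : ℂ) * (z - v)) v p
  rw [dist_comm] at h1
  have := hN.dist_le (z := v + (t : ℂ) * (z - v)) ⟨by linarith, by linarith⟩ (seg_cell hz ht0 ht1)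
  linarith

theorem dist_eq_of_cells (hu : u ∈ X) (hv : v ∈ X) (h1 : z ∈ vcell X u) (h2 : z ∈ vcell X v) :
    dist z u = dist z v := le_antisymm (h1 v hv) (h2 u hu)

/-- Edges at vertices of the good annulus are short. -/
theorem Nice.edge (hN : Nice X p r) (hr : 0 < r) (h : nbr X u v) (hu1 : 7 / 8 * r ≤ nsup (u - p))
    (hu2 : nsup (u - p) ≤ 25 / 8 * r) : dist u v ≤ r / 8 := by
  obtain ⟨hu, hv, _, z, hz1, hz2⟩ := h
  have h1 := hN.small hr hu1 hu2 hz1
  have h2 := dist_eq_of_cells hu hv hz1 hz2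
  have := dist_triangle_left u v z
  linarith

/-- No edge jumps over the annulus. -/
theorem Nice.no_jump (hN : Nice X p r) (hr : 0 < r) (h : nbr X u v)
    (hu : nsup (u - p) < 7 / 8 * r) (hv : 25 / 8 * r < nsup (v - p)) : False := by
  obtain ⟨_, _, _, z, hz1, hz2⟩ := h
  rcases le_total (2 * r) (nsup (z - p)) with hz | hz
  · have := hN.through hz1 (a := 2 * r) (by linarith) (by linarith)
      (Or.inl ⟨by linarith, hz⟩)
    have := abs_le.1 this
    linarith
  · have := hN.through hz2 (a := 2 * r) (by linarith) (by linarith)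
      (Or.inr ⟨hz, by linarith⟩)
    have := abs_le.1 this
    linarith

/-- Reduction of an arm to the good annulus. -/
theorem Nice.reduce (hN : Nice X p r) (hr : 0 < r) {a b : ℝ} (ha : a ≤ r) (hb : 3 * r ≤ b)
    (h : SqArm (nbr X) W p a b) : ∃ (n : ℕ) (v : ℕ → ℂ), (∀ i < n, nbr X (v i) (v (i + 1))) ∧
      (∀ i ≤ n, v i ∈ W ∧ 7 / 8 * r ≤ nsup (v i - p) ∧ nsup (v i - p) ≤ 25 / 8 * r) ∧
      nsup (v 0 - p) ≤ r ∧ 3 * r ≤ nsup (v n - p) := by
  classical
  obtain ⟨m, w, hw, hwW, hw0, hwm⟩ := h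
  have hex : ∃ n, 3 * r ≤ nsup (w n - p) := ⟨m, hb.trans hwm⟩
  set b' := Nat.find hex with hb'
  have hbR : 3 * r ≤ nsup (w b' - p) := Nat.find_spec hex
  have hbm : b' ≤ m := Nat.find_min' hex (hb.trans hwm)
  have hlt : ∀ i < b', nsup (w i - p) < 3 * r := fun i hi => not_le.1 (Nat.find_min hex hi)
  set q := Nat.findGreatest (fun i => nsup (w i - p) ≤ r) b' with hq
  have hq1 : nsup (w q - p) ≤ r := Nat.findGreatest_spec (P := fun i => nsup (w i - p) ≤ r)
    (Nat.zero_le b') (hw0.trans ha)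
  have hqb : q ≤ b' := Nat.findGreatest_le b'
  have hqb' : q < b' := by
    rcases hqb.lt_or_eq with h | h
    · exact h
    · rw [h] at hq1; linarith
  have hgt : ∀ i, q < i → i ≤ b' → r < nsup (w i - p) := by
    intro i hi hib
    exact not_le.1 (Nat.findGreatest_is_greatest (P := fun i => nsup (w i - p) ≤ r) hi hib)
  have hq2 : q + 1 < b' := by
    rcases (Nat.succ_le_of_lt hqb').lt_or_eq with h | h
    · exact h
    · exfalso
      have h' : q + 1 = b' := h
      have he := hw q (by omega)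
      rw [h'] at he
      by_cases h1 : 7 / 8 * r ≤ nsup (w q - p)
      · have := hN.edge hr he h1 (by linarith)
        have h2 := nsup_sub_le (w b') (w q) p
        rw [dist_comm] at h2
        linarith
      · by_cases h2 : nsup (w b' - p) ≤ 25 / 8 * r
        · have := hN.edge hr (nbr_symm he) (by linarith) h2
          have h3 := nsup_sub_le (w b') (w q) p
          linarith
        · exact hN.no_jump hr he (not_le.1 h1) (not_le.1 h2)
  have hgood : ∀ i, q < i → i < b' → r < nsup (w i - p) ∧ nsup (w i - p) < 3 * r :=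
    fun i h1 h2 => ⟨hgt i h1 h2.le, hlt i h2⟩
  have hq3 : 7 / 8 * r ≤ nsup (w q - p) := by
    have h1 := hgood (q + 1) (by omega) hq2
    have := hN.edge hr (nbr_symm (hw q (by omega))) (by linarith) (by linarith)
    have h2 := nsup_sub_le (w (q + 1)) (w q) p
    linarith
  have hb3 : nsup (w b' - p) ≤ 25 / 8 * r := by
    obtain ⟨k, hk⟩ : ∃ k, b' = k + 1 := ⟨b' - 1, by omega⟩
    have h1 := hgood k (by omega) (by omega)
    have := hN.edge hr (hw k (by omega)) (by linarith) (by linarith)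
    have h2 := nsup_sub_le (w (k + 1)) (w k) p
    rw [dist_comm] at h2
    rw [hk]
    linarith
  refine ⟨b' - q, fun i => w (q + i), fun i hi => hw (q + i) (by omega), fun i hi => ?_, ?_, ?_⟩
  · refine ⟨hwW (q + i) (by omega), ?_⟩
    rcases Nat.eq_zero_or_pos i with rfl | hi0
    · exact ⟨by simpa using hq3, by simpa using (show nsup (w q - p) ≤ 25 / 8 * r by linarith)⟩
    · rcases hi.lt_or_eq with hlt' | heq
      · have := hgood (q + i) (by omega) (by omega)
        constructor <;> linarith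
      · have h1 : q + i = b' := by omega
        show 7 / 8 * r ≤ nsup (w (q + i) - p) ∧ nsup (w (q + i) - p) ≤ 25 / 8 * r
        rw [h1]
        constructor <;> linarith
  · simpa using hq1
  · have : q + (b' - q) = b' := by omega
    simpa [this] using hbR

theorem Nice.mono {Y : Set ℂ} (hN : Nice X p r) (h : X ∩ An p (r / 2) (4 * r) ⊆ Y) (hr : 0 < r) :
    Nice Y p r := by
  intro z hz
  obtain ⟨v, hv, hd⟩ := hN z hz
  refine ⟨v, h ⟨hv, ?_, ?_⟩, hd⟩
  · have := nsup_sub_le z v p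
    have := hz.1
    linarith
  · have := nsup_sub_le v z p
    have h2 := hz.2
    rw [dist_comm] at hd
    linarith

/-- Locality of the neighbour relation. -/
theorem nbr_inter (hU : An p (r / 2) (4 * r) ⊆ U) (hr : 0 < r)
    (hN : Nice (X ∩ U) p r) (hu1 : 7 / 8 * r ≤ nsup (u - p)) (hu2 : nsup (u - p) ≤ 25 / 8 * r)
    (hv1 : 7 / 8 * r ≤ nsup (v - p)) (hv2 : nsup (v - p) ≤ 25 / 8 * r) :
    nbr X u v ↔ nbr (X ∩ U) u v := by
  have huU : u ∈ U := hU ⟨by linarith, by linarith⟩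
  have hvU : v ∈ U := hU ⟨by linarith, by linarith⟩
  have key : ∀ {z v : ℂ}, 7 / 8 * r ≤ nsup (v - p) → nsup (v - p) ≤ 25 / 8 * r →
      z ∈ vcell (X ∩ U) v → z ∈ vcell X v := by
    intro z v h1 h2 hz w hw
    by_cases hwU : w ∈ U
    · exact hz w ⟨hw, hwU⟩
    · have hd := hN.small hr h1 h2 hz
      have hw' : nsup (w - p) < r / 2 ∨ 4 * r < nsup (w - p) := by
        by_contra hcon
        rw [not_or, not_lt, not_lt] at hcon
        exact hwU (hU hcon)
      have a1 := nsup_sub_le z v p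
      have a2 := nsup_sub_le v z p
      rw [dist_comm v z] at a2
      have a3 := nsup_sub_le z w p
      have a4 := nsup_sub_le w z p
      rw [dist_comm w z] at a4
      rcases hw' with h | h <;> linarith
  constructor
  · rintro ⟨h1, h2, h3, z, hz1, hz2⟩
    exact ⟨⟨h1, huU⟩, ⟨h2, hvU⟩, h3, z, fun w hw => hz1 w hw.1, fun w hw => hz2 w hw.1⟩
  · rintro ⟨h1, h2, h3, z, hz1, hz2⟩
    exact ⟨h1.1, h2.1, h3, z, key hu1 hu2 hz1, key hv1 hv2 hz2⟩

/-- The points of colour `c`. -/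
def ofCol (T : Set Pt) (c : Bool) : Set ℂ := {v | (v, c) ∈ T}

/-- The annulus is bad: no net, or an arm of colour `c` crosses it. -/
def BadAnn (c : Bool) (p : ℂ) (r : ℝ) (T : Set Pt) : Prop :=
  ¬ Nice (pts T) p r ∨ SqArm (nbr (pts T)) (ofCol T c) p r (3 * r)

theorem pts_res' (U : Set ℂ) (T : Set Pt) : pts (res U T) = pts T ∩ U := by
  ext z
  constructor
  · rintro ⟨q, hq, rfl⟩
    exact ⟨⟨q, hq.1, rfl⟩, hq.2.1⟩
  · rintro ⟨⟨q, hq, rfl⟩, hz⟩
    exact ⟨q, ⟨hq, hz, mem_univ _⟩, rfl⟩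

theorem ofCol_res (U : Set ℂ) (T : Set Pt) (c : Bool) :
    ofCol (res U T) c = ofCol T c ∩ U := by
  ext z
  simp [ofCol, res]

/-- An arm across a bigger annulus makes the annulus bad. -/
theorem badAnn_of_arm {T : Set Pt} {c : Bool} {a b : ℝ} (hr : 0 < r) (ha : a ≤ r)
    (hb : 3 * r ≤ b) (h : SqArm (nbr (pts T)) (ofCol T c) p a b) : BadAnn c p r T := by
  by_cases hN : Nice (pts T) p r
  · obtain ⟨n, v, h1, h2, h3, h4⟩ := hN.reduce hr ha hb h
    exact Or.inr ⟨n, v, h1, fun i hi => (h2 i hi).1, h3, h4⟩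
  · exact Or.inl hN

/-- **Locality.** -/
theorem badAnn_res {T : Set Pt} {c : Bool} (hr : 0 < r) (hU : An p (r / 2) (4 * r) ⊆ U) :
    BadAnn c p r (res U T) ↔ BadAnn c p r T := by
  unfold BadAnn
  rw [pts_res', ofCol_res]
  have hnice : Nice (pts T ∩ U) p r ↔ Nice (pts T) p r :=
    ⟨fun h => h.mono (fun z hz => hz.1.1) hr, fun h => h.mono (fun z hz => ⟨hz.1, hU hz.2⟩) hr⟩
  rw [hnice]
  by_cases hN : Nice (pts T) p r
  · have hN' := hnice.2 hN
    refine or_congr_right ⟨fun h => ?_, fun h => ?_⟩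
    · obtain ⟨n, v, h1, h2, h3, h4⟩ := hN'.reduce hr le_rfl le_rfl h
      refine ⟨n, v, fun i hi => ?_, fun i hi => (h2 i hi).1.1, h3, h4⟩
      exact (nbr_inter hU hr hN' (h2 i hi.le).2.1 (h2 i hi.le).2.2 (h2 (i + 1) hi).2.1
        (h2 (i + 1) hi).2.2).2 (h1 i hi)
    · obtain ⟨n, v, h1, h2, h3, h4⟩ := hN.reduce hr le_rfl le_rfl h
      refine ⟨n, v, fun i hi => ?_, fun i hi => ⟨(h2 i hi).1, hU ⟨?_, ?_⟩⟩, h3, h4⟩
      · exact (nbr_inter hU hr hN' (h2 i hi.le).2.1 (h2 i hi.le).2.2 (h2 (i + 1) hi).2.1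
          (h2 (i + 1) hi).2.2).1 (h1 i hi)
      · linarith [(h2 i hi).2.1]
      · linarith [(h2 i hi).2.2]
  · exact ⟨fun _ => Or.inl hN, fun _ => Or.inl hN⟩

/-- Arms of cells: a chain of points of `W` whose consecutive cells meet, from a cell meeting
`closedBall p δ` to a cell meeting the complement of `ball p ρ`. -/
def CellArm (X W : Set ℂ) (p : ℂ) (δ ρ : ℝ) : Prop :=
  ∃ (n : ℕ) (v : ℕ → ℂ), (∀ i < n, (vcell X (v i) ∩ vcell X (v (i + 1))).Nonempty) ∧
    (∀ i ≤ n, v i ∈ W) ∧ (vcell X (v 0) ∩ closedBall p δ).Nonempty ∧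
    (vcell X (v n) ∩ (ball p ρ)ᶜ).Nonempty

/-- Removing repetitions from a chain. -/
theorem exists_path_of_chain {rel : ℂ → ℂ → Prop} {n : ℕ} {v : ℕ → ℂ}
    (h : ∀ i < n, v i = v (i + 1) ∨ rel (v i) (v (i + 1))) :
    ∃ (m : ℕ) (w : ℕ → ℂ), (∀ i < m, rel (w i) (w (i + 1))) ∧ w 0 = v 0 ∧ w m = v n ∧
      ∀ i ≤ m, ∃ j ≤ n, w i = v j := by
  induction n with
  | zero => exact ⟨0, v, fun i hi => absurd hi (by omega), rfl, rfl, fun i hi => ⟨i, hi, rfl⟩⟩
  | succ n ih =>
    obtain ⟨m, w, h1, h2, h3, h4⟩ := ih fun i hi => h i (by omega)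
    rcases h n (by omega) with he | he
    · refine ⟨m, w, h1, h2, h3.trans he, fun i hi => ?_⟩
      obtain ⟨j, hj, hj'⟩ := h4 i hi
      exact ⟨j, by omega, hj'⟩
    · refine ⟨m + 1, fun i => if i ≤ m then w i else v (n + 1), fun i hi => ?_, ?_, ?_, ?_⟩
      · rcases (Nat.lt_succ_iff.1 hi).lt_or_eq with hlt | rfl
        · have a1 : i ≤ m := hlt.le
          have a2 : i + 1 ≤ m := hlt
          simp only [a1, a2, if_true]
          exact h1 i hlt
        · simp only [le_refl, if_true, show ¬ (i + 1 ≤ i) by omega, if_false]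
          rw [h3]; exact he
      · simp [h2]
      · simp
      · intro i hi
        by_cases him : i ≤ m
        · obtain ⟨j, hj, hj'⟩ := h4 i him
          exact ⟨j, by omega, by simp [him, hj']⟩
        · exact ⟨n + 1, le_rfl, by simp [him]⟩

/-- An arm of cells across a bigger annulus makes the annulus bad. -/
theorem badAnn_of_cellArm {T : Set Pt} {c : Bool} {δ ρ : ℝ} (hr : 0 < r) (hδ : δ ≤ 3 / 4 * r)
    (hρ : 7 * r ≤ ρ) (h : CellArm (pts T) (ofCol T c) p δ ρ) : BadAnn c p r T := by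
  by_cases hN : Nice (pts T) p r
  swap
  · exact Or.inl hN
  obtain ⟨n, v, h1, h2, ⟨z, hz, hz'⟩, ⟨y, hy, hy'⟩⟩ := h
  have hmem : ∀ i ≤ n, v i ∈ pts T := fun i hi => ⟨(v i, c), h2 i hi, rfl⟩
  have hz0 : nsup (z - p) ≤ δ := by
    refine (nsup_le_norm _).trans ?_
    rw [← Complex.dist_eq]; exact mem_closedBall.1 hz'
  have hy0 : 7 / 2 * r ≤ nsup (y - p) := by
    have h3 : ρ ≤ dist y p := by
      by_contra hcon
      exact hy' (mem_ball.2 (not_le.1 hcon))
    have h4 := norm_le_nsup (y - p)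
    rw [← Complex.dist_eq] at h4
    linarith
  obtain ⟨m, w, w1, w2, w3, w4⟩ := exists_path_of_chain (rel := nbr (pts T)) (n := n) (v := v)
    (fun i hi => by
      by_cases he : v i = v (i + 1)
      · exact Or.inl he
      · exact Or.inr ⟨hmem i hi.le, hmem (i + 1) hi, he, h1 i hi⟩)
  refine badAnn_of_arm (a := r) (b := 3 * r) hr le_rfl le_rfl
    ⟨m, w, w1, fun i hi => ?_, ?_, ?_⟩
  · obtain ⟨j, hj, hj'⟩ := w4 i hi
    rw [hj']; exact h2 j hj
  · rw [w2]
    by_contra hcon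
    have hcon' : r < nsup (v 0 - p) := not_le.1 hcon
    have := hN.through hz (a := 7 / 8 * r) (by linarith) (by linarith)
      (Or.inr ⟨by linarith, by linarith⟩)
    have := abs_le.1 this
    linarith
  · rw [w3]
    by_contra hcon
    have hcon' : nsup (v n - p) < 3 * r := not_le.1 hcon
    have := hN.through hy (a := 13 / 4 * r) (by linarith) (by linarith)
      (Or.inl ⟨by linarith, by linarith⟩)
    have := abs_le.1 this
    linarith

end Vale.Agent.P148.R2.H995
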