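import Vale.Agent.P148.R2.H995.CombGeo2

/-!
# P148, row N1/N2: the radial corridors (from the outer hubs to the outside of the ring)
-/

open Set Metric Complex
open scoped ComplexConjugate

namespace Vale.Agent.P148.R2.H995

open Vale.Agent.P148.R2.N Vale.Agent.P148.R2.H678

variable {M k l : ℕ}

/-- The outer end of the radial corridor of the gate `k`: the outer hub centre moved outside by
`2 a`. -/
noncomputable def prad (M k : ℕ) : ℂ := pout M k + uo M k * ((2 * ms M : ℝ) : ℂ)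

theorem prad_eq (M k : ℕ) : prad M k = hp M k (41 / 16) := by
  unfold prad
  rw [pout_eq]
  unfold hp uo
  rw [← mul_add]
  congr 1
  apply Complex.ext
  · simp [lp]; ring
  · simp [lp]

theorem prad_mod (M k : ℕ) : prad M (k % nc M) = prad M k := by rw [prad_eq, prad_eq, hp_mod]

theorem mem_radial (hM : 0 < M) {j : ℕ} {w : ℂ} :
    w ∈ CBox M (lp M (9 / 16) j) (lp M (41 / 16) j) ↔
      (1 + 9 / 16 * ms M + 3 * sd M / 8 ≤ w.re ∧ w.re ≤ 1 + 41 / 16 * ms M - 3 * sd M / 8) ∧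
      (-1 + j * ms M - sd M / 8 ≤ w.im ∧ w.im ≤ -1 + j * ms M + sd M / 8) := by
  have h0 := ms_pos hM
  rw [mem_cbox (e := 1) (d := 2 * ms M) (by positivity) (by simp)]
  · simp only [map_one, one_mul, sub_re, sub_im, lp]
    constructor
    · rintro ⟨⟨a1, a2⟩, a3, a4⟩
      exact ⟨⟨by linarith, by linarith⟩, by linarith, by linarith⟩
    · rintro ⟨⟨a1, a2⟩, a3, a4⟩
      exact ⟨⟨by linarith, by linarith⟩, by linarith, by linarith⟩
  · apply Complex.ext
    · simp [lp]; ring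
    · simp [lp]

/-- Local form of the radial corridors. -/
theorem rad_local (hM : 0 < M) {w : ℂ}
    (h : I ^ (k / (2 * M + 1)) * w ∈ CBox M (pout M k) (prad M k)) :
    (1 + 9 / 16 * ms M + 3 * sd M / 8 ≤ w.re ∧ w.re ≤ 1 + 41 / 16 * ms M - 3 * sd M / 8) ∧
      (-1 + (k % (2 * M + 1) : ℕ) * ms M - sd M / 8 ≤ w.im ∧
        w.im ≤ -1 + (k % (2 * M + 1) : ℕ) * ms M + sd M / 8) := by
  rw [pout_eq, prad_eq] at h
  exact (mem_radial hM).1 ((cbox_rot _).1 h)

/-- Two frames. -/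
theorem two_frames {s s' : ℕ} (hs : s < 4) (hs' : s' < 4) {w w' : ℂ}
    (h : (I : ℂ) ^ s * w = I ^ s' * w') :
    (s = s' ∧ w = w') ∨ (w = I * w') ∨ (w = -w') ∨ (w = -I * w') := by
  have hI : ∀ n : ℕ, (I : ℂ) ^ n ≠ 0 := fun n => pow_ne_zero _ I_ne_zero
  have e : w = I ^ (4 - s) * I ^ s' * w' := by
    have h1 : (I : ℂ) ^ (4 - s) * (I ^ s * w) = I ^ (4 - s) * (I ^ s' * w') := by rw [h]
    rw [← mul_assoc, ← pow_add, Nat.sub_add_cancel hs.le, I_pow_four, one_mul] at h1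
    rw [h1, mul_assoc]
  interval_cases s <;> interval_cases s' <;>
    simp only [I_sq, I_pow_four, pow_zero, pow_one, one_mul, mul_one, Nat.sub_zero,
      show (I : ℂ) ^ 3 = -I by rw [pow_succ, I_sq]; ring, show 4 - 1 = 3 by norm_num,
      show 4 - 2 = 2 by norm_num, show 4 - 3 = 1 by norm_num, neg_mul, mul_neg, I_mul_I,
      neg_neg] at e ⊢ <;>
    simp_all

theorem side_lt (hk : k < nc M) : k / (2 * M + 1) < 4 := div_lt_four hk

/-- Crude bounds for a radial corridor. -/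
theorem rad_crude (hM : 0 < M) {w : ℂ}
    (h : I ^ (k / (2 * M + 1)) * w ∈ CBox M (pout M k) (prad M k)) :
    1 + 9 / 16 * ms M < w.re ∧ -1 - sd M / 8 ≤ w.im ∧ w.im ≤ 1 + sd M / 8 := by
  obtain ⟨⟨a1, a2⟩, a3, a4⟩ := rad_local hM h
  have h2 := mod_mul_le hM k
  have h0 := ms_pos hM
  have h3 : (0 : ℝ) ≤ ((k % (2 * M + 1) : ℕ) : ℝ) * ms M := by positivity
  have h4 := sd_pos hM
  exact ⟨by linarith, by linarith, by linarith⟩

/-- Comparison of the indices on one side. -/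
theorem idx_eq (hM : 0 < M) {i j : ℕ} {ε : ℝ} (hε : ε < ms M)
    (h : |(i : ℝ) * ms M - j * ms M| ≤ ε) : i = j := by
  have h0 := ms_pos hM
  rw [← sub_mul, abs_mul, abs_of_pos h0] at h
  have h1 : |(i : ℝ) - j| < 1 := by
    by_contra hc
    rw [not_lt] at hc
    nlinarith
  have h2 : |((i : ℤ) : ℝ) - ((j : ℤ) : ℝ)| < 1 := by exact_mod_cast h1
  have h3 : |(i : ℤ) - (j : ℤ)| < 1 := by exact_mod_cast h2
  have h4 := Int.abs_lt_one_iff.1 h3
  omega

theorem eq_of_side (hs : k / (2 * M + 1) = l / (2 * M + 1))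
    (hj : k % (2 * M + 1) = l % (2 * M + 1)) : k = l := by
  rw [← Nat.div_add_mod k (2 * M + 1), ← Nat.div_add_mod l (2 * M + 1), hs, hj]

/-- A radial corridor meets only its own gate box. -/
theorem rad_gbox (hM : 0 < M) (hk : k < nc M) (hl : l < nc M) (h : k ≠ l) :
    Disjoint (CBox M (pout M k) (prad M k)) (gbox M l) := by
  rw [Set.disjoint_left]
  intro z hz hz'
  obtain ⟨w, hw⟩ := exists_eq_I_pow_mul (k / (2 * M + 1)) z
  obtain ⟨w', hw'⟩ := exists_eq_I_pow_mul (l / (2 * M + 1)) z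
  obtain ⟨h0, h1, -, -⟩ := num hM
  have h4 := sd_pos hM
  have hz1 := hw ▸ hz
  obtain ⟨c1, c2, c3⟩ := rad_crude hM hz1
  obtain ⟨⟨b1, b2⟩, b3, b4⟩ := mem_gbox_iff.1 (hw' ▸ hz')
  rcases two_frames (side_lt hk) (side_lt hl) (hw.symm.trans hw') with ⟨hs, e⟩ | e | e | e
  · subst e
    obtain ⟨-, a3, a4⟩ := rad_local hM hz1
    refine h (eq_of_side hs (idx_eq hM (ε := ms M / 4) (by linarith) ?_))
    rw [abs_le]; constructor <;> linarith
  · rw [e] at c1 c2 c3
    simp only [I_mul_re, I_mul_im] at c1 c2 c3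
    linarith
  · rw [e] at c1 c2 c3
    simp only [neg_re, neg_im] at c1 c2 c3
    linarith
  · rw [e] at c1 c2 c3
    simp only [neg_mul, neg_re, neg_im, I_mul_re, I_mul_im, neg_neg] at c1 c2 c3
    linarith

/-- Radial corridors and inner hub boxes. -/
theorem rad_hin_disj (hM : 0 < M) (hk : k < nc M) (hl : l < nc M) :
    Disjoint (CBox M (pout M k) (prad M k)) (hbox M (pin M l)) := by
  by_cases h : k = l
  · subst h
    rw [Set.disjoint_left]
    intro z hz hz'
    obtain ⟨w, rfl⟩ := exists_eq_I_pow_mul (k / (2 * M + 1)) z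
    obtain ⟨c1, -, -⟩ := rad_crude hM hz
    rw [pin_eq] at hz'
    obtain ⟨a1, -⟩ := mem_hbox.1 ((hbox_rot _).1 hz')
    simp only [lp] at a1
    rw [abs_le] at a1
    have h0 := ms_pos hM
    linarith [a1.2]
  · exact (rad_gbox hM hk hl h).mono_right (hbox_pin_sub hM l)

/-- Radial corridors and outer hub boxes of the other gates. -/
theorem rad_hout_disj (hM : 0 < M) (hk : k < nc M) (hl : l < nc M) (h : k ≠ l) :
    Disjoint (CBox M (pout M k) (prad M k)) (hbox M (pout M l)) :=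
  (rad_gbox hM hk hl h).mono_right (hbox_pout_sub hM l)

/-- Radial corridors and teeth. -/
theorem rad_tooth_disj (hM : 0 < M) (hk : k < nc M) (hl : l < nc M) :
    Disjoint (CBox M (pout M k) (prad M k)) (CBox M (pin M l) (pout M l)) := by
  by_cases h : k = l
  · subst h
    rw [Set.disjoint_left]
    intro z hz hz'
    obtain ⟨w, rfl⟩ := exists_eq_I_pow_mul (k / (2 * M + 1)) z
    obtain ⟨c1, -, -⟩ := rad_crude hM hz
    rw [pin_eq, pout_eq] at hz'
    obtain ⟨⟨a1, a2⟩, -⟩ := (mem_tooth hM).1 ((cbox_rot _).1 hz')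
    have h4 := sd_pos hM
    linarith
  · exact (rad_gbox hM hk hl h).mono_right (tooth_sub hM l)

/-- Two radial corridors. -/
theorem rad_rad_disj (hM : 0 < M) (hk : k < nc M) (hl : l < nc M) (h : k ≠ l) :
    Disjoint (CBox M (pout M k) (prad M k)) (CBox M (pout M l) (prad M l)) := by
  rw [Set.disjoint_left]
  intro z hz hz'
  obtain ⟨w, hw⟩ := exists_eq_I_pow_mul (k / (2 * M + 1)) z
  obtain ⟨w', hw'⟩ := exists_eq_I_pow_mul (l / (2 * M + 1)) z
  obtain ⟨h0, h1, -, -⟩ := num hM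
  have h4 := sd_pos hM
  have hz1 := hw ▸ hz
  have hz2 := hw' ▸ hz'
  obtain ⟨c1, c2, c3⟩ := rad_crude hM hz1
  obtain ⟨b1, b2, b3⟩ := rad_crude hM hz2
  rcases two_frames (side_lt hk) (side_lt hl) (hw.symm.trans hw') with ⟨hs, e⟩ | e | e | e
  · subst e
    obtain ⟨-, a3, a4⟩ := rad_local hM hz1
    obtain ⟨-, d3, d4⟩ := rad_local hM hz2
    refine h (eq_of_side hs (idx_eq hM (ε := ms M / 4) (by linarith) ?_))
    rw [abs_le]; constructor <;> linarith
  · rw [e] at c1 c2 c3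
    simp only [I_mul_re, I_mul_im] at c1 c2 c3
    linarith
  · rw [e] at c1 c2 c3
    simp only [neg_re, neg_im] at c1 c2 c3
    linarith
  · rw [e] at c1 c2 c3
    simp only [neg_mul, neg_re, neg_im, I_mul_re, I_mul_im, neg_neg] at c1 c2 c3
    linarith

theorem rad_rail' (hM : 0 < M) (hk : k < nc M) (hl : l < nc M) {c : ℝ} (hc : 7 / 16 ≤ c)
    (hc' : c ≤ 9 / 16) :
    Disjoint (CBox M (pout M k) (prad M k)) (CBox M (hp M l c) (hp M (l + 1) c)) := by
  rw [Set.disjoint_left]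
  intro z hz hz'
  obtain ⟨w, hw⟩ := exists_eq_I_pow_mul (k / (2 * M + 1)) z
  obtain ⟨w', hw'⟩ := exists_eq_I_pow_mul (l / (2 * M + 1)) z
  obtain ⟨h0, h1, -, -⟩ := num hM
  have h4 := sd_pos hM
  have hz1 := hw ▸ hz
  have hz2 := hw' ▸ hz'
  obtain ⟨c1, c2, c3⟩ := rad_crude hM hz1
  have hcm : 7 / 16 * ms M ≤ c * ms M := mul_le_mul_of_nonneg_right hc h0.le
  have hcm' : c * ms M ≤ 9 / 16 * ms M := mul_le_mul_of_nonneg_right hc' h0.le
  have m2 := mod_mul_le hM l
  have m4 : (0 : ℝ) ≤ ((l % (2 * M + 1) : ℕ) : ℝ) * ms M := by positivity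
  rcases rail_local hM (by linarith) (by linarith) hz2 with ⟨hj, ⟨b1, b2⟩, b3, b4⟩ |
    ⟨hj, ⟨b1, b2⟩, ⟨b3, b4⟩, b5, b6⟩
  · -- a straight rail
    have hlt : l % (2 * M + 1) + 1 ≤ 2 * M := by
      have := mod_le M l
      omega
    have hlt' : (((l % (2 * M + 1) : ℕ) : ℝ) + 1) * ms M ≤ 2 := by
      have h5 : (((l % (2 * M + 1) : ℕ) : ℝ) + 1) ≤ ((2 * M : ℕ) : ℝ) := by exact_mod_cast hlt
      calc (((l % (2 * M + 1) : ℕ) : ℝ) + 1) * ms M ≤ ((2 * M : ℕ) : ℝ) * ms M :=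
            mul_le_mul_of_nonneg_right h5 h0.le
        _ = 2 := mod_mul_eq hM
    rcases two_frames (side_lt hk) (side_lt hl) (hw.symm.trans hw') with ⟨hs, e⟩ | e | e | e
    · subst e
      obtain ⟨-, a3, a4⟩ := rad_local hM hz1
      rcases le_or_gt (k % (2 * M + 1)) (l % (2 * M + 1)) with hkl | hkl
      · have h5 : ((k % (2 * M + 1) : ℕ) : ℝ) ≤ ((l % (2 * M + 1) : ℕ) : ℝ) := by
          exact_mod_cast hkl
        have := mul_le_mul_of_nonneg_right h5 h0.le
        linarith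
      · have h5 : ((l % (2 * M + 1) : ℕ) : ℝ) + 1 ≤ ((k % (2 * M + 1) : ℕ) : ℝ) := by
          exact_mod_cast hkl
        have := mul_le_mul_of_nonneg_right h5 h0.le
        linarith
    · rw [e] at c1 c2 c3
      simp only [I_mul_re, I_mul_im] at c1 c2 c3
      linarith
    · rw [e] at c1 c2 c3
      simp only [neg_re, neg_im] at c1 c2 c3
      linarith
    · rw [e] at c1 c2 c3
      simp only [neg_mul, neg_re, neg_im, I_mul_re, I_mul_im, neg_neg] at c1 c2 c3
      linarith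
  · -- a diagonal rail
    rcases two_frames (side_lt hk) (side_lt hl) (hw.symm.trans hw') with ⟨hs, e⟩ | e | e | e
    · subst e
      linarith
    · rw [e] at c1 c2 c3
      simp only [I_mul_re, I_mul_im] at c1 c2 c3
      linarith
    · rw [e] at c1 c2 c3
      simp only [neg_re, neg_im] at c1 c2 c3
      linarith
    · rw [e] at c1 c2 c3
      simp only [neg_mul, neg_re, neg_im, I_mul_re, I_mul_im, neg_neg] at c1 c2 c3
      linarith

/-- Radial corridors and rails. -/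
theorem rad_rail_disj (hM : 0 < M) (hk : k < nc M) (hl : l < nc M) :
    Disjoint (CBox M (pout M k) (prad M k))
      (CBox M (pin M l) (pin M (l + 1)) ∪ CBox M (pout M l) (pout M (l + 1))) := by
  rw [Set.disjoint_union_right]
  constructor
  · rw [pin_eq, pin_eq]; exact rad_rail' hM hk hl le_rfl (by norm_num)
  · rw [pout_eq M l, pout_eq M (l + 1)]; exact rad_rail' hM hk hl (by norm_num) le_rfl

/-- A radial corridor avoids the closed inner square (enlarged by `9 a / 16`). -/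
theorem rad_nsup (hM : 0 < M) {z : ℂ} (hz : z ∈ CBox M (pout M k) (prad M k)) :
    1 + 9 / 16 * ms M < nsup z := by
  obtain ⟨w, rfl⟩ := exists_eq_I_pow_mul (k / (2 * M + 1)) z
  have h1 : ∀ s : ℕ, nsup (I ^ s * w) = nsup w := by
    intro s
    induction s with
    | zero => simp
    | succ s ih => rw [pow_succ', mul_assoc, nsup_I_mul, ih]
  rw [h1]
  obtain ⟨c1, -, -⟩ := rad_crude hM hz
  exact c1.trans_le ((le_abs_self _).trans (le_max_left _ _))

theorem norm_rad (hM : 0 < M) (k : ℕ) : ‖prad M k - pout M k‖ = 2 * ms M := by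
  have h0 := ms_pos hM
  unfold prad
  rw [add_sub_cancel_left, norm_mul, norm_uo, one_mul, Complex.norm_real, Real.norm_of_nonneg]
  positivity

theorem pout_ne_prad (hM : 0 < M) (k : ℕ) : pout M k ≠ prad M k := by
  intro h
  have h1 := norm_rad hM k
  rw [← h, sub_self, norm_zero] at h1
  have := ms_pos hM
  linarith

/-- The seeds at the outer ends of the radial corridors are outside. -/
theorem prad_seed (hM : 0 < M) {z : ℂ} (hz : z ∈ ball (prad M k) (sd M)) :
    1 + 2 * ms M < nsup z := by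
  obtain ⟨w, rfl⟩ := exists_eq_I_pow_mul (k / (2 * M + 1)) z
  have h1 : ∀ s : ℕ, nsup (I ^ s * w) = nsup w := by
    intro s
    induction s with
    | zero => simp
    | succ s ih => rw [pow_succ', mul_assoc, nsup_I_mul, ih]
  rw [h1]
  obtain ⟨h0, h2, -, -⟩ := num hM
  rw [prad_eq, mem_ball] at hz
  unfold hp at hz
  rw [dist_eq, ← mul_sub, norm_mul, norm_pow, norm_I, one_pow, one_mul] at hz
  have h3 := (Complex.abs_re_le_norm (w - lp M (41 / 16) (k % (2 * M + 1)))).trans_lt hz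
  rw [abs_lt, sub_re] at h3
  simp only [lp] at h3
  have h4 := sd_pos hM
  exact (by linarith [h3.1] : 1 + 2 * ms M < w.re).trans_le ((le_abs_self _).trans (le_max_left _ _))

/-- The data of the long corridors are admissible for `tcr_whp` with aspect ratio `2048`. -/
theorem corridor_ok' (hM : 0 < M) {z z' : ℂ} (h1 : ms M / 8 ≤ ‖z' - z‖)
    (h2 : ‖z' - z‖ ≤ 2 * ms M) :
    z ≠ z' ∧ ‖cio z z'‖ = 1 ∧ sd M / 2 < ‖z' - z‖ - sd M / 2 ∧ -(sd M / 8) < sd M / 8 ∧
      ‖z' - z‖ - sd M / 2 - sd M / 2 ≤ 2048 * (sd M / 8 - -(sd M / 8)) ∧ 0 < sd M / 8 := by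
  obtain ⟨h0, h3, -, -⟩ := num hM
  have hs := sd_pos hM
  have hz : z ≠ z' := by
    rintro rfl
    rw [sub_self, norm_zero] at h1
    linarith
  exact ⟨hz, norm_cio hz, by linarith, by linarith, by linarith, by linarith⟩

theorem rad_sub_ball (hM : 0 < M) (k : ℕ) : CBox M (pout M k) (prad M k) ⊆ ball 0 6 := by
  intro z hz
  obtain ⟨w, rfl⟩ := exists_eq_I_pow_mul (k / (2 * M + 1)) z
  have h0 := ms_pos hM
  have h1 := ms_le_one (M := M)
  have h4 := sd_pos hM
  obtain ⟨⟨a1, a2⟩, -⟩ := rad_local hM hz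
  obtain ⟨-, a3, a4⟩ := rad_crude hM hz
  have h5 : sd M ≤ 1 / 256 := by unfold sd; linarith
  rw [mem_ball_zero_iff, norm_mul, norm_pow, norm_I, one_pow, one_mul]
  refine (norm_le_re_add_im _).trans_lt ?_
  have e1 : |w.re| ≤ 57 / 16 := by rw [abs_le]; constructor <;> linarith
  have e2 : |w.im| ≤ 2 := by rw [abs_le]; constructor <;> linarith
  linarith

end Vale.Agent.P148.R2.H995
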