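import Vale.Agent.P148.R2.H995.Cross2

/-!
# P148, module E2d: circuits in square annuli
-/

open Set Metric

namespace Vale.Agent.P148.R2.H995

open H592 H938

theorem Chain.trans {rel : ℂ → ℂ → Prop} {W : Set ℂ} {u w x : ℂ} (h : Chain rel W u w)
    (h' : Chain rel W w x) : Chain rel W u x := by
  obtain ⟨n, v, h1, h2, h3, h4⟩ := h'
  have key : ∀ i ≤ n, Chain rel W u (v i) := by
    intro i
    induction i with
    | zero => intro _; rw [h3]; exact h
    | succ i ih =>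
      intro hi
      exact (ih (by omega)).snoc (h2 _ hi) (h1 i (by omega))
  rw [← h4]
  exact key n le_rfl

theorem Chain.symm {rel : ℂ → ℂ → Prop} (hrel : ∀ a b, rel a b → rel b a) {W : Set ℂ} {u w : ℂ}
    (h : Chain rel W u w) : Chain rel W w u := by
  obtain ⟨n, v, h1, h2, h3, h4⟩ := h
  refine ⟨n, fun i => v (n - i), fun i hi => ?_, fun i _ => h2 _ (by omega), ?_, ?_⟩
  · have h5 : n - i = (n - (i + 1)) + 1 := by omega
    show rel (v (n - i)) (v (n - (i + 1)))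
    rw [h5]
    exact hrel _ _ (h1 (n - (i + 1)) (by omega))
  · simpa using h4
  · simpa using h3

/-- Any two vertices of a path are joined inside it. -/
theorem chain_path {rel : ℂ → ℂ → Prop} (hrel : ∀ a b, rel a b → rel b a) {n : ℕ} {v : ℕ → ℂ}
    (hv : ∀ i < n, rel (v i) (v (i + 1))) {i j : ℕ} (hi : i ≤ n) (hj : j ≤ n) :
    Chain rel {z | ∃ k ≤ n, z = v k} (v i) (v j) := by
  have key : ∀ j ≤ n, Chain rel {z | ∃ k ≤ n, z = v k} (v 0) (v j) := by
    intro j hj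
    exact ⟨j, v, fun k hk => hv k (by omega), fun k hk => ⟨k, by omega, rfl⟩, rfl, rfl⟩
  exact ((key i hi).symm hrel).trans (key j hj)

/-- A connected set of points of `W` in the closed square annulus, which is met by every path
from the inner square to the outside. -/
def Circ (X W : Set ℂ) (p : ℂ) (r R : ℝ) : Prop :=
  ∃ K : Set ℂ, K ⊆ W ∧ K.Finite ∧ K.Nonempty ∧
    (∀ z ∈ K, r ≤ nsup (z - p) ∧ nsup (z - p) ≤ R) ∧
    (∀ u ∈ K, ∀ w ∈ K, Chain (nbr X) K u w) ∧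
    ∀ (m : ℕ) (w : ℕ → ℂ), (∀ i < m, nbr X (w i) (w (i + 1))) → nsup (w 0 - p) ≤ r →
      R ≤ nsup (w m - p) → ∃ i ≤ m, w i ∈ K

theorem Circ.mono {X W W' : Set ℂ} {p : ℂ} {r R : ℝ} (h : Circ X W p r R) (hW : W ⊆ W') :
    Circ X W' p r R := by
  obtain ⟨K, h1, h2⟩ := h
  exact ⟨K, h1.trans hW, h2⟩

theorem turn_cases {ι : ℂ} (h : Turn ι) :
    ι = 1 ∨ ι = Complex.I ∨ ι = -1 ∨ ι = -Complex.I := h

theorem nsup_of_box {ι p z : ℂ} (hι : Turn ι) {R r t : ℝ} (hr : 0 ≤ r)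
    (h : ι * (z - p) ∈ Rc (-R - t) (R + t) r R) (ht : 0 ≤ t) :
    r ≤ nsup (z - p) ∧ nsup (z - p) ≤ R + t := by
  obtain ⟨a1, a2, a3, a4⟩ := h
  constructor
  · refine le_trans ?_ (hι.bd (z - p)).2
    rw [abs_of_nonneg (hr.trans a3)]
    exact a3
  · have key : ∀ w : ℂ, nsup (ι * w) = nsup w := by
      intro w
      rcases hι with rfl | rfl | rfl | rfl
      · rw [one_mul]
      · simp [nsup, Complex.mul_re, Complex.mul_im, max_comm]
      · simp [nsup]
      · simp [nsup, Complex.mul_re, Complex.mul_im, max_comm]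
    rw [← key]
    refine max_le (abs_le.2 ⟨by linarith, by linarith⟩) (abs_le.2 ⟨by linarith, by linarith⟩)

/-- **Four crossings give a circuit.** -/
theorem circ_of_tcr {X W : Set ℂ} (hX : Three X) {p : ℂ} {r R t : ℝ} (hr : 0 < r) (hrR : r < R)
    (ht : 0 ≤ t) (h : ∀ ι, Turn ι → TCr X W ι p (-R) R r R t) : Circ X W p r (R + t) := by
  choose! n v h1 h2 h3 h4 using h
  set P : ℂ → Set ℂ := fun ι => {z | ∃ k ≤ n ι, z = v ι k} with hP
  set K : Set ℂ := P 1 ∪ P (-Complex.I) ∪ P (-1) ∪ P Complex.I with hK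
  have t1 : Turn 1 := Or.inl rfl
  have t2 : Turn (-Complex.I) := Or.inr (Or.inr (Or.inr rfl))
  have t3 : Turn (-1) := Or.inr (Or.inr (Or.inl rfl))
  have t4 : Turn Complex.I := Or.inr (Or.inl rfl)
  have mem : ∀ ι, Turn ι → P ι ⊆ K := by
    rintro ι (rfl | rfl | rfl | rfl) z hz
    · exact Or.inl (Or.inl (Or.inl hz))
    · exact Or.inr hz
    · exact Or.inl (Or.inr hz)
    · exact Or.inl (Or.inl (Or.inr hz))
  have cases : ∀ z ∈ K, ∃ ι, Turn ι ∧ z ∈ P ι := by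
    rintro z (((hz | hz) | hz) | hz)
    · exact ⟨_, t1, hz⟩
    · exact ⟨_, t2, hz⟩
    · exact ⟨_, t3, hz⟩
    · exact ⟨_, t4, hz⟩
  have hs : ∀ a b, nbr X a b → nbr X b a := fun a b => nbr_symm
  -- consecutive paths share a vertex
  have share : ∀ ι, Turn ι → Turn (-Complex.I * ι) → ∃ z, z ∈ P ι ∧ z ∈ P (-Complex.I * ι) := by
    intro ι hι hι'
    obtain ⟨i, hi, j, hj, he⟩ := tcr_meet hX hι.norm (x0 := -R) (x1 := R) (y0 := r) (y1 := R)
      (x0' := -R) (x1' := R) (y0' := r) (y1' := R) (t := t) (t' := t) (h1 ι hι)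
      (fun i hi => (h2 ι hι i hi).2) (h3 ι hι) (h4 ι hι) (h1 _ hι')
      (fun i hi => (h2 _ hι' i hi).2) (h3 _ hι') (h4 _ hι') le_rfl (by linarith) (by linarith)
      le_rfl hrR hrR
    exact ⟨_, ⟨i, hi, rfl⟩, ⟨j, hj, he⟩⟩
  have inP : ∀ ι, Turn ι → ∀ u ∈ P ι, ∀ w ∈ P ι, Chain (nbr X) K u w := by
    rintro ι hι u ⟨i, hi, rfl⟩ w ⟨j, hj, rfl⟩
    exact (chain_path hs (h1 ι hι) hi hj).mono (mem ι hι)
  obtain ⟨z0, hz0⟩ : ∃ z, z ∈ P 1 := ⟨v 1 0, 0, Nat.zero_le _, rfl⟩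
  obtain ⟨z1, a1, b1⟩ := share 1 t1 (by rw [mul_one]; exact t2)
  rw [mul_one] at b1
  have e2 : -Complex.I * -Complex.I = -1 := by
    rw [neg_mul_neg, Complex.I_mul_I]
  obtain ⟨z2, a2, b2⟩ := share (-Complex.I) t2 (by rw [e2]; exact t3)
  rw [e2] at b2
  have e3 : -Complex.I * -1 = Complex.I := by ring
  obtain ⟨z3, a3, b3⟩ := share (-1) t3 (by rw [e3]; exact t4)
  rw [e3] at b3
  have c1 : Chain (nbr X) K z0 z1 := inP 1 t1 _ hz0 _ a1
  have c2 : Chain (nbr X) K z0 z2 := c1.trans (inP _ t2 _ b1 _ a2)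
  have c3 : Chain (nbr X) K z0 z3 := c2.trans (inP _ t3 _ b2 _ a3)
  have all : ∀ z ∈ K, Chain (nbr X) K z0 z := by
    rintro z (((hz | hz) | hz) | hz)
    · exact inP 1 t1 _ hz0 _ hz
    · exact c1.trans (inP _ t2 _ b1 _ hz)
    · exact c2.trans (inP _ t3 _ b2 _ hz)
    · exact c3.trans (inP _ t4 _ b3 _ hz)
  have fin : ∀ ι, (P ι).Finite := by
    intro ι
    refine ((Set.finite_Iic (n ι)).image (v ι)).subset ?_
    rintro z ⟨k, hk, rfl⟩
    exact ⟨k, hk, rfl⟩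
  refine ⟨K, ?_, (((fin _).union (fin _)).union (fin _)).union (fin _), ⟨z0, mem 1 t1 hz0⟩, ?_,
    fun u hu w hw => ((all u hu).symm hs).trans (all w hw), ?_⟩
  · intro z hz
    obtain ⟨ι, hι, k, hk, rfl⟩ := cases z hz
    exact (h2 ι hι k hk).1
  · intro z hz
    obtain ⟨ι, hι, k, hk, rfl⟩ := cases z hz
    exact nsup_of_box hι hr.le (h2 ι hι k hk).2 ht
  · intro m w hw hw0 hw1
    by_contra hcon
    push Not at hcon
    refine no_arm hX (p := p) (r := r) (R := R) hrR (B := K) (W := Kᶜ)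
      disjoint_compl_right (fun ι hι => ⟨n ι, v ι, h1 ι hι, fun i hi => ⟨mem ι hι ⟨i, hi, rfl⟩,
        (h2 ι hι i hi).2.2.2.1, (h2 ι hι i hi).2.2.2.2⟩, h3 ι hι, h4 ι hι⟩) (hr.trans hrR) hw
      (fun i hi => hcon i hi) hw0 (by
        have : nin (w m - p) = nsup (w m - p) := rfl
        rw [this]; linarith)

theorem card_turns [DecidableEq ℂ] :
    ({1, Complex.I, -1, -Complex.I} : Finset ℂ).card = 4 := by
  have i1 : (1 : ℂ) ≠ Complex.I := fun h => by simpa using congrArg Complex.im h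
  have i2 : (1 : ℂ) ≠ -1 := by norm_num
  have i3 : (1 : ℂ) ≠ -Complex.I := fun h => by simpa using congrArg Complex.im h
  have i4 : Complex.I ≠ -1 := fun h => by simpa using congrArg Complex.im h
  have i5 : Complex.I ≠ -Complex.I := fun h => by
    have := congrArg Complex.im h
    simp at this
    norm_num at this
  have i6 : (-1 : ℂ) ≠ -Complex.I := fun h => by simpa using congrArg Complex.im h
  rw [Finset.card_insert_of_notMem, Finset.card_insert_of_notMem, Finset.card_insert_of_notMem,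
    Finset.card_singleton]
  · simpa using i6
  · simp only [Finset.mem_insert, Finset.mem_singleton, not_or]
    exact ⟨i4, i5⟩
  · simp only [Finset.mem_insert, Finset.mem_singleton, not_or]
    exact ⟨i1, i2, i3⟩

/-- Harris: a lower bound for circuits. -/
theorem cp_circ_ge {X N : Set ℂ} (hX : Three X) (hN : N.Finite) {p : ℂ} {r R t : ℝ} (hr : 0 < r)
    (hrR : r < R) (ht : 0 ≤ t) {c : ℝ} (hc : 0 ≤ c)
    (h : ∀ ι, Turn ι → c ≤ cp N (fun W => TCr X W ι p (-R) R r R t)) :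
    c ^ 4 ≤ cp N (fun W => Circ X W p r (R + t)) := by
  classical
  set s : Finset ℂ := {1, Complex.I, -1, -Complex.I} with hs
  have hmem : ∀ ι ∈ s, Turn ι := by
    intro ι hι
    simp only [hs, Finset.mem_insert, Finset.mem_singleton] at hι
    exact hι
  have hmem' : ∀ ι, Turn ι → ι ∈ s := by
    intro ι hι
    simp only [hs, Finset.mem_insert, Finset.mem_singleton]
    exact hι
  have h1 := cp_harris_prod_inc hN s (Q := fun ι W => TCr X W ι p (-R) R r R t)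
    (fun ι _ W W' hWW' H => H.mono fun z hz => hWW' hz.1)
  have h2 : ∏ ι ∈ s, c ≤ ∏ ι ∈ s, cp N (fun W => TCr X W ι p (-R) R r R t) :=
    Finset.prod_le_prod (fun _ _ => hc) fun ι hι => h ι (hmem ι hι)
  have hcard : s.card = 4 := card_turns
  rw [Finset.prod_const, hcard] at h2
  refine h2.trans (h1.trans (cp_mono hN fun W _ hW => ?_))
  exact circ_of_tcr hX hr hrR ht fun ι hι => hW ι (hmem' ι hι)

/-! ### families of boxes of both colours -/

/-- Crossings of one colour and crossings of the other colour in disjoint boxes. -/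
theorem cp_two_colours {X N : Set ℂ} (hN : N.Finite) {κ κ' : Type*} (s : Finset κ)
    (s' : Finset κ') {ι p : κ → ℂ} {x0 x1 y0 y1 t c : κ → ℝ} {ι' p' : κ' → ℂ}
    {x0' x1' y0' y1' t' c' : κ' → ℝ} (hc : ∀ k ∈ s, 0 ≤ c k) (hc' : ∀ k ∈ s', 0 ≤ c' k)
    (h : ∀ k ∈ s, c k ≤ cp N (fun W => TCr X W (ι k) (p k) (x0 k) (x1 k) (y0 k) (y1 k) (t k)))
    (h' : ∀ k ∈ s', c' k ≤
      cp N (fun W => TCr X W (ι' k) (p' k) (x0' k) (x1' k) (y0' k) (y1' k) (t' k)))
    (hd : ∀ k ∈ s, ∀ k' ∈ s', Disjoint (N ∩ Box (ι k) (p k) (x0 k) (x1 k) (y0 k) (y1 k) (t k))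
      (N ∩ Box (ι' k') (p' k') (x0' k') (x1' k') (y0' k') (y1' k') (t' k'))) :
    (∏ k ∈ s, c k) * ∏ k ∈ s', c' k ≤ cp N (fun W =>
      (∀ k ∈ s, TCr X (N ∩ W) (ι k) (p k) (x0 k) (x1 k) (y0 k) (y1 k) (t k)) ∧
      ∀ k ∈ s', TCr X (N \ W) (ι' k) (p' k) (x0' k) (x1' k) (y0' k) (y1' k) (t' k)) := by
  classical
  set A : Set ℂ := ⋃ k ∈ s, N ∩ Box (ι k) (p k) (x0 k) (x1 k) (y0 k) (y1 k) (t k) with hA
  set B : Set ℂ := ⋃ k ∈ s', N ∩ Box (ι' k) (p' k) (x0' k) (x1' k) (y0' k) (y1' k) (t' k) with hB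
  have hAB : Disjoint A B := by
    rw [hA, hB]
    simp only [disjoint_iUnion_left, disjoint_iUnion_right]
    intro k' hk' k hk
    exact hd k hk k' hk'
  rw [cp_indep hN hAB (Q := fun W => ∀ k ∈ s, TCr X (N ∩ W) (ι k) (p k) (x0 k) (x1 k) (y0 k)
    (y1 k) (t k)) (Q' := fun W => ∀ k ∈ s', TCr X (N \ W) (ι' k) (p' k) (x0' k) (x1' k) (y0' k)
    (y1' k) (t' k))]
  · refine mul_le_mul ?_ ?_ (Finset.prod_nonneg fun k hk => hc' k hk) (cp_nonneg _ _)
    · refine (Finset.prod_le_prod hc h).trans ?_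
      refine (cp_harris_prod_inc hN s (Q := fun k W => TCr X W (ι k) (p k) (x0 k) (x1 k) (y0 k)
        (y1 k) (t k)) (fun k _ W W' hWW' H => H.mono fun z hz => hWW' hz.1)).trans ?_
      refine cp_mono hN fun W hW H k hk => (H k hk).mono ?_
      rintro z ⟨hz, _⟩
      exact ⟨hW hz, hz⟩
    · refine (Finset.prod_le_prod hc' h').trans ?_
      refine (cp_harris_prod_inc hN s' (Q := fun k W => TCr X W (ι' k) (p' k) (x0' k) (x1' k)
        (y0' k) (y1' k) (t' k)) (fun k _ W W' hWW' H => H.mono fun z hz => hWW' hz.1)).trans ?_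
      rw [← cp_compl]
  · intro W
    have key : ∀ k ∈ s, (TCr X (N ∩ W) (ι k) (p k) (x0 k) (x1 k) (y0 k) (y1 k) (t k) ↔
        TCr X (N ∩ (W ∩ A)) (ι k) (p k) (x0 k) (x1 k) (y0 k) (y1 k) (t k)) := by
      intro k hk
      constructor
      · intro H
        refine H.mono ?_
        rintro z ⟨⟨hzN, hzW⟩, hzB⟩
        exact ⟨hzN, hzW, mem_biUnion hk ⟨hzN, hzB⟩⟩
      · intro H
        refine H.mono ?_
        rintro z ⟨⟨hzN, hzW, _⟩, _⟩
        exact ⟨hzN, hzW⟩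
    constructor
    · intro H k hk
      exact (key k hk).1 (H k hk)
    · intro H k hk
      exact (key k hk).2 (H k hk)
  · intro W
    have key : ∀ k ∈ s', (TCr X (N \ W) (ι' k) (p' k) (x0' k) (x1' k) (y0' k) (y1' k) (t' k) ↔
        TCr X (N \ (W ∩ B)) (ι' k) (p' k) (x0' k) (x1' k) (y0' k) (y1' k) (t' k)) := by
      intro k hk
      constructor
      · intro H
        refine H.mono ?_
        rintro z ⟨⟨hzN, hzW⟩, _⟩
        exact ⟨hzN, fun h => hzW h.1⟩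
      · intro H
        refine H.mono ?_
        rintro z ⟨⟨hzN, hzW⟩, hzB⟩
        refine ⟨hzN, fun h => hzW ⟨h, mem_biUnion hk ⟨hzN, hzB⟩⟩⟩
    constructor
    · intro H k hk
      exact (key k hk).1 (H k hk)
    · intro H k hk
      exact (key k hk).2 (H k hk)

end Vale.Agent.P148.R2.H995
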