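import Vale.Agent.P148.R2.H995.Wind
import Vale.Agent.P148.R2.H995.Surg
import Vale.Agent.P148.R2.N.Geo

/-!
# P148: a closed chain of paths around the collar separates the inside from the outside
-/

open Set Metric Complex
open scoped unitInterval ComplexConjugate

namespace Vale.Agent.P148.R2.H995

open H592 Vale.Agent.P148.R2.N

variable {K : ℕ} {n : ℕ → ℕ} {v : ℕ → ℕ → ℂ} {w : ℕ → ℂ}

/-- A path of the Delaunay graph off the vertices of the polygon does not change the winding. -/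
theorem wd_path {X : Set ℂ} (hX : Three X) (hP : Pieces K n v w) {B : Set ℂ}
    (hv : ∀ k < K, ∀ i < n k, nbr X (v k i) (v k (i + 1)))
    (hvB : ∀ k < K, ∀ i ≤ n k, v k i ∈ B) {m : ℕ} {u : ℕ → ℂ}
    (hu : ∀ i < m, nbr X (u i) (u (i + 1))) (huB : ∀ i ≤ m, u i ∉ B) :
    wd K n v (u 0) = wd K n v (u m) := by
  rcases Nat.eq_zero_or_pos m with rfl | hm
  · rfl
  obtain ⟨m, rfl⟩ := Nat.exists_eq_succ_of_ne_zero hm.ne'
  obtain ⟨γ, hγ⟩ := exists_curve u m
  have h1 := wd_const hP (f := fun s => γ s) (by fun_prop) (by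
    intro s k hk i hi t ht0 ht1 he
    obtain ⟨j, hj, x, hx0, hx1, e1⟩ := hγ s
    have neq : ∀ a ≤ m + 1, ∀ b ≤ n k, u a ≠ v k b := by
      intro a ha b hb h
      exact huB a ha (h ▸ hvB k hk b hb)
    refine seg_disjoint hX (hu j (by omega)) (hv k hk i hi) (neq _ (by omega) _ (by omega))
      (neq _ (by omega) _ (by omega)) (neq _ (by omega) _ (by omega))
      (neq _ (by omega) _ (by omega)) hx0 hx1 ht0 ht1 ?_
    rw [← e1]
    exact he)
  simpa using h1

/-- The winding is the same at two points whose segment is in a set disjoint from the edges. -/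
theorem wd_seg' (hP : Pieces K n v w) {S : Set ℂ} (hS : Convex ℝ S)
    (hv : ∀ k < K, ∀ i < n k, ∃ A, Convex ℝ A ∧ v k i ∈ A ∧ v k (i + 1) ∈ A ∧ Disjoint A S)
    {z z' : ℂ} (hz : z ∈ S) (hz' : z' ∈ S) : wd K n v z = wd K n v z' := by
  have sgm : ∀ {A : Set ℂ}, Convex ℝ A → ∀ {a b : ℂ}, a ∈ A → b ∈ A → ∀ {t : ℝ}, 0 ≤ t → t ≤ 1 →
      sg a b t ∈ A := by
    intro A hA a b ha hb t h0 h1
    have := hA.add_smul_sub_mem ha hb ⟨h0, h1⟩
    rw [Complex.real_smul] at this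
    exact this
  have h1 := wd_const hP (f := fun s => sg z z' (s : ℝ)) (by unfold sg; fun_prop) (by
    intro s k hk i hi t ht0 ht1 he
    obtain ⟨A, hA, a1, a2, a3⟩ := hv k hk i hi
    have h2 : sg (v k i) (v k (i + 1)) t ∈ A := sgm hA a1 a2 ht0 ht1
    have h3 : sg z z' (s : ℝ) ∈ S := sgm hS hz hz' s.2.1 s.2.2
    exact Set.disjoint_left.1 a3 h2 (he ▸ h3))
  simpa [sg] using h1

/-- The winding is the same at two points whose segment is in a set disjoint from the pieces. -/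
theorem wd_seg (hP : Pieces K n v w) {C : ℕ → Set ℂ} (hC : ∀ k < K, Convex ℝ (C k))
    (hv : ∀ k < K, ∀ i ≤ n k, v k i ∈ C k) {S : Set ℂ} (hS : Convex ℝ S)
    (hd : ∀ k < K, Disjoint (C k) S) {z z' : ℂ} (hz : z ∈ S) (hz' : z' ∈ S) :
    wd K n v z = wd K n v z' :=
  wd_seg' hP hS (fun k hk i hi => ⟨C k, hC k hk, hv k hk i hi.le, hv k hk (i + 1) hi, hd k hk⟩)
    hz hz'

theorem convex_nsup_lt (R : ℝ) : Convex ℝ {z : ℂ | nsup z < R} := by
  have h1 : {z : ℂ | nsup z < R} =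
      {z : ℂ | z.re < R} ∩ {z : ℂ | -R < z.re} ∩ ({z : ℂ | z.im < R} ∩ {z : ℂ | -R < z.im}) := by
    ext z
    simp only [nsup, mem_ofPred_eq, max_lt_iff, abs_lt, mem_inter_iff]
    tauto
  rw [h1]
  exact ((convex_halfSpace_re_lt R).inter (convex_halfSpace_re_gt (-R))).inter
    ((convex_halfSpace_im_lt R).inter (convex_halfSpace_im_gt (-R)))

theorem convex_nsup_le (R : ℝ) : Convex ℝ {z : ℂ | nsup z ≤ R} := by
  have h1 : {z : ℂ | nsup z ≤ R} =
      {z : ℂ | z.re ≤ R} ∩ {z : ℂ | -R ≤ z.re} ∩ ({z : ℂ | z.im ≤ R} ∩ {z : ℂ | -R ≤ z.im}) := by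
    ext z
    simp only [nsup, mem_ofPred_eq, max_le_iff, abs_le, mem_inter_iff]
    tauto
  rw [h1]
  exact ((convex_halfSpace_re_le R).inter (convex_halfSpace_re_ge (-R))).inter
    ((convex_halfSpace_im_le R).inter (convex_halfSpace_im_ge (-R)))

theorem isOpen_nsup_lt (R : ℝ) : IsOpen {z : ℂ | nsup z < R} := by
  have h : Continuous nsup := by
    unfold nsup
    exact (continuous_abs.comp Complex.continuous_re).max
      (continuous_abs.comp Complex.continuous_im)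
  exact isOpen_lt h continuous_const

/-- **A chain of pieces with positive winding at `0` separates**: every path from a convex set `S`
around `0`, disjoint from the edges, to the outside of a convex open set `U` which contains the
pieces meets the chain. -/
theorem ring_block' {X : Set ℂ} (hX : Three X) (hK : 0 < K) (hP : Pieces K n v w) {B : Set ℂ}
    (hv : ∀ k < K, ∀ i < n k, nbr X (v k i) (v k (i + 1)))
    (hvB : ∀ k < K, ∀ i ≤ n k, v k i ∈ B) {C : ℕ → Set ℂ} (hC : ∀ k < K, Convex ℝ (C k))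
    (hO : ∀ k < K, IsOpen (C k)) (hvC : ∀ k < K, ∀ i ≤ n k, v k i ∈ C k)
    (h0 : ∀ k < K, (0 : ℂ) ∉ C k) {S U : Set ℂ} (hS : Convex ℝ S) (hS0 : (0 : ℂ) ∈ S)
    (hSe : ∀ k < K, ∀ i < n k, ∃ A, Convex ℝ A ∧ v k i ∈ A ∧ v k (i + 1) ∈ A ∧ Disjoint A S)
    (hU : Convex ℝ U) (hUo : IsOpen U) (hvU : ∀ k < K, ∀ i ≤ n k, v k i ∈ U)
    (hpos : ∀ k < K, 0 < (conj (w k) * w (k + 1)).im)
    {m : ℕ} {u : ℕ → ℂ} (hu : ∀ i < m, nbr X (u i) (u (i + 1))) (hu0 : u 0 ∈ S)
    (hu1 : u m ∉ U) : ∃ i ≤ m, u i ∈ B := by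
  by_contra hcon
  push Not at hcon
  have h1 := wd_path hX hP hv hvB hu hcon
  have hw0 : w 0 ∈ U := by
    rw [← hP.start 0 hK]
    exact hvU 0 hK 0 (Nat.zero_le _)
  have h2 : wd K n v (u m) = 0 := wd_zero hP hU hUo hvU hw0 hu1
  have h3 : wd K n v (u 0) = wd K n v 0 := wd_seg' hP hS hSe hu0 hS0
  have h4 : wd K n v 0 = ∑ k ∈ Finset.range K, ang 0 (w k) (w (k + 1)) :=
    wd_pieces hP hC hO hvC h0
  have h5 : 0 < ∑ k ∈ Finset.range K, ang 0 (w k) (w (k + 1)) := by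
    refine Finset.sum_pos (fun k hk => ang_pos ?_) ⟨0, Finset.mem_range.2 hK⟩
    rw [sub_zero, sub_zero]
    exact hpos k (Finset.mem_range.1 hk)
  rw [h3, h4, h2] at h1
  linarith

/-- The case of two sup norm balls. -/
theorem ring_block {X : Set ℂ} (hX : Three X) (hK : 0 < K) (hP : Pieces K n v w) {B : Set ℂ}
    (hv : ∀ k < K, ∀ i < n k, nbr X (v k i) (v k (i + 1)))
    (hvB : ∀ k < K, ∀ i ≤ n k, v k i ∈ B) {C : ℕ → Set ℂ} (hC : ∀ k < K, Convex ℝ (C k))
    (hO : ∀ k < K, IsOpen (C k)) (hvC : ∀ k < K, ∀ i ≤ n k, v k i ∈ C k) {r R : ℝ} (hr : 0 ≤ r)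
    (hCr : ∀ k < K, ∀ z ∈ C k, r < nsup z ∧ nsup z < R)
    (hpos : ∀ k < K, 0 < (conj (w k) * w (k + 1)).im)
    {m : ℕ} {u : ℕ → ℂ} (hu : ∀ i < m, nbr X (u i) (u (i + 1))) (hu0 : nsup (u 0) ≤ r)
    (hu1 : R ≤ nsup (u m)) : ∃ i ≤ m, u i ∈ B := by
  have n0 : nsup (0 : ℂ) = 0 := by simp [nsup]
  refine ring_block' hX hK hP hv hvB hC hO hvC (fun k hk h => ?_) (convex_nsup_le r)
    (by rw [mem_ofPred_eq, n0]; exact hr) (fun k hk i hi => ⟨C k, hC k hk, hvC k hk i hi.le,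
      hvC k hk (i + 1) hi, ?_⟩) (convex_nsup_lt R) (isOpen_nsup_lt R)
    (fun k hk i hi => (hCr k hk _ (hvC k hk i hi)).2) hpos hu hu0 (not_lt.2 hu1)
  · have := (hCr k hk _ h).1
    rw [n0] at this
    linarith
  · rw [Set.disjoint_left]
    intro z hz hz'
    exact not_le.2 (hCr k hk z hz).1 hz'

theorem nc_pos (M : ℕ) : 0 < nc M := by unfold nc; omega

/-- Points of consecutive gate boxes are positively oriented. -/
theorem gbox_pos {M k : ℕ} (hM : 0 < M) {a b : ℂ} (ha : a ∈ gbox M k) (hb : b ∈ gbox M (k + 1)) :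
    0 < (conj a * b).im := by
  obtain ⟨x, rfl⟩ := exists_eq_I_pow_mul (k / (2 * M + 1)) a
  have h0 := ms_pos hM
  have hms := ms_le_one (M := M)
  have hI : ∀ s : ℕ, conj ((Complex.I : ℂ) ^ s) * Complex.I ^ s = 1 := by
    intro s
    rw [← Complex.normSq_eq_conj_mul_self, Complex.normSq_eq_norm_sq, norm_pow, norm_I, one_pow]
    simp
  obtain ⟨⟨a1, a2⟩, a3, a4⟩ := mem_gbox_iff.1 ha
  have m2 := mod_mul_le hM k
  have m4 : (0 : ℝ) ≤ ((k % (2 * M + 1) : ℕ) : ℝ) * ms M := by positivity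
  by_cases hk : k % (2 * M + 1) = 2 * M
  · obtain ⟨e1, e2⟩ := div_add_one_of_eq hM hk
    obtain ⟨y, rfl⟩ := exists_eq_I_pow_mul ((k + 1) / (2 * M + 1)) b
    obtain ⟨⟨b1, b2⟩, b3, b4⟩ := mem_gbox_iff.1 hb
    rw [e2] at b3 b4
    rw [hk, mod_mul_eq hM] at a3 a4
    simp only [Nat.cast_zero, zero_mul, add_zero] at b3 b4
    rw [e1, pow_succ]
    have e3 : conj (Complex.I ^ (k / (2 * M + 1)) * x) *
        (Complex.I ^ (k / (2 * M + 1)) * Complex.I * y) = conj x * (Complex.I * y) := by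
      rw [map_mul]
      calc conj (Complex.I ^ (k / (2 * M + 1))) * conj x *
            (Complex.I ^ (k / (2 * M + 1)) * Complex.I * y)
          = (conj (Complex.I ^ (k / (2 * M + 1))) * Complex.I ^ (k / (2 * M + 1))) *
            (conj x * (Complex.I * y)) := by ring
        _ = _ := by rw [hI, one_mul]
    rw [e3]
    have e4 : (conj x * (Complex.I * y)).im = x.re * y.re + x.im * y.im := by
      simp [mul_im, conj_re, conj_im]
    rw [e4]
    have c1 : (1 + 3 * ms M / 8) * (1 + 3 * ms M / 8) < x.re * y.re :=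
      mul_lt_mul'' a1 b1 (by positivity) (by positivity)
    have c2 : |x.im| ≤ 1 + ms M / 8 := by rw [abs_le]; constructor <;> linarith
    have c3 : |y.im| ≤ 1 + ms M / 8 := by rw [abs_le]; constructor <;> linarith
    have c4 : |x.im * y.im| ≤ (1 + ms M / 8) * (1 + ms M / 8) := by
      rw [abs_mul]
      exact mul_le_mul c2 c3 (abs_nonneg _) (by positivity)
    have c5 := (abs_le.1 c4).1
    have c6 : (1 + ms M / 8) * (1 + ms M / 8) < (1 + 3 * ms M / 8) * (1 + 3 * ms M / 8) := by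
      nlinarith
    linarith
  · obtain ⟨e1, e2⟩ := div_add_one_of_ne hk
    obtain ⟨y, rfl⟩ := exists_eq_I_pow_mul ((k + 1) / (2 * M + 1)) b
    obtain ⟨⟨b1, b2⟩, b3, b4⟩ := mem_gbox_iff.1 hb
    rw [e2] at b3 b4
    push_cast at b3 b4
    rw [e1]
    have e3 : conj (Complex.I ^ (k / (2 * M + 1)) * x) *
        (Complex.I ^ (k / (2 * M + 1)) * y) = conj x * y := by
      rw [map_mul]
      calc conj (Complex.I ^ (k / (2 * M + 1))) * conj x * (Complex.I ^ (k / (2 * M + 1)) * y)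
          = (conj (Complex.I ^ (k / (2 * M + 1))) * Complex.I ^ (k / (2 * M + 1))) *
            (conj x * y) := by ring
        _ = _ := by rw [hI, one_mul]
    rw [e3]
    simp only [mul_im, conj_re, conj_im]
    have c1 : 3 * ms M / 4 < y.im - x.im := by linarith
    have c2 : |x.im| ≤ 1 + ms M / 8 := by rw [abs_le]; constructor <;> linarith
    have c3 : |x.re - y.re| ≤ ms M / 4 := by rw [abs_le]; constructor <;> linarith
    have c4 : |x.im * (x.re - y.re)| ≤ (1 + ms M / 8) * (ms M / 4) := by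
      rw [abs_mul]
      exact mul_le_mul c2 c3 (abs_nonneg _) (by positivity)
    have c5 := (abs_le.1 c4).1
    nlinarith

/-- **The ring separates**: a closed chain of paths of `B` around the collar, the piece `k` running
from the gate box `k` to the gate box `k + 1` inside a convex open set, is met by every path from
the inside to the outside. -/
theorem ring_sep {X : Set ℂ} (hX : Three X) {M : ℕ} (hM : 0 < M) (hP : Pieces (nc M) n v w)
    {B : Set ℂ} (hv : ∀ k < nc M, ∀ i < n k, nbr X (v k i) (v k (i + 1)))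
    (hvB : ∀ k < nc M, ∀ i ≤ n k, v k i ∈ B) {C : ℕ → Set ℂ} (hC : ∀ k < nc M, Convex ℝ (C k))
    (hO : ∀ k < nc M, IsOpen (C k)) (hvC : ∀ k < nc M, ∀ i ≤ n k, v k i ∈ C k) {r R : ℝ}
    (hr : 0 ≤ r) (hCr : ∀ k < nc M, ∀ z ∈ C k, r < nsup z ∧ nsup z < R)
    (hw : ∀ k ≤ nc M, w k ∈ gbox M k)
    {m : ℕ} {u : ℕ → ℂ} (hu : ∀ i < m, nbr X (u i) (u (i + 1))) (hu0 : nsup (u 0) ≤ r)
    (hu1 : R ≤ nsup (u m)) : ∃ i ≤ m, u i ∈ B :=
  ring_block hX (nc_pos M) hP hv hvB hC hO hvC hr hCr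
    (fun k hk => gbox_pos hM (hw k hk.le) (hw (k + 1) hk)) hu hu0 hu1

end Vale.Agent.P148.R2.H995
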