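import Vale.Agent.P148.R2.H995.CalE4
import Vale.Agent.P148.R2.H112.Frame

/-!
# P148: a foot of helper565 is a foot of helper419
-/

open Set Relation Metric Function

namespace Vale.Agent.P148.R2.H995

open Vale.Agent.P148.R2.H258 Vale.Agent.P148.R2.H565
open Vale.Agent.P148.R2.N (ms nc gateC gbox cell ms_pos)
open Vale.Agent.P148.R2.H592 (nbr nbr_symm ConnIn HullTri Fc comp)
open Vale.Agent.P148.R2.H959 (Jn reg bd)
open Vale.Agent.P148.R2.H678 (core hub pin pout sd CBox inHub outHub inRim outRim hbox Ex mix mB mW)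
open Vale.Agent.P148.R2.H419 (Col EK oco)
open Vale.Agent.P148.R2.H144.Far (fo fi frim)
open Vale.Agent.P148.R2.H112 (bk)

/-- The far part of the boundary as a rim. -/
theorem frim_rim {X : Set ℂ} {b : ZMod 3 → ℂ} (h : HullTri X b) (x₀ : X) {K : Set ℂ} {v : X}
    (hv : v.1 ∈ frim X (b 0) K) : v ∈ rim (HT h x₀) (vs K) ⟨b 0, h.mem 0⟩ := by
  obtain ⟨⟨-, h1, u, hu, hvu⟩, h2⟩ := hv
  obtain ⟨l, hl, hlm⟩ := HT_walk h x₀ (y := ⟨b 0, h.mem 0⟩) h2
  obtain ⟨g, g1, g2⟩ := HT_dart h x₀ (x := v) (y := ⟨u, hvu.2.1⟩) hvu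
  refine ⟨⟨h1, l, hl, fun g hg => ⟨(hlm g hg).1.2, (hlm g hg).2.2⟩⟩, g, g1, ?_⟩
  rw [g2]
  exact hu

variable {M : ℕ} {X : Set ℂ} {b : ZMod 3 → ℂ} {Bl₁ Wh₁ Bl₂ Wh₂ : Set ℂ} {s : ℂ → Bool}

/-- **A foot of helper565 is a foot of helper419.** -/
theorem foot_back (hC : Col M X b Bl₁ Wh₁ Bl₂ Wh₂ s) {x₀ : X} {k : ℕ} {g : Fc X b × ZMod 3}
    (hg : H565.Foot M X (bk X s) k
      ((((HT hC.hull x₀).src g : X) : ℂ), (((HT hC.hull x₀).tgt g : X) : ℂ))) :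
    H419.Foot hC.hull x₀ M Bl₁ Wh₁ s k g := by
  have hM := hC.hM
  have hG := hC.good
  obtain ⟨n, v, hn, h1, hv0, hv1, h2, h3, h4, h5⟩ := hg
  replace hv0 : v 0 = (((HT hC.hull x₀).src g : X) : ℂ) := hv0
  replace hv1 : v 1 = (((HT hC.hull x₀).tgt g : X) : ℂ) := hv1
  rw [H112.inRim_bk hC] at h2
  rw [H112.outRim_bk hC] at h3
  have hd := hbox_disj hM k
  have h4' : ∀ i, 0 < i → i < n → v i ∉ inHub M X Wh₁ k ∧ v i ∉ outHub M X Bl₁ k := by
    intro i hi hin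
    have := (h4 i hi hin).2
    rwa [H112.inHub_bk hC, H112.outHub_bk hC] at this
  have hf0 : v 0 ∈ fi M X Wh₁ (b 0) k :=
    H144.Far.far_start hC.hull (hG.inSub k)
      (fun j => H144.Far.hb_lt_of_far hM (H144.Far.pin_gbox hM k) (Col.far1 hC j)) h1 h2
      (H678.hub_sub_X h3.1) (H144.Far.off_box hd (hG.outSub k h3.1))
      (fun i hi hin => (h4' i hi hin).1)
  have hfn : v n ∈ fo M X Bl₁ (b 0) k :=
    H144.Far.far_end hC.hull (hG.outSub k)
      (fun j => H144.Far.hb_lt_of_far hM (H144.Far.pout_gbox hM k) (Col.far1 hC j)) h1 h3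
      (H678.hub_sub_X h2.1) (H144.Far.off_box hd.symm (hG.inSub k h2.1))
      (fun i hi hin => (h4' i hi hin).2)
  -- colours
  have hX : ∀ i ≤ n, v i ∈ X := by
    intro i hi
    rcases Nat.eq_zero_or_pos i with rfl | hi0
    · exact H678.hub_sub_X h2.1
    · have := (h1 (i - 1) (by omega)).2.1
      rwa [Nat.sub_add_cancel hi0] at this
  have hs : ∀ i, 0 < i → i ≤ n → s (v i) = false := by
    intro i hi hin
    rcases hin.lt_or_eq with h6 | h6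
    · have h7 := (h4 i hi h6).1
      by_contra h8
      exact h7 ⟨hX i hin, by simpa using h8⟩
    · rw [h6]; exact Col.fo_white hC hfn
  obtain ⟨l, hl, hlm⟩ := HT_walk_seq hC.hull x₀ (n := n - 1) (v := fun i => v (i + 1))
    (fun i hi => h1 (i + 1) (by omega)) (fun i hi => hX (i + 1) (by omega))
  have e1 : (⟨v (0 + 1), hX (0 + 1) (by omega)⟩ : X) = (HT hC.hull x₀).tgt g :=
    Subtype.ext hv1
  have e2 : (⟨v (n - 1 + 1), hX (n - 1 + 1) (by omega)⟩ : X) = ⟨v n, hX n le_rfl⟩ :=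
    Subtype.ext (by show v (n - 1 + 1) = v n; rw [Nat.sub_add_cancel hn])
  have a1 : (((HT hC.hull x₀).src g : X) : ℂ) ∈ frim X (b 0)
      (core (nbr X) (X ∩ ball (pin M k) (sd M)) Wh₁) := by rw [← hv0]; exact hf0
  have a2 : s (((HT hC.hull x₀).tgt g : X) : ℂ) = false := by rw [← hv1]; exact hs 1 one_pos hn
  have a3 : (((HT hC.hull x₀).tgt g : X) : ℂ) ∈ gbox M k := by rw [← hv1]; exact h5 1 hn
  refine ⟨frim_rim hC.hull x₀ a1, a2, a3, ⟨v n, hX n le_rfl⟩, frim_rim hC.hull x₀ hfn, l, ?_, ?_⟩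
  · rw [← e1, ← e2]; exact hl
  · intro g' hg'
    obtain ⟨i, hi, h6⟩ := hlm g' hg'
    have h6' : (((HT hC.hull x₀).tgt g' : X) : ℂ) = v (i + 1 + 1) := h6
    have b1 : s (((HT hC.hull x₀).tgt g' : X) : ℂ) = false := by
      rw [h6']; exact hs _ (by omega) (by omega)
    have b2 : (((HT hC.hull x₀).tgt g' : X) : ℂ) ∈ gbox M k := by
      rw [h6']; exact h5 _ (by omega)
    exact ⟨b1, b2⟩

end Vale.Agent.P148.R2.H995
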