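import Vale.Agent.P148.R2.H995.CalMark
import Vale.Agent.P148.R2.H995.CalFoot

/-!
# P148, row CAL: the marks of the scene

`calT` : the colouring of the world of the mark (helper897's `cal` with the explored set `ECV`).
`mark_scene`, `calT_fresh` : helper897's `Mark` and the fresh colours, for the total world
`wd h M (cw M c₁ c₂)`, an arbitrary frame and a good pair of colourings.
-/

open Set Relation Metric Function

namespace Vale.Agent.P148.R2.H995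

open Vale.Agent.P148.R2.N (ms nc gateC gbox cell ms_pos)
open Vale.Agent.P148.R2.H592 (HullTri)
open Vale.Agent.P148.R2.H678 (mB mW cw HubV ctr cs_val)
open Vale.Agent.P148.R2.H419 (Col EK Foot)
open Vale.Agent.P148.R2.H566 (W0)
open Vale.Agent.P148.R2.H609 (TP piX)
open Vale.Agent.P148.R2.H172 (Frame combLaw cs blk)
open Vale.Agent.P148.R2.H938 (pc)

variable {M : ℕ} {X : Set ℂ} {b : ZMod 3 → ℂ} [Fintype X]

/-- The colouring of the world of the mark `p`, `q`. -/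
noncomputable def calT (M : ℕ) (X : Set ℂ) [Fintype X] (p q : ℕ) (c₁ c₂ c₃ : X → Bool) :
    X → Bool :=
  H897.cal (HubV M X) (PmV M X p) (ECV M X p q) (fun _ => True) (fun v => v.1 ∈ SC M X p q)
    c₁ c₂ c₃

/-- **Fairness.** -/
theorem calT_fair (p q : ℕ) (F : (X → Bool) → ℝ) :
    (H953.ex fun c₁ => H953.ex fun c₂ => H953.ex fun c₃ => F (calT M X p q c₁ c₂ c₃)) =
      H953.ex F :=
  H897.cal_fair H678.isStop_HubV (isStop_PmV M X p) (isStop_ECV M X p q) (fun s => PmV_sub_ECV s)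
    _ _ F

omit [Fintype X] in
theorem blk_bk (w : W0) (s : ℂ → Bool) :
    (blk fun v : w.X => s v.1) = H112.bk w.X s := by
  ext z
  exact ⟨fun ⟨h, hz⟩ => ⟨h, hz⟩, fun ⟨h, hz⟩ => ⟨h, hz⟩⟩

omit [Fintype X] in
/-- The feet of a frame are admissible. -/
theorem frame_feet {w : W0} {x₀ : w.X} {Bl₁ Wh₁ Bl₂ Wh₂ : Set ℂ} {s : ℂ → Bool}
    (hC : Col M w.X w.b Bl₁ Wh₁ Bl₂ Wh₂ s) (F : Frame M w x₀ (fun v => s v.1)) (k : ℕ) :
    Foot w.hull x₀ M Bl₁ Wh₁ s k (((TP w x₀).st (fun v => s v.1))^[F.t k] F.o) := by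
  have h1 := F.foot k
  rw [blk_bk] at h1
  exact foot_back hC h1

omit [Fintype X] in
/-- The mark of a frame, any colouring `col` which is `s` on the sites. -/
theorem mark_frame' {w : W0} {x₀ : w.X} {Bl₁ Wh₁ Bl₂ Wh₂ : Set ℂ} {s : ℂ → Bool}
    (hC : Col M w.X w.b Bl₁ Wh₁ Bl₂ Wh₂ s) {col : w.X → Bool} (hcol : ∀ v, s v.1 = col v)
    (F : Frame M w x₀ col) {g a b : ℕ} (lo : a + 5 ≤ b) (hi : b + 4 ≤ a + nc M) {τ : w.X → Bool}
    (hτ : CalW M w.X (mB M w.X Bl₁ Wh₁ Bl₂) (mW M w.X Bl₁ Wh₁ Wh₂) s (g + a) (g + b) τ)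
    {r : ℝ} (hr : 7 * ms M ≤ r) :
    H897.Mark (TP w x₀) col (((TP w x₀).st col)^[F.t g] F.o) (nc M)
      (fun k => F.t (g + k) - F.t g) a b τ (Zn M w.X (g + a) (g + b) r) := by
  obtain rfl : (fun v : w.X => s v.1) = col := funext hcol
  exact mark_frame hC F (frame_feet hC F) lo hi hτ hr

/-- **The mark of the scene.** -/
theorem mark_scene (hM : 0 < M) (h : HullTri X b) (hfar : ∀ j, 1 + 2 * ms M ≤ nsup (b j))
    {c₁ c₂ : X → Bool} (hA : (combLaw hM X (Subtype.val : X → ℂ)).A0 c₁ c₂)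
    {x₀ : (H678.wd h M (cw M c₁ c₂)).X}
    (F : Frame M (H678.wd h M (cw M c₁ c₂)) x₀ (cw M c₁ c₂)) (c₃ : X → Bool) {g p q : ℕ}
    (hg : g ≤ p) (lo : p + 5 ≤ q) (hi : q + 4 ≤ p + nc M) {r : ℝ} (hr : 7 * ms M ≤ r) :
    H897.Mark (TP (H678.wd h M (cw M c₁ c₂)) x₀) (cw M c₁ c₂)
      (((TP (H678.wd h M (cw M c₁ c₂)) x₀).st (cw M c₁ c₂))^[F.t g] F.o) (nc M)
      (fun k => F.t (g + k) - F.t g) (p - g) (q - g) (calT M X p q c₁ c₂ c₃)
      (Zn M X p q r) := by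
  have hC := H678.col_of_A0 hM h hfar hA
  obtain ⟨a, rfl⟩ := Nat.exists_eq_add_of_le hg
  obtain ⟨b', rfl⟩ := Nat.exists_eq_add_of_le (show g ≤ q by omega)
  rw [Nat.add_sub_cancel_left, Nat.add_sub_cancel_left]
  have hw := calW_cal (M := M) (p := g + a) (q := g + b') (cs Subtype.val (cw M c₁ c₂)) c₁ c₂ c₃
    (fun v => cs_val _ v)
  exact mark_frame' (w := H678.wd h M (cw M c₁ c₂)) hC (fun v => cs_val _ v) F (by omega)
    (by omega) hw hr

/-- **Fresh sites off the zone have the third colour.** -/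
theorem calT_fresh (hM : 0 < M) (h : HullTri X b) (hfar : ∀ j, 1 + 2 * ms M ≤ nsup (b j))
    {c₁ c₂ : X → Bool} (hA : (combLaw hM X (Subtype.val : X → ℂ)).A0 c₁ c₂)
    (hX : (X ∩ ball (0 : ℂ) (1 / 2)).Nonempty) (c₃ : X → Bool) {p q : ℕ} {r : ℝ}
    (hr : 7 * ms M ≤ r) {v : X} (hv : v ∉ Zn M X p q r)
    (hfr : v.1 ∉ (H678.wd h M (cw M c₁ c₂)).B) : calT M X p q c₁ c₂ c₃ v = c₃ v := by
  have hC := H678.col_of_A0 hM h hfar hA
  have hB : (H678.wd h M (cw M c₁ c₂)).B = X \ H419.I0 M X (pc Subtype.val true c₁)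
      (pc Subtype.val false c₁) (pc Subtype.val true c₂) (pc Subtype.val false c₂) (ctr X) := by
    show (H678.wrd h (H678.E0X M X (cw M c₁ c₂))).B = _
    rw [H678.E0X_eq]
    exact H678.wrd_B (h := h) (H678.wc_of_col hC hX)
  exact cal_third c₁ c₂ c₃ (fresh_off (w := H678.wd h M (cw M c₁ c₂)) hC hB hr hv hfr)

end Vale.Agent.P148.R2.H995
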