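import Vale.Agent.P148.R2.H995.CalE4
import Vale.Agent.P148.R2.H897.CalTime
import Vale.Agent.P148.R2.H112.Frame3
import Vale.Agent.P148.R2.H419.Col5

/-!
# P148, row CAL: the marks of a frame

`mark_frame` : helper897's `Mark` for the colours of the world of the mark, on a frame whose feet are
admissible.  `fresh_off` : fresh sites off the zone are not explored.
-/

open Set Relation Metric Function

namespace Vale.Agent.P148.R2.H995

open Vale.Agent.P148.R2.H258 Vale.Agent.P148.R2.H565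
open Vale.Agent.P148.R2.N (ms nc gateC gbox cell ms_pos)
open Vale.Agent.P148.R2.H592 (nbr nbr_symm ConnIn HullTri Fc comp)
open Vale.Agent.P148.R2.H959 (Jn reg)
open Vale.Agent.P148.R2.H678 (mB mW)
open Vale.Agent.P148.R2.H419 (Col EK Foot)
open Vale.Agent.P148.R2.H566 (W0)
open Vale.Agent.P148.R2.H609 (TP piX)
open Vale.Agent.P148.R2.H172 (Frame)

variable {M : ℕ} {w : W0} {x₀ : w.X} {Bl₁ Wh₁ Bl₂ Wh₂ : Set ℂ} {s : ℂ → Bool}

/-- The zone of two gates. -/
def Zn (M : ℕ) (X : Set ℂ) (p q : ℕ) (r : ℝ) : Set X :=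
  {v | v.1 ∈ ball (gateC M p) r ∨ v.1 ∈ ball (gateC M q) r}

/-- The strand of a frame with admissible feet. -/
theorem str_of_frame (hC : Col M w.X w.b Bl₁ Wh₁ Bl₂ Wh₂ s) (F : Frame M w x₀ (fun v => s v.1))
    (hd : ∀ k, Foot w.hull x₀ M Bl₁ Wh₁ s k (((TP w x₀).st (fun v => s v.1))^[F.t k] F.o)) :
    Str hC x₀ (fun k => ((TP w x₀).st (fun v => s v.1))^[F.t k] F.o) F.t := by
  have h0 : ((TP w x₀).st (fun v => s v.1))^[F.t 0] F.o = F.o := by rw [F.lt.zero]; rfl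
  refine ⟨hd, ?_, F.lt.inc, fun k => ?_, fun k n h1 h2 => ?_⟩
  · show (TP w x₀).Bi (fun v => s v.1) (((TP w x₀).st (fun v => s v.1))^[F.t 0] F.o)
    rw [h0]
    exact F.lt.bi
  · show ((TP w x₀).st (fun v => s v.1))^[F.t k]
      (((TP w x₀).st (fun v => s v.1))^[F.t 0] F.o) = _
    rw [h0]
  · have h3 := F.seen k n h1 h2
    show ((TP w x₀).src (((TP w x₀).st (fun v => s v.1))^[n]
        (((TP w x₀).st (fun v => s v.1))^[F.t 0] F.o))).1 ∈ reg M k ∧
      ((TP w x₀).tgt (((TP w x₀).st (fun v => s v.1))^[n]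
        (((TP w x₀).st (fun v => s v.1))^[F.t 0] F.o))).1 ∈ reg M k ∧
      ((TP w x₀).apex (((TP w x₀).st (fun v => s v.1))^[n]
        (((TP w x₀).st (fun v => s v.1))^[F.t 0] F.o))).1 ∈ reg M k
    rw [h0]
    exact h3

/-- **The mark.** -/
theorem mark_frame (hC : Col M w.X w.b Bl₁ Wh₁ Bl₂ Wh₂ s) (F : Frame M w x₀ (fun v => s v.1))
    (hd : ∀ k, Foot w.hull x₀ M Bl₁ Wh₁ s k (((TP w x₀).st (fun v => s v.1))^[F.t k] F.o))
    {g a b : ℕ} (lo : a + 5 ≤ b) (hi : b + 4 ≤ a + nc M) {τ : w.X → Bool}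
    (hτ : CalW M w.X (mB M w.X Bl₁ Wh₁ Bl₂) (mW M w.X Bl₁ Wh₁ Wh₂) s (g + a) (g + b) τ)
    {r : ℝ} (hr : 7 * ms M ≤ r) :
    H897.Mark (TP w x₀) (fun v => s v.1) (((TP w x₀).st (fun v => s v.1))^[F.t g] F.o) (nc M)
      (fun k => F.t (g + k) - F.t g) a b τ (Zn M w.X (g + a) (g + b) r) := by
  have hS := str_of_frame hC F hd
  have h0 : ((TP w x₀).st (fun v => s v.1))^[F.t 0] F.o = F.o := by rw [F.lt.zero]; rfl
  have hn := twelve_le_nc hC.hM
  have hms := ms_pos hC.hM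
  have key : ∀ m, ((TP w x₀).st (fun v => s v.1))^[m]
      (((TP w x₀).st (fun v => s v.1))^[F.t g] F.o) =
      ((TP w x₀).st (fun v => s v.1))^[m + F.t g]
        (((TP w x₀).st (fun v => s v.1))^[F.t 0] F.o) := by
    intro m
    rw [h0, iterate_add_apply]
  have hmono : ∀ {j k : ℕ}, j ≤ k → F.t j ≤ F.t k := fun h => F.lt.mono h
  have lo' : ∀ {j m : ℕ}, F.t (g + j) - F.t g ≤ m → F.t (g + j) ≤ m + F.t g := by
    intro j m h; omega
  have hi' : ∀ {j m : ℕ}, m ≤ F.t (g + j) - F.t g → m + F.t g ≤ F.t (g + j) := by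
    intro j m h
    have := hmono (show g ≤ g + j by omega)
    omega
  have hi'' : ∀ {j m : ℕ}, m < F.t (g + j) - F.t g → m + F.t g < F.t (g + j) := by
    intro j m h
    have := hmono (show g ≤ g + j by omega)
    omega
  have e1 : g + (a + nc M - 1) = g + a + (nc M - 1) := by omega
  -- the zone
  have near : ∀ {k j l m : ℕ}, F.t j ≤ m → m < F.t l → (∀ i, j ≤ i → i < l →
      reg M i ⊆ ball (gateC M k) r) →
      ((TP w x₀).src (((TP w x₀).st (fun v => s v.1))^[m]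
        (((TP w x₀).st (fun v => s v.1))^[F.t 0] F.o))).1 ∈ ball (gateC M k) r := by
    intro k j l m h1 h2 h3
    obtain ⟨i, i1, i2, i3, i4⟩ := hS.piece h1 h2
    exact h3 i i1 i2 (hS.seen i m i3 i4).1
  have hball : ∀ {i k : ℕ}, i ≤ k + 2 → k ≤ i + 2 → reg M i ⊆ ball (gateC M k) r :=
    fun {i k} h1 h2 => reg_ball hC.hM h1 h2 (by linarith)
  refine ⟨lo, hi, fun m h1 h2 => ?_, fun m h1 h2 => ?_, ?_, fun m h1 h2 => ?_, fun m h1 h2 => ?_,
    fun m h1 h2 => ?_⟩
  · have h3 := hS.far hτ (by omega) (by omega) (n := m + F.t g) (lo' h1) (by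
      have := hi' h2
      rwa [e1] at this)
    rw [key m]
    exact ⟨h3.1, h3.2.1⟩
  · have h3 := hS.arc hτ (by omega) (n := m + F.t g) (lo' h1) (by
      have := (hi'' h2).le
      rwa [show g + (b - 1) = g + b - 1 by omega] at this) (by omega)
    rw [key m]
    exact h3.1
  · have h3 := hS.link hτ (by omega) (by omega) (by omega)
    have h4 : ∀ j, ((TP w x₀).st (fun v => s v.1))^[F.t (g + j) - F.t g]
        (((TP w x₀).st (fun v => s v.1))^[F.t g] F.o) =
        ((TP w x₀).st (fun v => s v.1))^[F.t (g + j)] F.o := by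
      intro j
      rw [← iterate_add_apply, Nat.sub_add_cancel (hmono (by omega))]
    show H838.Joined (TP w x₀) τ false univ
      ((TP w x₀).tgt (((TP w x₀).st (fun v => s v.1))^[F.t (g + (a + nc M - 1)) - F.t g]
        (((TP w x₀).st (fun v => s v.1))^[F.t g] F.o)))
      ((TP w x₀).src (((TP w x₀).st (fun v => s v.1))^[F.t (g + (a + 3)) - F.t g]
        (((TP w x₀).st (fun v => s v.1))^[F.t g] F.o)))
    rw [h4, h4, e1]
    exact h3.mono (subset_univ _)
  · left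
    show _ ∈ ball _ _
    rw [key m]
    exact near (lo' h1) (hi'' h2) fun i i1 i2 => hball (by omega) (by omega)
  · right
    show _ ∈ ball _ _
    rw [key m]
    exact near (lo' h1) (hi'' h2) fun i i1 i2 => hball (by omega) (by omega)
  · left
    show _ ∈ ball _ _
    rw [key m]
    have h6 : gateC M (g + a + nc M) = gateC M (g + a) := by
      have e1 := H565.pin_add_nc M (g + a)
      have e2 := H565.pout_add_nc M (g + a)
      have e3 : ∀ j, gateC M j = (H678.pin M j + H678.pout M j) / 2 := by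
        intro j
        unfold H678.pin H678.pout
        ring
      rw [e3, e3, e1, e2]
    rw [← h6]
    exact near (lo' h1) (hi'' h2) fun i i1 i2 => hball (by omega) (by omega)

/-- **Fresh sites off the zone are not explored** by the world of the mark. -/
theorem fresh_off (hC : Col M w.X w.b Bl₁ Wh₁ Bl₂ Wh₂ s) {i₀ : ℂ}
    (hB : w.B = w.X \ H419.I0 M w.X Bl₁ Wh₁ Bl₂ Wh₂ i₀) {p q : ℕ} {r : ℝ} (hr : 7 * ms M ≤ r)
    {v : w.X} (hv : v ∉ Zn M w.X p q r) (hfr : v.1 ∉ w.B) :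
    v.1 ∉ EC M w.X p q (mB M w.X Bl₁ Wh₁ Bl₂) (mW M w.X Bl₁ Wh₁ Wh₂) := by
  intro h1
  have h2 : v.1 ∈ H419.I0 M w.X Bl₁ Wh₁ Bl₂ Wh₂ i₀ := by
    by_contra h3
    exact hfr (by rw [hB]; exact ⟨v.2, h3⟩)
  have h3 : v.1 ∉ H419.E0 M w.X Bl₁ Wh₁ Bl₂ Wh₂ := (H592.comp_subset _ _ _ h2).2
  have h4 := (Col.EC_fresh hC h1 h3).2
  exact hv (Or.inl (ball_subset_ball hr h4))

end Vale.Agent.P148.R2.H995
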