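import Vale.Agent.P148.R2.H995.Ring
import Vale.Agent.P148.R2.H678.Sep
import Vale.Agent.P148.R2.H959.Reg

/-!
# P148: the rings of the comb separate

Hubs joined by links around the collar: a set which contains the rims and is closed under the steps
of the links is met by every path from the inside to the outside.
-/

open Set Metric Complex Relation
open scoped ComplexConjugate

namespace Vale.Agent.P148.R2.H995

open H592 Vale.Agent.P148.R2.N H678
open Vale.Agent.P148.R2.H959 (reg isOpen_reg convex_reg gbox_subset_reg gbox_succ_subset_reg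
  reg_nsup cbox_subset_reg norm_off)

/-! ### geometry -/

variable {M k : ℕ}

theorem convex_Rc (x0 x1 y0 y1 : ℝ) : Convex ℝ (Rc x0 x1 y0 y1) := by
  have h1 : Rc x0 x1 y0 y1 =
      {z : ℂ | x0 ≤ z.re} ∩ {z : ℂ | z.re ≤ x1} ∩ ({z : ℂ | y0 ≤ z.im} ∩ {z : ℂ | z.im ≤ y1}) := by
    ext z
    simp only [Rc, mem_ofPred_eq, mem_inter_iff]
    tauto
  rw [h1]
  exact ((convex_halfSpace_re_ge x0).inter (convex_halfSpace_re_le x1)).inter
    ((convex_halfSpace_im_ge y0).inter (convex_halfSpace_im_le y1))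

theorem convex_Box (ι p : ℂ) (x0 x1 y0 y1 t : ℝ) : Convex ℝ (Box ι p x0 x1 y0 y1 t) := by
  intro a ha b hb s t' hs ht hst
  have h := convex_Rc (x0 - t) (x1 + t) y0 y1 ha hb hs ht hst
  have e : s • (ι * (a - p)) + t' • (ι * (b - p)) = ι * (s • a + t' • b - p) := by
    simp only [Complex.real_smul]
    have : (s : ℂ) + t' = 1 := by exact_mod_cast hst
    linear_combination (-ι * p) * this
  rw [e] at h
  exact h

theorem convex_hbox (M : ℕ) (z : ℂ) : Convex ℝ (hbox M z) := by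
  intro a ha b hb s t hs ht hst
  have h := convex_nsup_le (H678.hb M) (x := a - z) (y := b - z) ha hb hs ht hst
  have e : s • (a - z) + t • (b - z) = s • a + t • b - z := by
    simp only [Complex.real_smul]
    have : (s : ℂ) + t = 1 := by exact_mod_cast hst
    linear_combination (-z) * this
  rw [e] at h
  exact h

/-- The closed octagon between the inner and the outer ring. -/
def Oct (M : ℕ) : Set ℂ := {z | nsup z ≤ 1 + ms M / 2 ∧ |z.re| + |z.im| ≤ 2 + ms M / 2}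

theorem convex_Oct (M : ℕ) : Convex ℝ (Oct M) := by
  have h1 : Oct M = {z : ℂ | nsup z ≤ 1 + ms M / 2} ∩ {z : ℂ | |z.re| + |z.im| ≤ 2 + ms M / 2} := rfl
  rw [h1]
  refine (convex_nsup_le _).inter ?_
  intro a ha b hb s t hs ht hst
  have ha' : |a.re| + |a.im| ≤ 2 + ms M / 2 := ha
  have hb' : |b.re| + |b.im| ≤ 2 + ms M / 2 := hb
  show |(s • a + t • b).re| + |(s • a + t • b).im| ≤ 2 + ms M / 2
  have e1 : (s • a + t • b).re = s * a.re + t * b.re := by simp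
  have e2 : (s • a + t • b).im = s * a.im + t * b.im := by simp
  rw [e1, e2]
  have h2 : |s * a.re + t * b.re| ≤ s * |a.re| + t * |b.re| := by
    refine (abs_add_le _ _).trans ?_
    rw [abs_mul, abs_mul, abs_of_nonneg hs, abs_of_nonneg ht]
  have h3 : |s * a.im + t * b.im| ≤ s * |a.im| + t * |b.im| := by
    refine (abs_add_le _ _).trans ?_
    rw [abs_mul, abs_mul, abs_of_nonneg hs, abs_of_nonneg ht]
  have h4 : s * (|a.re| + |a.im|) ≤ s * (2 + ms M / 2) := mul_le_mul_of_nonneg_left ha' hs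
  have h5 : t * (|b.re| + |b.im|) ≤ t * (2 + ms M / 2) := mul_le_mul_of_nonneg_left hb' ht
  have h6 : s * (2 + ms M / 2) + t * (2 + ms M / 2) = 2 + ms M / 2 := by
    rw [← add_mul, hst, one_mul]
  linarith

theorem zero_mem_Oct (M : ℕ) : (0 : ℂ) ∈ Oct M := by
  have h0 : 0 ≤ ms M := by unfold ms; positivity
  constructor
  · simp [nsup]; linarith
  · simp; linarith

theorem oct_I_mul {z : ℂ} : Complex.I * z ∈ Oct M ↔ z ∈ Oct M := by
  unfold Oct
  simp only [mem_ofPred_eq, nsup_I_mul, Complex.I_mul_re, Complex.I_mul_im, abs_neg]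
  rw [add_comm |z.im|]

theorem oct_rot (s : ℕ) {z : ℂ} : Complex.I ^ s * z ∈ Oct M ↔ z ∈ Oct M := by
  induction s with
  | zero => simp
  | succ s ih => rw [pow_succ', mul_assoc, oct_I_mul, ih]

theorem abs_of_gbox (hM : 0 < M) {w : ℂ} (h : Complex.I ^ (k / (2 * M + 1)) * w ∈ gbox M k) :
    0 < w.re ∧ |w.im| < 1 + ms M / 8 := by
  obtain ⟨⟨a1, a2⟩, a3, a4⟩ := mem_gbox_iff.1 h
  have h0 := ms_pos hM
  have m2 := mod_mul_le hM k
  have m4 : (0 : ℝ) ≤ ((k % (2 * M + 1) : ℕ) : ℝ) * ms M := by positivity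
  refine ⟨by linarith, ?_⟩
  rw [abs_lt]
  constructor <;> linarith

theorem hbox_local (hM : 0 < M) {c : ℝ} {w : ℂ}
    (h : Complex.I ^ (k / (2 * M + 1)) * w ∈ hbox M (hp M k c)) :
    (1 + c * ms M - ms M / 32 ≤ w.re ∧ w.re ≤ 1 + c * ms M + ms M / 32) ∧
      |w.im| ≤ 1 + ms M / 32 := by
  have h1 := (hbox_rot _).1 h
  rw [mem_hbox] at h1
  simp only [lp] at h1
  obtain ⟨h1, h2⟩ := h1
  rw [abs_le] at h1 h2
  have h0 := ms_pos hM
  have m2 := mod_mul_le hM k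
  have m4 : (0 : ℝ) ≤ ((k % (2 * M + 1) : ℕ) : ℝ) * ms M := by positivity
  refine ⟨⟨by linarith, by linarith⟩, ?_⟩
  rw [abs_le]
  constructor <;> linarith

/-- The inner hub boxes are in the octagon. -/
theorem hin_oct (hM : 0 < M) (k : ℕ) : hbox M (pin M k) ⊆ Oct M := by
  intro z hz
  obtain ⟨w, rfl⟩ := exists_eq_I_pow_mul (k / (2 * M + 1)) z
  rw [pin_eq] at hz
  have h0 := ms_pos hM
  obtain ⟨⟨a1, a2⟩, a3⟩ := hbox_local hM hz
  rw [oct_rot]
  have h1 : |w.re| = w.re := abs_of_nonneg (by linarith)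
  have h2 := ms_le_one (M := M)
  constructor
  · unfold nsup
    rw [max_le_iff, h1]
    constructor <;> linarith
  · rw [h1]; linarith

theorem hin_lt (hM : 0 < M) (k : ℕ) {z : ℂ} (hz : z ∈ hbox M (pin M k)) :
    nsup z < 1 + ms M / 2 := by
  obtain ⟨w, rfl⟩ := exists_eq_I_pow_mul (k / (2 * M + 1)) z
  rw [pin_eq] at hz
  have h0 := ms_pos hM
  obtain ⟨⟨a1, a2⟩, a3⟩ := hbox_local hM hz
  rw [H959.nsup_I_pow_mul]
  unfold nsup
  rw [max_lt_iff, abs_of_nonneg (show (0 : ℝ) ≤ w.re by linarith)]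
  constructor <;> linarith

/-- The outer hub boxes are outside. -/
theorem hout_gt (hM : 0 < M) (k : ℕ) {z : ℂ} (hz : z ∈ hbox M (pout M k)) :
    1 + ms M / 2 < nsup z := by
  obtain ⟨w, rfl⟩ := exists_eq_I_pow_mul (k / (2 * M + 1)) z
  rw [pout_eq] at hz
  have h0 := ms_pos hM
  obtain ⟨⟨a1, a2⟩, a3⟩ := hbox_local hM hz
  rw [H959.nsup_I_pow_mul]
  unfold nsup
  rw [lt_max_iff, abs_of_nonneg (show (0 : ℝ) ≤ w.re by linarith)]
  left
  linarith

theorem hout_oct (hM : 0 < M) (k : ℕ) : Disjoint (hbox M (pout M k)) (Oct M) := by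
  rw [Set.disjoint_left]
  intro z hz hz'
  exact absurd hz'.1 (not_le.2 (hout_gt hM k hz))

/-- The inner rails are in the octagon. -/
theorem railin_oct (hM : 0 < M) (k : ℕ) : CBox M (pin M k) (pin M (k + 1)) ⊆ Oct M := by
  intro z hz
  obtain ⟨w, rfl⟩ := exists_eq_I_pow_mul (k / (2 * M + 1)) z
  rw [pin_eq, pin_eq] at hz
  obtain ⟨h0, h1, -, -⟩ := num hM
  have h2 := sd_pos hM
  have h3 := ms_le_one (M := M)
  have m4 : (0 : ℝ) ≤ ((k % (2 * M + 1) : ℕ) : ℝ) * ms M := by positivity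
  rw [oct_rot]
  rcases rail_local hM (by norm_num) (by norm_num) hz with ⟨hk, ⟨a1, a2⟩, a3, a4⟩ |
    ⟨hk, ⟨a1, a2⟩, ⟨a3, a4⟩, a5, a6⟩
  · have m1 : ((k % (2 * M + 1) : ℕ) : ℝ) * ms M + ms M ≤ 2 := by
      have h5 : k % (2 * M + 1) + 1 ≤ 2 * M := by
        have := Nat.mod_lt k (show 0 < 2 * M + 1 by omega)
        omega
      have h6 : ((k % (2 * M + 1) : ℕ) : ℝ) + 1 ≤ 2 * M := by exact_mod_cast h5
      have h7 := M_mul_ms hM
      nlinarith
    have e1 : |w.re| = w.re := abs_of_nonneg (by linarith)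
    have e2 : |w.im| ≤ 1 := by rw [abs_le]; constructor <;> linarith
    constructor
    · unfold nsup
      rw [max_le_iff, e1]
      constructor <;> linarith
    · rw [e1]; linarith
  · have e1 : |w.re| = w.re := abs_of_nonneg (by linarith)
    have e2 : |w.im| = w.im := abs_of_nonneg (by linarith)
    constructor
    · unfold nsup
      rw [max_le_iff, e1, e2]
      constructor <;> linarith
    · rw [e1, e2]; linarith

theorem railin_lt (hM : 0 < M) (k : ℕ) {z : ℂ} (hz : z ∈ CBox M (pin M k) (pin M (k + 1))) :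
    nsup z < 1 + ms M / 2 := by
  obtain ⟨w, rfl⟩ := exists_eq_I_pow_mul (k / (2 * M + 1)) z
  rw [pin_eq, pin_eq] at hz
  obtain ⟨h0, h1, -, -⟩ := num hM
  have h2 := sd_pos hM
  have m2 := mod_mul_le hM k
  have m4 : (0 : ℝ) ≤ ((k % (2 * M + 1) : ℕ) : ℝ) * ms M := by positivity
  rw [H959.nsup_I_pow_mul]
  unfold nsup
  rw [max_lt_iff]
  rcases rail_local hM (by norm_num) (by norm_num) hz with ⟨hk, ⟨a1, a2⟩, a3, a4⟩ |
    ⟨hk, ⟨a1, a2⟩, ⟨a3, a4⟩, a5, a6⟩
  · have m1 : ((k % (2 * M + 1) : ℕ) : ℝ) * ms M + ms M ≤ 2 := by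
      have h5 : k % (2 * M + 1) + 1 ≤ 2 * M := by
        have := Nat.mod_lt k (show 0 < 2 * M + 1 by omega)
        omega
      have h6 : ((k % (2 * M + 1) : ℕ) : ℝ) + 1 ≤ 2 * M := by exact_mod_cast h5
      have h7 := M_mul_ms hM
      nlinarith
    have e2 : |w.im| ≤ 1 := by rw [abs_le]; constructor <;> linarith
    rw [abs_of_nonneg (show (0 : ℝ) ≤ w.re by linarith)]
    constructor <;> linarith
  · rw [abs_of_nonneg (show (0 : ℝ) ≤ w.re by linarith),
      abs_of_nonneg (show (0 : ℝ) ≤ w.im by linarith)]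
    constructor <;> linarith

/-- The outer rails are outside the octagon. -/
theorem railout_oct (hM : 0 < M) (k : ℕ) :
    Disjoint (CBox M (pout M k) (pout M (k + 1))) (Oct M) := by
  rw [Set.disjoint_left]
  intro z hz hz'
  obtain ⟨w, rfl⟩ := exists_eq_I_pow_mul (k / (2 * M + 1)) z
  rw [pout_eq, pout_eq] at hz
  rw [oct_rot] at hz'
  obtain ⟨b1, b2⟩ := hz'
  obtain ⟨h0, h1, -, -⟩ := num hM
  have h2 := sd_pos hM
  have h3 := (max_le_iff.1 b1).1
  have h4 := le_abs_self w.re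
  have h5 := le_abs_self w.im
  rcases rail_local hM (by norm_num) (by norm_num) hz with ⟨hk, ⟨a1, a2⟩, a3, a4⟩ |
    ⟨hk, ⟨a1, a2⟩, ⟨a3, a4⟩, a5, a6⟩
  · linarith
  · linarith

theorem railin_reg (hM : 0 < M) (k : ℕ) : CBox M (pin M k) (pin M (k + 1)) ⊆ reg M k := by
  refine cbox_subset_reg hM (H959.pin_eq M k) (H959.pin_eq M (k + 1)) ?_ ?_ ?_
  · rw [norm_neg, norm_off hM]
  · rw [norm_neg, norm_off hM]
  · have h1 := (norm_railin hM k).1
    obtain ⟨h0, h2, -, -⟩ := num hM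
    linarith

theorem railout_reg (hM : 0 < M) (k : ℕ) : CBox M (pout M k) (pout M (k + 1)) ⊆ reg M k := by
  refine cbox_subset_reg hM (H959.pout_eq M k) (H959.pout_eq M (k + 1)) ?_ ?_ ?_
  · rw [norm_off hM]
  · rw [norm_off hM]
  · have h1 := (norm_railout hM k).1
    obtain ⟨h0, h2, -, -⟩ := num hM
    linarith


/-! ### the ring -/

theorem chain_of_rtg {rel : ℂ → ℂ → Prop} {W A : Set ℂ} {rel' : ℂ → ℂ → Prop} {a b : ℂ}
    (h : ReflTransGen (fun a b => rel' a b ∧ a ∈ A ∧ b ∈ A) a b) (ha : a ∈ A) (hA : A ⊆ W)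
    (hr : ∀ x ∈ A, ∀ y ∈ A, rel' x y → rel x y) : Chain rel W a b := by
  induction h with
  | refl => exact Chain.refl (hA ha)
  | tail _ hbc ih => exact ih.snoc (hA hbc.2.2) (hr _ hbc.2.1 _ hbc.2.2 hbc.1)

/-- **The ring of hubs**: hubs around the gates joined by links. A set `G` which contains the rims
and is closed under the steps of the links is met by every path from a convex set `S ∋ 0` off the
boxes to the outside of a convex open set `U` which contains the boxes. -/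
theorem hubs_ring {X : Set ℂ} (hX : Three X) (hXf : X.Finite) (hM : 0 < M) {c : ℕ → ℂ} {ρ : ℝ}
    {C E P : Set ℂ} (hc : ∀ k, c (k % nc M) = c k) {B Hb : ℕ → Set ℂ}
    (hBc : ∀ k, Convex ℝ (B k)) (hHc : ∀ k, Convex ℝ (Hb k)) (hBr : ∀ k, B k ⊆ reg M k)
    (hHg : ∀ k, Hb k ⊆ gbox M k) (hh : ∀ k, hub (nbr X) (X ∩ ball (c k) ρ) C ⊆ Hb k)
    (hL : ∀ k, Link X E P (rim (nbr X) (X ∩ ball (c k) ρ) C)
      (rim (nbr X) (X ∩ ball (c (k + 1)) ρ) C) (B k))
    {S U : Set ℂ} (hS : Convex ℝ S) (hS0 : (0 : ℂ) ∈ S) (hSB : ∀ k, Disjoint (B k) S)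
    (hSH : ∀ k, Disjoint (Hb k) S) (hU : Convex ℝ U) (hUo : IsOpen U) (hUB : ∀ k, B k ⊆ U)
    (hUH : ∀ k, Hb k ⊆ U) {G : Set ℂ} (hG : ∀ k, rim (nbr X) (X ∩ ball (c k) ρ) C ⊆ G)
    (hG' : ∀ k, ∀ a ∈ G, ∀ b ∈ B k, nbr X a b → b ∈ P → b ∉ E → b ∈ G)
    {m : ℕ} {u : ℕ → ℂ} (hu : ∀ i < m, nbr X (u i) (u (i + 1))) (hu0 : u 0 ∈ S)
    (hu1 : u m ∉ U) : ∃ i ≤ m, u i ∈ G := by
  classical
  set co : ℕ → Set ℂ := fun k => core (nbr X) (X ∩ ball (c k) ρ) C with hco
  set ri : ℕ → Set ℂ := fun k => rim (nbr X) (X ∩ ball (c k) ρ) C with hri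
  set W : Set ℂ := G ∪ ⋃ k, co k with hW
  have hri_mod : ∀ k, ri (k % nc M) = ri k := by intro k; simp only [hri, hc]
  -- the relation along the pieces
  set rel : ℕ → ℂ → ℂ → Prop := fun k a b => nbr X a b ∧
    ((a ∈ B k ∧ b ∈ B k) ∨ (a ∈ Hb (k + 1) ∧ b ∈ Hb (k + 1))) with hrel
  have hriH : ∀ k, ri k ⊆ Hb k := fun k v hv => hh k hv.1
  have hcoH : ∀ k, co k ⊆ Hb k := fun k v hv => hh k (core_sub_hub hv)
  -- links
  have h1 : ∀ k, ∃ a ∈ ri k, ∃ b ∈ ri (k + 1),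
      Chain (rel k) (W ∩ (B k ∪ Hb (k + 1))) a b := by
    intro k
    obtain ⟨n, v, h0, h1, h2, h3, h4, h5⟩ := hL k
    have hvG : ∀ i ≤ n, v i ∈ G := by
      intro i
      induction i with
      | zero => exact fun _ => hG k h2
      | succ i ih =>
        intro hi
        rcases hi.lt_or_eq with h' | h'
        · exact hG' k _ (ih (by omega)) _ (h5 _ hi) (h1 i (by omega)) (h4 (i + 1) (by omega) h').1
            (h4 (i + 1) (by omega) h').2
        · rw [h']; exact hG (k + 1) h3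
    exact ⟨v 0, h2, v n, h3, n, v,
      fun i hi => ⟨h1 i hi, Or.inl ⟨h5 i hi.le, h5 (i + 1) hi⟩⟩,
      fun i hi => ⟨Or.inl (hvG i hi), Or.inl (h5 i hi)⟩, rfl, rfl⟩
  -- passages through the hubs
  have h2 : ∀ k, ∀ a ∈ ri (k + 1), ∀ b ∈ ri (k + 1),
      Chain (rel k) (W ∩ (B k ∪ Hb (k + 1))) a b := by
    intro k a ha b hb
    obtain ⟨a', ha', haa'⟩ := rim_nbr ha
    obtain ⟨b', hb', hbb'⟩ := rim_nbr hb
    have h3 := (connIn_core (C := C) hXf (c (k + 1)) ρ).2 a' ha' b' hb'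
    have cW : co (k + 1) ⊆ W ∩ (B k ∪ Hb (k + 1)) := fun x hx =>
      ⟨Or.inr (mem_iUnion.2 ⟨k + 1, hx⟩), Or.inr (hcoH _ hx)⟩
    have h4 : Chain (rel k) (W ∩ (B k ∪ Hb (k + 1))) a' b' :=
      chain_of_rtg h3 ha' cW fun x hx y hy hxy => ⟨hxy, Or.inr ⟨hcoH _ hx, hcoH _ hy⟩⟩
    have h5 : Chain (rel k) (W ∩ (B k ∪ Hb (k + 1))) a a' :=
      (Chain.refl (W := W ∩ (B k ∪ Hb (k + 1))) (u := a)
        ⟨Or.inl (hG _ ha), Or.inr (hriH _ ha)⟩).snoc (cW ha')
        ⟨nbr_symm haa', Or.inr ⟨hriH _ ha, hcoH _ ha'⟩⟩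
    exact (h5.trans h4).snoc ⟨Or.inl (hG _ hb), Or.inr (hriH _ hb)⟩
      ⟨hbb', Or.inr ⟨hcoH _ hb', hriH _ hb⟩⟩
  -- the closed chain
  choose s hs e he hse using h1
  set w : ℕ → ℂ := fun k => s (k % nc M) with hw
  have hwr : ∀ k, w k ∈ ri k := fun k => by
    have := hs (k % nc M)
    rw [hri_mod] at this
    exact this
  have h3 : ∀ k, ∃ (n : ℕ) (v : ℕ → ℂ), k < nc M → (∀ i < n, rel k (v i) (v (i + 1))) ∧
      (∀ i ≤ n, v i ∈ W ∩ (B k ∪ Hb (k + 1))) ∧ v 0 = w k ∧ v n = w (k + 1) := by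
    intro k
    by_cases hk : k < nc M
    · have e1 : w k = s k := by simp only [hw, Nat.mod_eq_of_lt hk]
      obtain ⟨n, v, a1, a2, a3, a4⟩ := (hse k).trans (h2 k _ (he k) _ (hwr (k + 1)))
      exact ⟨n, v, fun _ => ⟨a1, a2, by rw [e1]; exact a3, a4⟩⟩
    · exact ⟨0, fun _ => 0, fun h => absurd h hk⟩
  choose n v hv using h3
  have hP : Pieces (nc M) n v w := ⟨fun k hk => (hv k hk).2.2.1, fun k hk => (hv k hk).2.2.2, by
    simp only [hw, Nat.mod_self, Nat.zero_mod]⟩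
  have hBH : ∀ k, B k ∪ Hb (k + 1) ⊆ reg M k := fun k => union_subset (hBr k)
    ((hHg (k + 1)).trans (gbox_succ_subset_reg hM k))
  have hms := ms_le_one (M := M)
  have hms0 := ms_pos hM
  obtain ⟨i, hi, hiW⟩ := ring_block' hX (nc_pos M) hP (B := W) (C := reg M)
    (fun k hk i hi => ((hv k hk).1 i hi).1) (fun k hk i hi => ((hv k hk).2.1 i hi).1)
    (fun k _ => convex_reg M k) (fun k _ => isOpen_reg M k)
    (fun k hk i hi => hBH k ((hv k hk).2.1 i hi).2)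
    (fun k _ h => by
      have := (reg_nsup hM h).1
      simp [nsup] at this
      linarith)
    hS hS0 (fun k hk i hi => by
      rcases ((hv k hk).1 i hi).2 with h | h
      · exact ⟨B k, hBc k, h.1, h.2, hSB k⟩
      · exact ⟨Hb (k + 1), hHc (k + 1), h.1, h.2, hSH (k + 1)⟩)
    hU hUo (fun k hk i hi => by
      rcases ((hv k hk).2.1 i hi).2 with h | h
      · exact hUB k h
      · exact hUH (k + 1) h)
    (fun k hk => gbox_pos hM (hHg k (hriH k (hwr k))) (hHg (k + 1) (hriH (k + 1) (hwr (k + 1)))))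
    hu hu0 hu1
  rcases hiW with h | h
  · exact ⟨i, hi, h⟩
  · obtain ⟨k, hk⟩ := mem_iUnion.1 h
    have h4 : u 0 ∉ hub (nbr X) (X ∩ ball (c k) ρ) C := fun hc =>
      Set.disjoint_left.1 (hSH k) (hh k hc) hu0
    obtain ⟨b, -, hb, hbr, -⟩ := enter_path (fun _ _ => nbr_symm)
      (fun j (hj : j < i) => hu j (by omega)) h4 (core_sub_hub hk)
    exact ⟨b, hb.trans hi, hG k hbr⟩

/-! ### the two rings of the comb -/

section Comb

variable {X Bl₁ Wh₁ Bl₂ Wh₂ : Set ℂ}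

/-- **The black ring**: a set which contains the inner rims and is closed under the steps to black
vertices off the explored hubs in the inner rail corridors is met by every path from
`{nsup ≤ 1 - a/8}` to `{1 + a/2 ≤ nsup}` (for instance to an outer hub, `hout_gt`). -/
theorem black_ring (hX : Three X) (hXf : X.Finite) (hM : 0 < M) (h : HubsGood M X Bl₁ Wh₁)
    (hB : Bl₂ ⊆ X) (hR : ∀ k, Rails M X Bl₂ Wh₂ k) {G : Set ℂ}
    (hG : ∀ k, inRim M X Wh₁ k ⊆ G)
    (hG' : ∀ k, ∀ a ∈ G, ∀ b ∈ CBox M (pin M k) (pin M (k + 1)), nbr X a b → b ∈ Bl₂ →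
      b ∉ Ex M X Bl₁ Wh₁ → b ∈ G)
    {m : ℕ} {u : ℕ → ℂ} (hu : ∀ i < m, nbr X (u i) (u (i + 1)))
    (hu0 : nsup (u 0) ≤ 1 - ms M / 8) (hu1 : 1 + ms M / 2 ≤ nsup (u m)) : ∃ i ≤ m, u i ∈ G := by
  have h0 := ms_pos hM
  have h1 := ms_le_one (M := M)
  have dj : ∀ {A : Set ℂ}, (∀ z ∈ A, 1 - ms M / 8 < nsup z) →
      Disjoint A {z : ℂ | nsup z ≤ 1 - ms M / 8} := by
    intro A hA
    rw [Set.disjoint_left]
    intro z hz hz'
    exact absurd (hA z hz) (not_lt.2 hz')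
  refine hubs_ring hX hXf hM (c := pin M) (ρ := sd M) (C := Wh₁) (pin_mod M)
    (B := fun k => CBox M (pin M k) (pin M (k + 1))) (Hb := fun k => hbox M (pin M k))
    (fun _ => convex_Box _ _ _ _ _ _ _) (fun _ => convex_hbox M _) (railin_reg hM)
    (hbox_pin_sub hM) (fun k => h.inSub k) (fun k => h.low_link hM hB (hR k))
    (S := {z : ℂ | nsup z ≤ 1 - ms M / 8}) (U := {z : ℂ | nsup z < 1 + ms M / 2})
    (convex_nsup_le _) ?_ (fun k => dj fun z hz => (reg_nsup hM (railin_reg hM k hz)).1)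
    (fun k => dj fun z hz => (reg_nsup hM (gbox_subset_reg M k (hbox_pin_sub hM k hz))).1)
    (convex_nsup_lt _) (isOpen_nsup_lt _) (fun k _ hz => railin_lt hM k hz)
    (fun k _ hz => hin_lt hM k hz) hG hG' hu hu0 (not_lt.2 hu1)
  show nsup 0 ≤ 1 - ms M / 8
  simp [nsup]
  linarith

/-- **The white ring**: a set which contains the outer rims and is closed under the steps to white
vertices off the explored hubs in the outer rail corridors is met by every path from the octagon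
(which contains the inner hubs and the inner rails) to `{1 + 5a/8 ≤ nsup}`. -/
theorem white_ring (hX : Three X) (hXf : X.Finite) (hM : 0 < M) (h : HubsGood M X Bl₁ Wh₁)
    (hW : Wh₂ ⊆ X) (hR : ∀ k, Rails M X Bl₂ Wh₂ k) {G : Set ℂ}
    (hG : ∀ k, outRim M X Bl₁ k ⊆ G)
    (hG' : ∀ k, ∀ a ∈ G, ∀ b ∈ CBox M (pout M k) (pout M (k + 1)), nbr X a b → b ∈ Wh₂ →
      b ∉ Ex M X Bl₁ Wh₁ → b ∈ G)
    {m : ℕ} {u : ℕ → ℂ} (hu : ∀ i < m, nbr X (u i) (u (i + 1)))
    (hu0 : u 0 ∈ Oct M) (hu1 : 1 + 5 * ms M / 8 ≤ nsup (u m)) : ∃ i ≤ m, u i ∈ G :=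
  hubs_ring hX hXf hM (c := pout M) (ρ := sd M) (C := Bl₁) (pout_mod M)
    (B := fun k => CBox M (pout M k) (pout M (k + 1))) (Hb := fun k => hbox M (pout M k))
    (fun _ => convex_Box _ _ _ _ _ _ _) (fun _ => convex_hbox M _) (railout_reg hM)
    (hbox_pout_sub hM) (fun k => h.outSub k) (fun k => h.up_link hM hW (hR k))
    (S := Oct M) (U := {z : ℂ | nsup z < 1 + 5 * ms M / 8})
    (convex_Oct M) (zero_mem_Oct M) (railout_oct hM) (hout_oct hM)
    (convex_nsup_lt _) (isOpen_nsup_lt _) (fun k z hz => (reg_nsup hM (railout_reg hM k hz)).2)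
    (fun k z hz => (reg_nsup hM (gbox_subset_reg M k (hbox_pout_sub hM k hz))).2)
    hG hG' hu hu0 (not_lt.2 hu1)

end Comb

end Vale.Agent.P148.R2.H995
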