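import Vale.Agent.P148.R2.H995.Jreg
import Vale.Agent.P148.R2.H320.Door

/-!
# P148: the radial corridor of the door
-/

open Set Metric Complex

namespace Vale.Agent.P148.R2.H995

open Vale.Agent.P148.R2.N H678
open Vale.Agent.P148.R2.H320 (Cor tn yc)

variable {M k s : ℕ}

/-- Coordinates in the door corridor. -/
theorem cor_coord (hM : 0 < M) (hs : s % (2 * M + 1) < 2 * M) {x0 : ℝ} {z : ℂ}
    (hz : z ∈ Cor (tn M s) x0 (yc M s) (ms M / 8)) :
    ∃ w : ℂ, z = I ^ (s / (2 * M + 1)) * w ∧ x0 - 1 / 20 ≤ w.re ∧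
      (-1 + (s % (2 * M + 1) : ℕ) * ms M + 3 * ms M / 8 ≤ w.im ∧
        w.im ≤ -1 + (s % (2 * M + 1) : ℕ) * ms M + 5 * ms M / 8) ∧ -1 < w.im ∧ w.im < 1 := by
  refine ⟨tn M s * z, (I_pow_mul_self_pow _ _).symm, ?_⟩
  have h0 := ms_pos hM
  have h4 := straight_le hM hs
  have h5 : (0 : ℝ) ≤ ((s % (2 * M + 1) : ℕ) : ℝ) * ms M := by positivity
  have h1 : x0 - 1 / 20 ≤ (tn M s * (z - 0)).re ∧ (tn M s * (z - 0)).re ≤ 27 / 20 + 1 / 20 ∧
      yc M s - ms M / 8 ≤ (tn M s * (z - 0)).im ∧ (tn M s * (z - 0)).im ≤ yc M s + ms M / 8 := hz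
  rw [sub_zero] at h1
  unfold yc at h1
  obtain ⟨a1, -, a3, a4⟩ := h1
  exact ⟨a1, ⟨by linarith, by linarith⟩, by linarith, by linarith⟩

/-- The corridor of the door is in the cell where it is in the ring. -/
theorem cor_cell (hM : 0 < M) (hs : s % (2 * M + 1) < 2 * M) {x0 : ℝ} (hx : 0 < x0 - 1 / 20) {z : ℂ}
    (hz : z ∈ Cor (tn M s) x0 (yc M s) (ms M / 8)) (h1 : 1 < nsup z) (h2 : nsup z < 1 + ms M) :
    z ∈ cell M s := by
  obtain ⟨w, rfl, a1, ⟨a2, a3⟩, a4, a5⟩ := cor_coord hM hs hz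
  have h0 := ms_pos hM
  rw [H959.nsup_I_pow_mul] at h1 h2
  have e1 : |w.re| = w.re := abs_of_nonneg (by linarith)
  have e2 : |w.im| < 1 := abs_lt.2 ⟨a4, a5⟩
  have h3 : 1 < w.re := by
    rcases lt_max_iff.1 h1 with h | h
    · rwa [e1] at h
    · linarith
  have h4 := (max_lt_iff.1 h2).1
  rw [e1] at h4
  rw [mem_cell_iff]
  exact ⟨⟨h3, h4⟩, by linarith, by linarith⟩

/-- The corridor of the door is off the gate boxes. -/
theorem cor_gbox (hM : 0 < M) (hs : s < nc M) (hs' : s % (2 * M + 1) < 2 * M) {x0 : ℝ}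
    (hx : 0 < x0 - 1 / 20) (k : ℕ) :
    Disjoint (Cor (tn M s) x0 (yc M s) (ms M / 8)) (gbox M k) := by
  rw [Set.disjoint_left]
  intro z hz hz'
  rw [← gbox_mod] at hz'
  have hk : k % nc M < nc M := Nat.mod_lt _ (by unfold nc; omega)
  generalize k % nc M = k at hz' hk
  have h0 := ms_pos hM
  obtain ⟨w, hw, a1, ⟨a2, a3⟩, a4, a5⟩ := cor_coord hM hs' hz
  obtain ⟨w', hw'⟩ := exists_eq_I_pow_mul (k / (2 * M + 1)) z
  obtain ⟨⟨b1, b2⟩, b3, b4⟩ := mem_gbox_iff.1 (hw' ▸ hz')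
  rcases two_frames (side_lt hs) (side_lt hk) (hw.symm.trans hw') with ⟨hs1, e⟩ | e | e | e
  · subst e
    have h1 : ((s % (2 * M + 1) : ℕ) : ℝ) * ms M < ((k % (2 * M + 1) : ℕ) : ℝ) * ms M := by linarith
    have h2 : ((k % (2 * M + 1) : ℕ) : ℝ) * ms M < ((s % (2 * M + 1) : ℕ) : ℝ) * ms M + ms M := by
      linarith
    have h3 : s % (2 * M + 1) < k % (2 * M + 1) := by
      exact_mod_cast lt_of_mul_lt_mul_right h1 h0.le
    have h4 : k % (2 * M + 1) < s % (2 * M + 1) + 1 := by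
      have : ((k % (2 * M + 1) : ℕ) : ℝ) < ((s % (2 * M + 1) : ℕ) : ℝ) + 1 := by
        by_contra hc
        rw [not_lt] at hc
        have := mul_le_mul_of_nonneg_right hc h0.le
        linarith
      exact_mod_cast this
    omega
  · rw [e] at a1 a4 a5
    simp only [I_mul_re, I_mul_im] at a1 a4 a5
    linarith
  · rw [e] at a1 a4 a5
    simp only [neg_re, neg_im] at a1 a4 a5
    linarith
  · rw [e] at a1 a4 a5
    simp only [neg_mul, neg_re, neg_im, I_mul_re, I_mul_im, neg_neg] at a1 a4 a5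
    linarith

/-- The corridor of the door is off the radial corridors of the gates. -/
theorem cor_rad (hM : 0 < M) (hs : s < nc M) (hs' : s % (2 * M + 1) < 2 * M) {x0 : ℝ}
    (hx : 0 < x0 - 1 / 20) (k : ℕ) :
    Disjoint (Cor (tn M s) x0 (yc M s) (ms M / 8)) (CBox M (pout M k) (prad M k)) := by
  rw [Set.disjoint_left]
  intro z hz hz'
  rw [← pout_mod, ← prad_mod] at hz'
  have hk : k % nc M < nc M := Nat.mod_lt _ (by unfold nc; omega)
  generalize k % nc M = k at hz' hk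
  obtain ⟨h0, h3, -, -⟩ := num hM
  have h4 := sd_pos hM
  obtain ⟨w, hw, a1, ⟨a2, a3⟩, a4, a5⟩ := cor_coord hM hs' hz
  obtain ⟨w', hw'⟩ := exists_eq_I_pow_mul (k / (2 * M + 1)) z
  have hz1 := hw' ▸ hz'
  obtain ⟨c1, c2, c3⟩ := rad_crude hM hz1
  rcases two_frames (side_lt hs) (side_lt hk) (hw.symm.trans hw') with ⟨hs1, e⟩ | e | e | e
  · subst e
    obtain ⟨-, b3, b4⟩ := rad_local hM hz1
    have h1 : ((s % (2 * M + 1) : ℕ) : ℝ) * ms M < ((k % (2 * M + 1) : ℕ) : ℝ) * ms M := by linarith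
    have h2 : ((k % (2 * M + 1) : ℕ) : ℝ) * ms M < ((s % (2 * M + 1) : ℕ) : ℝ) * ms M + ms M := by
      linarith
    have h3 : s % (2 * M + 1) < k % (2 * M + 1) := by
      exact_mod_cast lt_of_mul_lt_mul_right h1 h0.le
    have h4 : k % (2 * M + 1) < s % (2 * M + 1) + 1 := by
      have : ((k % (2 * M + 1) : ℕ) : ℝ) < ((s % (2 * M + 1) : ℕ) : ℝ) + 1 := by
        by_contra hc
        rw [not_lt] at hc
        have := mul_le_mul_of_nonneg_right hc h0.le
        linarith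
      exact_mod_cast this
    omega
  · rw [e] at a1 a4 a5
    simp only [I_mul_re, I_mul_im] at a1 a4 a5
    linarith
  · rw [e] at a1 a4 a5
    simp only [neg_re, neg_im] at a1 a4 a5
    linarith
  · rw [e] at a1 a4 a5
    simp only [neg_mul, neg_re, neg_im, I_mul_re, I_mul_im, neg_neg] at a1 a4 a5
    linarith

/-- The corridor of the door is off the rails of the other gates. -/
theorem cor_rail (hM : 0 < M) (hs : s < nc M) (hk : k < nc M) (hs' : s % (2 * M + 1) < 2 * M)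
    {x0 : ℝ} (hx : 0 < x0 - 1 / 20) (h : k ≠ s) :
    Disjoint (Cor (tn M s) x0 (yc M s) (ms M / 8))
      (CBox M (pin M k) (pin M (k + 1)) ∪ CBox M (pout M k) (pout M (k + 1))) := by
  rw [Set.disjoint_left]
  intro z hz hz'
  have hzk : z ∈ cell M k := by
    rcases hz' with h | h
    · exact rail_in_sub hM k h
    · exact rail_out_sub hM k h
  obtain ⟨w, hw⟩ := exists_eq_I_pow_mul (k / (2 * M + 1)) z
  by_cases hk' : k % (2 * M + 1) < 2 * M
  · obtain ⟨⟨b1, b2⟩, b3, b4⟩ := straight_cell hM hk' (hw ▸ hzk)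
    have h1 : 1 < nsup z := by
      rw [hw, H959.nsup_I_pow_mul]
      exact lt_max_iff.2 (Or.inl (lt_of_lt_of_le b1 (le_abs_self _)))
    have h2 : nsup z < 1 + ms M := by
      have h0 := ms_pos hM
      rw [hw, H959.nsup_I_pow_mul]
      refine max_lt ?_ ?_
      · rw [abs_of_nonneg (by linarith)]; exact b2
      · have := abs_lt.2 ⟨b3, b4⟩
        linarith
    exact Set.disjoint_left.1 (disjoint_cell hM hs hk (Ne.symm h))
      (cor_cell hM hs' hx hz h1 h2) hzk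
  · -- a corner cell is off the strip `|im| < 1`
    have hkc : k % (2 * M + 1) = 2 * M := by
      have := mod_le M k
      omega
    have h0 := ms_pos hM
    obtain ⟨⟨b1, b2⟩, b3, b4⟩ := mem_cell_iff.1 (hw ▸ hzk)
    rw [two_M_ms hM hkc] at b3 b4
    obtain ⟨w', hw', a1, -, a4, a5⟩ := cor_coord hM hs' hz
    rcases two_frames (side_lt hk) (side_lt hs) (hw.symm.trans hw') with ⟨hs1, e⟩ | e | e | e
    · subst e; linarith
    · rw [e] at b1 b3
      simp only [I_mul_re, I_mul_im] at b1 b3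
      linarith
    · rw [e] at b1 b3
      simp only [neg_re, neg_im] at b1 b3
      linarith
    · rw [e] at b1 b3
      simp only [neg_mul, neg_re, neg_im, I_mul_re, I_mul_im, neg_neg] at b1 b3
      linarith

end Vale.Agent.P148.R2.H995
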