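import Vale.Agent.P148.R2.H959.Reg

/-!
# P148: blocks of gates

`ga N M j = j (2 M + 1) / (N + 1)` : the first gate of the `j`-th arc, `4 (N + 1)` arcs. The regions
of one arc and of two consecutive arcs are within distance `17 / (N + 1)`.
-/

open Set Metric Complex

namespace Vale.Agent.P148.R2.H995

open Vale.Agent.P148.R2.N
open Vale.Agent.P148.R2.H959 (reg reg_subset_window reg_subset_csq nsup_cellC_add reg_add_nc)

/-- The first gate of the arc `j`. -/
def ga (N M j : ℕ) : ℕ := j * (2 * M + 1) / (N + 1)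

variable {N M j k l : ℕ}

theorem ga_zero : ga N M 0 = 0 := by simp [ga]

theorem ga_side : ga N M (j * (N + 1)) = j * (2 * M + 1) := by
  unfold ga
  rw [show j * (N + 1) * (2 * M + 1) = j * (2 * M + 1) * (N + 1) by ring]
  exact Nat.mul_div_cancel _ (Nat.succ_pos N)

theorem ga_top : ga N M (4 * (N + 1)) = nc M := ga_side

theorem ga_add_side (j i : ℕ) : ga N M (j + i * (N + 1)) = ga N M j + i * (2 * M + 1) := by
  unfold ga
  rw [show (j + i * (N + 1)) * (2 * M + 1) = j * (2 * M + 1) + i * (2 * M + 1) * (N + 1) by ring]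
  exact Nat.add_mul_div_right _ _ (Nat.succ_pos N)

/-- Periodicity. -/
theorem ga_add (j : ℕ) : ga N M (j + 4 * (N + 1)) = ga N M j + nc M := ga_add_side j 4

theorem ga_mono : Monotone (ga N M) := fun _ _ h =>
  Nat.div_le_div_right (Nat.mul_le_mul_right _ h)

theorem ga_add_le (j i : ℕ) : ga N M (j + i) ≤ ga N M j + (i * (2 * M + 1) / (N + 1) + 1) := by
  unfold ga
  rw [add_mul]
  have h1 : (j * (2 * M + 1) + i * (2 * M + 1)) / (N + 1) ≤
      j * (2 * M + 1) / (N + 1) + i * (2 * M + 1) / (N + 1) + 1 := by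
    rw [Nat.add_div (show 0 < N + 1 by omega)]
    split_ifs
    · exact le_rfl
    · exact Nat.le_succ _
  omega

theorem ga_succ_le : ga N M (j + 1) ≤ ga N M j + ((2 * M + 1) / (N + 1) + 1) := by
  simpa using ga_add_le (N := N) (M := M) j 1

theorem le_ga_add (j i : ℕ) : ga N M j + i * (2 * M + 1) / (N + 1) ≤ ga N M (j + i) := by
  unfold ga
  rw [add_mul]
  exact Nat.div_add_div_le_add_div

/-- An arc has at least `p` gates. -/
theorem ga_succ_ge {p : ℕ} (h : p * (N + 1) ≤ 2 * M + 1) : ga N M j + p ≤ ga N M (j + 1) := by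
  have h1 := le_ga_add (N := N) (M := M) j 1
  have h2 : p ≤ 1 * (2 * M + 1) / (N + 1) := by
    rw [one_mul]
    exact (Nat.le_div_iff_mul_le (Nat.succ_pos N)).2 h
  omega

theorem ga_lt_succ (h : N + 1 ≤ 2 * M + 1) : ga N M j < ga N M (j + 1) := by
  have := ga_succ_ge (N := N) (M := M) (j := j) (p := 1) (by omega)
  omega

/-- The arcs start at the starts of the sides: a cell `ga j + i` inside the arc is straight. -/
theorem ga_straight {i : ℕ} (hi : ga N M j + i + 1 < ga N M (j + 1)) :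
    (ga N M j + i) % (2 * M + 1) < 2 * M := by
  -- the side of the arc
  set q := j / (N + 1) with hq
  have hj : j = j % (N + 1) + q * (N + 1) := by rw [hq, mul_comm]; exact (Nat.mod_add_div _ _).symm
  have hr : j % (N + 1) < N + 1 := Nat.mod_lt _ (Nat.succ_pos N)
  set r := j % (N + 1) with hrd
  have e1 : ga N M j = ga N M r + q * (2 * M + 1) := by rw [hj]; exact ga_add_side r q
  have e2 : ga N M (j + 1) = ga N M (r + 1) + q * (2 * M + 1) := by
    rw [hj, show r + q * (N + 1) + 1 = (r + 1) + q * (N + 1) by ring]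
    exact ga_add_side (r + 1) q
  have e3 : ga N M (r + 1) ≤ 2 * M + 1 := by
    have h1 : ga N M (r + 1) ≤ ga N M (1 * (N + 1)) := ga_mono (by omega)
    rw [ga_side, one_mul] at h1
    exact h1
  rw [e1, e2] at hi
  rw [e1, show ga N M r + q * (2 * M + 1) + i = (ga N M r + i) + q * (2 * M + 1) by ring,
    Nat.add_mul_mod_self_right, Nat.mod_eq_of_lt (by omega)]
  omega

/-! ### distances -/

theorem dist_le_of_csq {z w c : ℂ} {r : ℝ} (hz : z ∈ csq c r) (hw : w ∈ csq c r) :
    dist z w ≤ 4 * r := by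
  obtain ⟨a1, a2⟩ := hz
  obtain ⟨b1, b2⟩ := hw
  rw [Complex.dist_eq]
  refine (Complex.norm_le_abs_re_add_abs_im _).trans ?_
  rw [sub_re, sub_im]
  have h1 : |z.re - w.re| ≤ |z.re - c.re| + |w.re - c.re| := by
    have := abs_sub_le z.re c.re w.re
    rwa [abs_sub_comm c.re w.re] at this
  have h2 : |z.im - w.im| ≤ |z.im - c.im| + |w.im - c.im| := by
    have := abs_sub_le z.im c.im w.im
    rwa [abs_sub_comm c.im w.im] at this
  linarith

theorem dist_le_of_csq' {z w c c' : ℂ} {r δ : ℝ} (hz : z ∈ csq c r) (hw : w ∈ csq c' r)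
    (h : nsup (c' - c) ≤ δ) : dist z w ≤ 4 * r + 2 * δ := by
  obtain ⟨a1, a2⟩ := hz
  obtain ⟨b1, b2⟩ := hw
  obtain ⟨h1, h2⟩ := max_le_iff.1 h
  rw [sub_re] at h1
  rw [sub_im] at h2
  rw [Complex.dist_eq]
  refine (Complex.norm_le_abs_re_add_abs_im _).trans ?_
  rw [sub_re, sub_im]
  rw [abs_lt] at a1 a2 b1 b2
  rw [abs_le] at h1 h2
  have h3 : |z.re - w.re| ≤ 2 * r + δ := by
    rw [abs_le]; constructor <;> linarith [h1.1, h1.2, a1.1, a1.2, b1.1, b1.2]
  have h4 : |z.im - w.im| ≤ 2 * r + δ := by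
    rw [abs_le]; constructor <;> linarith [h2.1, h2.2, a2.1, a2.2, b2.1, b2.2]
  linarith

/-- The distance of two points of two regions. -/
theorem reg_dist (hM : 0 < M) {n : ℕ} (hkl : k ≤ l) (hn : l ≤ k + n) {z w : ℂ} (hz : z ∈ reg M k)
    (hw : w ∈ reg M l) : dist z w ≤ (2 * n + 5 / 2) * ms M := by
  have h0 := ms_pos hM
  obtain ⟨m, rfl⟩ := Nat.exists_eq_add_of_le hkl
  have h1 := dist_le_of_csq' (reg_subset_csq hM k hz) (reg_subset_csq hM (k + m) hw)
    (nsup_cellC_add hM k m)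
  have h2 : (m : ℝ) ≤ n := by exact_mod_cast (show m ≤ n by omega)
  have h3 : (m : ℝ) * ms M ≤ n * ms M := mul_le_mul_of_nonneg_right h2 h0.le
  linarith

theorem reg_dist' (hM : 0 < M) {n : ℕ} (h1 : k ≤ l + n) (h2 : l ≤ k + n) {z w : ℂ}
    (hz : z ∈ reg M k) (hw : w ∈ reg M l) : dist z w ≤ (2 * n + 5 / 2) * ms M := by
  rcases le_total k l with h | h
  · exact reg_dist hM h h2 hz hw
  · rw [dist_comm]
    exact reg_dist hM h h1 hw hz

/-- **The regions of two consecutive arcs are close.** -/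
theorem arc_dist (hM : N + 1 ≤ M) {j' : ℕ} (hj : j < 4 * (N + 1))
    (hj' : j' = j ∨ j' = (j + 1) % (4 * (N + 1))) (hk : ga N M j ≤ k) (hk' : k < ga N M (j + 1))
    (hl : ga N M j' ≤ l) (hl' : l < ga N M (j' + 1)) {z w : ℂ} (hz : z ∈ reg M k)
    (hw : w ∈ reg M l) : dist z w ≤ 17 / (N + 1) := by
  have hM0 : 0 < M := by omega
  have h0 := ms_pos hM0
  -- the length of two arcs
  set n := 2 * (2 * M + 1) / (N + 1) + 1 with hn
  have h2 : ga N M (j + 2) ≤ ga N M j + n := ga_add_le j 2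
  have h3 : ga N M (j + 1) ≤ ga N M (j + 2) := ga_mono (by omega)
  have key : dist z w ≤ (2 * n + 5 / 2) * ms M := by
    rcases hj' with rfl | hj'
    · exact reg_dist' hM0 (by omega) (by omega) hz hw
    · rcases (show j + 1 < 4 * (N + 1) ∨ j + 1 = 4 * (N + 1) by omega) with h | h
      · rw [Nat.mod_eq_of_lt h] at hj'
        subst hj'
        rw [show j + 1 + 1 = j + 2 from rfl] at hl'
        exact reg_dist' hM0 (by omega) (by omega) hz hw
      · rw [h, Nat.mod_self] at hj'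
        subst hj'
        rw [Nat.zero_add] at hl'
        have h4 : ga N M (j + 1) = nc M := by rw [h]; exact ga_top
        have h5 : ga N M (j + 2) = ga N M 1 + nc M := by
          rw [show j + 2 = 1 + 4 * (N + 1) by omega]; exact ga_add 1
        rw [← reg_add_nc] at hw
        rw [h5] at h2 h3
        exact reg_dist' hM0 (by omega) (by omega) hz hw
  refine key.trans ?_
  have hN : (0 : ℝ) < N + 1 := by positivity
  have h6 : (n : ℝ) ≤ 2 * (2 * M + 1) / (N + 1) + 1 := by
    rw [hn]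
    push_cast
    have := Nat.cast_div_le (α := ℝ) (m := 2 * (2 * M + 1)) (n := N + 1)
    push_cast at this
    linarith
  have h7 : (N : ℝ) + 1 ≤ M := by exact_mod_cast hM
  have hMp : (0 : ℝ) < M := by exact_mod_cast hM0
  have h8 : ms M = 1 / M := rfl
  have h9 : ms M ≤ 1 / (N + 1) := by
    rw [h8]
    exact one_div_le_one_div_of_le hN h7
  have h10 : (2 * (2 * (M : ℝ) + 1) / (N + 1)) * ms M ≤ 6 * (1 / (N + 1)) := by
    rw [h8, div_mul_div_comm, mul_one_div, div_le_div_iff₀ (by positivity) hN]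
    have : (1 : ℝ) ≤ M := by linarith [hN, show (0 : ℝ) ≤ N from Nat.cast_nonneg N]
    nlinarith
  have h11 : (2 * (n : ℝ) + 5 / 2) * ms M ≤ (2 * (2 * (2 * M + 1) / (N + 1) + 1) + 5 / 2) * ms M := by
    apply mul_le_mul_of_nonneg_right _ h0.le
    linarith
  refine h11.trans ?_
  have h12 : (2 * (2 * (2 * (M : ℝ) + 1) / (N + 1) + 1) + 5 / 2) * ms M =
      2 * ((2 * (2 * (M : ℝ) + 1) / (N + 1)) * ms M) + 9 / 2 * ms M := by ring
  rw [h12]
  have h13 : (17 : ℝ) / (N + 1) = 17 * (1 / (N + 1)) := by ring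
  rw [h13]
  have h14 : 0 < (1 : ℝ) / (N + 1) := by positivity
  linarith

end Vale.Agent.P148.R2.H995
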