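import Vale.Agent.P148.R2.H995.CombRad
import Vale.Agent.P148.R2.H959.Reg

/-!
# P148: the boxes of the comb and a straight cell
-/

open Set Metric Complex

namespace Vale.Agent.P148.R2.H995

open Vale.Agent.P148.R2.N H678
open Vale.Agent.P148.R2.H959 (reg reg_straight reg_corner reg_bound)

variable {M k s : ℕ}

/-- The height of a straight cell. -/
theorem straight_le (hM : 0 < M) (hs : s % (2 * M + 1) < 2 * M) :
    ((s % (2 * M + 1) : ℕ) : ℝ) * ms M + ms M ≤ 2 := by
  have h6 : ((s % (2 * M + 1) : ℕ) : ℝ) + 1 ≤ 2 * M := by exact_mod_cast (show _ + 1 ≤ _ from hs)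
  have h7 := M_mul_ms hM
  have h0 := ms_pos hM
  nlinarith

/-- A straight cell in local coordinates. -/
theorem straight_cell (hM : 0 < M) (hs : s % (2 * M + 1) < 2 * M) {w : ℂ}
    (h : I ^ (s / (2 * M + 1)) * w ∈ cell M s) :
    (1 < w.re ∧ w.re < 1 + ms M) ∧ -1 < w.im ∧ w.im < 1 := by
  obtain ⟨h1, h2, h3⟩ := mem_cell_iff.1 h
  have h0 := ms_pos hM
  have h4 := straight_le hM hs
  have h5 : (0 : ℝ) ≤ ((s % (2 * M + 1) : ℕ) : ℝ) * ms M := by positivity
  exact ⟨h1, by linarith, by linarith⟩

/-- The inner rail of another gate is off the cell. -/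
theorem railin_cell (hM : 0 < M) (hk : k < nc M) (hs : s < nc M) (h : k ≠ s) :
    Disjoint (CBox M (pin M k) (pin M (k + 1))) (cell M s) :=
  disj_of_sub (disjoint_cell hM hk hs h) (rail_in_sub hM k) Subset.rfl

/-- The outer rail of another gate is off the cell. -/
theorem railout_cell (hM : 0 < M) (hk : k < nc M) (hs : s < nc M) (h : k ≠ s) :
    Disjoint (CBox M (pout M k) (pout M (k + 1))) (cell M s) :=
  disj_of_sub (disjoint_cell hM hk hs h) (rail_out_sub hM k) Subset.rfl

/-- The gate boxes of the other gates are off the cell. -/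
theorem gbox_cell_disj (hM : 0 < M) (hk : k < nc M) (hs : s < nc M) (h1 : k ≠ s)
    (h2 : k ≠ (s + 1) % nc M) : Disjoint (gbox M k) (cell M s) := by
  rw [Set.disjoint_iff_inter_eq_empty, ← Set.not_nonempty_iff_eq_empty]
  intro h
  rcases gbox_cell hM hs hk h with h | h
  · exact h1 h
  · exact h2 h

theorem tooth_cell (hM : 0 < M) (hk : k < nc M) (hs : s < nc M) (h1 : k ≠ s)
    (h2 : k ≠ (s + 1) % nc M) : Disjoint (CBox M (pin M k) (pout M k)) (cell M s) :=
  disj_of_sub (gbox_cell_disj hM hk hs h1 h2) (tooth_sub hM k) Subset.rfl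

theorem hin_cell (hM : 0 < M) (hk : k < nc M) (hs : s < nc M) (h1 : k ≠ s)
    (h2 : k ≠ (s + 1) % nc M) : Disjoint (hbox M (pin M k)) (cell M s) :=
  disj_of_sub (gbox_cell_disj hM hk hs h1 h2) (hbox_pin_sub hM k) Subset.rfl

theorem hout_cell (hM : 0 < M) (hk : k < nc M) (hs : s < nc M) (h1 : k ≠ s)
    (h2 : k ≠ (s + 1) % nc M) : Disjoint (hbox M (pout M k)) (cell M s) :=
  disj_of_sub (gbox_cell_disj hM hk hs h1 h2) (hbox_pout_sub hM k) Subset.rfl

theorem succ_mod_of_mod_lt (hM : 0 < M) (hs : s < nc M) (h : s % (2 * M + 1) < 2 * M) :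
    (s + 1) % nc M = s + 1 := by
  have h1 : s + 1 ≠ nc M := by
    intro hc
    have h2 : s = nc M - 1 := by omega
    have h3 : nc M - 1 = 2 * M + 3 * (2 * M + 1) := by unfold nc; omega
    rw [h2, h3, Nat.add_mul_mod_self_right, Nat.mod_eq_of_lt (by omega)] at h
    omega
  exact Nat.mod_eq_of_lt (by omega)

/-- A region which meets the straight cell `s` is one of `s - 1`, `s`, `s + 1`. -/
theorem reg_cell (hM : 0 < M) (hk : k < nc M) (hs : s < nc M) (hs' : s % (2 * M + 1) < 2 * M)
    (h : (reg M k ∩ cell M s).Nonempty) : k = s ∨ k = s + 1 ∨ s = (k + 1) % nc M := by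
  obtain ⟨z, hz, hz'⟩ := h
  obtain ⟨w, hw⟩ := exists_eq_I_pow_mul (k / (2 * M + 1)) z
  obtain ⟨w', hw'⟩ := exists_eq_I_pow_mul (s / (2 * M + 1)) z
  have h0 := ms_pos hM
  have h1 := ms_le_one (M := M)
  have hz1 := hw ▸ hz
  have hz2 := hw' ▸ hz'
  obtain ⟨⟨a1, a2⟩, a3, a4⟩ := reg_bound hM hz1
  obtain ⟨⟨b1, b2⟩, b3, b4⟩ := straight_cell hM hs' hz2
  obtain ⟨-, b5, b6⟩ := mem_cell_iff.1 hz2
  have b7 : (0 : ℝ) ≤ ((s % (2 * M + 1) : ℕ) : ℝ) * ms M := by positivity
  rcases two_frames (side_lt hk) (side_lt hs) (hw.symm.trans hw') with ⟨hs1, e⟩ | e | e | e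
  · subst e
    by_cases hkc : k % (2 * M + 1) = 2 * M
    · obtain ⟨-, c1, c2⟩ := reg_corner hM hkc hz1
      -- `s` is the last straight cell
      have h2 : s % (2 * M + 1) + 1 = 2 * M := by
        by_contra hc
        have h3 : s % (2 * M + 1) + 2 ≤ 2 * M := by omega
        have h4 : ((s % (2 * M + 1) : ℕ) : ℝ) + 2 ≤ 2 * M := by exact_mod_cast h3
        have h5 := M_mul_ms hM
        have h6 : (((s % (2 * M + 1) : ℕ) : ℝ) + 2) * ms M ≤ 2 * M * ms M :=
          mul_le_mul_of_nonneg_right h4 h0.le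
        nlinarith
      right; left
      have e1 := Nat.div_add_mod k (2 * M + 1)
      have e2 := Nat.div_add_mod s (2 * M + 1)
      rw [hs1] at e1
      omega
    · obtain ⟨-, c1, c2⟩ := reg_straight hM hkc hz1
      have h2 : ((k % (2 * M + 1) : ℕ) : ℝ) * ms M < ((s % (2 * M + 1) : ℕ) : ℝ) * ms M + 2 * ms M := by
        linarith
      have h3 : ((s % (2 * M + 1) : ℕ) : ℝ) * ms M < ((k % (2 * M + 1) : ℕ) : ℝ) * ms M + 2 * ms M := by
        linarith
      have h4 : k % (2 * M + 1) < s % (2 * M + 1) + 2 := by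
        have : ((k % (2 * M + 1) : ℕ) : ℝ) < ((s % (2 * M + 1) : ℕ) : ℝ) + 2 := by
          by_contra hc
          rw [not_lt] at hc
          have := mul_le_mul_of_nonneg_right hc h0.le
          linarith
        exact_mod_cast this
      have h5 : s % (2 * M + 1) < k % (2 * M + 1) + 2 := by
        have : ((s % (2 * M + 1) : ℕ) : ℝ) < ((k % (2 * M + 1) : ℕ) : ℝ) + 2 := by
          by_contra hc
          rw [not_lt] at hc
          have := mul_le_mul_of_nonneg_right hc h0.le
          linarith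
        exact_mod_cast this
      have e1 := Nat.div_add_mod k (2 * M + 1)
      have e2 := Nat.div_add_mod s (2 * M + 1)
      rw [hs1] at e1
      rcases (show s % (2 * M + 1) = k % (2 * M + 1) ∨ s % (2 * M + 1) = k % (2 * M + 1) + 1 ∨
        k % (2 * M + 1) = s % (2 * M + 1) + 1 by omega) with h6 | h6 | h6
      · left; omega
      · right; right
        rw [Nat.mod_eq_of_lt (by omega)]
        omega
      · right; left; omega
  · -- `w = I w'`: the side of `k` precedes the side of `s`
    rw [e] at a1 a2 a3 a4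
    simp only [I_mul_re, I_mul_im] at a1 a2 a3 a4
    by_cases hkc : k % (2 * M + 1) = 2 * M
    · obtain ⟨⟨c1, c2⟩, c3, c4⟩ := reg_corner hM hkc hz1
      rw [e] at c1 c2 c3 c4
      simp only [I_mul_re, I_mul_im] at c1 c2 c3 c4
      -- `s` is the first cell of its side
      have h2 : s % (2 * M + 1) = 0 := by
        by_contra hc
        have h3 : 1 ≤ s % (2 * M + 1) := by omega
        have h4 : (1 : ℝ) ≤ ((s % (2 * M + 1) : ℕ) : ℝ) := by exact_mod_cast h3
        have h5 : 1 * ms M ≤ ((s % (2 * M + 1) : ℕ) : ℝ) * ms M :=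
          mul_le_mul_of_nonneg_right h4 h0.le
        linarith
      right; right
      -- the sides
      obtain ⟨d1, d2⟩ := div_add_one_of_eq hM hkc
      have h3 : (I : ℂ) ^ (k / (2 * M + 1) + 1) * w' = I ^ (s / (2 * M + 1)) * w' := by
        rw [pow_succ, mul_assoc, ← e, ← hw, hw']
      have hw0 : w' ≠ 0 := by
        intro hc
        rw [hc] at b1
        simp at b1
        linarith
      have h4 : (I : ℂ) ^ (k / (2 * M + 1) + 1) = I ^ (s / (2 * M + 1)) :=
        mul_right_cancel₀ hw0 h3
      have h5 : (k / (2 * M + 1) + 1) % 4 = s / (2 * M + 1) := by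
        have f1 := side_lt hk
        have f2 := side_lt hs
        generalize k / (2 * M + 1) = x at *
        generalize s / (2 * M + 1) = y at *
        have g3 : (I : ℂ) ^ 3 = -I := by rw [pow_succ, I_sq]; ring
        have g4 : (I : ℂ) ^ 4 = 1 := I_pow_four
        have n1 : (I : ℂ) ≠ 1 := fun hc => by simpa using congrArg Complex.im hc
        have n2 : (I : ℂ) ≠ -1 := fun hc => by simpa using congrArg Complex.im hc
        have n3 : (I : ℂ) ≠ -I := fun hc => by
          have := congrArg Complex.im hc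
          simp at this
          linarith
        have n4 : (-1 : ℂ) ≠ 1 := by norm_num
        have n5 : (-I : ℂ) ≠ 1 := fun hc => by simpa using congrArg Complex.im hc
        have n6 : (-I : ℂ) ≠ -1 := fun hc => by simpa using congrArg Complex.im hc
        interval_cases x <;> interval_cases y <;>
          simp only [zero_add, pow_zero, pow_one, I_sq, g3, g4, show 1 + 1 = 2 by norm_num,
            show 2 + 1 = 3 by norm_num, show 3 + 1 = 4 by norm_num] at h4 <;>
          first
            | rfl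
            | exact absurd h4 n1
            | exact absurd h4 n2
            | exact absurd h4 n3
            | exact absurd h4 n4
            | exact absurd h4 n5
            | exact absurd h4 n6
            | exact absurd h4.symm n1
            | exact absurd h4.symm n2
            | exact absurd h4.symm n3
            | exact absurd h4.symm n4
            | exact absurd h4.symm n5
            | exact absurd h4.symm n6
      have e1 := Nat.div_add_mod k (2 * M + 1)
      have e2 := Nat.div_add_mod s (2 * M + 1)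
      rw [hkc] at e1
      rw [h2] at e2
      have f1 := side_lt hk
      have e3 : k + 1 = (2 * M + 1) * (k / (2 * M + 1) + 1) := by rw [mul_add, mul_one]; omega
      rcases (show k / (2 * M + 1) + 1 < 4 ∨ k / (2 * M + 1) + 1 = 4 by omega) with h6 | h6
      · rw [Nat.mod_eq_of_lt h6] at h5
        have e4 : k + 1 = s := by rw [e3, h5]; omega
        rw [e4, Nat.mod_eq_of_lt hs]
      · rw [h6, Nat.mod_self] at h5
        rw [h6] at e3
        rw [← h5, mul_zero] at e2
        have e5 : k + 1 = nc M := by rw [e3]; unfold nc; ring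
        rw [e5, Nat.mod_self]
        omega
    · exfalso
      obtain ⟨⟨c1, c2⟩, c3, c4⟩ := reg_straight hM hkc hz1
      rw [e] at c1 c2 c3 c4
      simp only [I_mul_re, I_mul_im] at c1 c2 c3 c4
      linarith
  · rw [e] at a1 a2 a3 a4
    simp only [neg_re, neg_im] at a1 a2 a3 a4
    exfalso
    linarith
  · rw [e] at a1 a2 a3 a4
    simp only [neg_mul, neg_re, neg_im, I_mul_re, I_mul_im, neg_neg] at a1 a2 a3 a4
    exfalso
    by_cases hkc : k % (2 * M + 1) = 2 * M
    · obtain ⟨⟨c1, c2⟩, c3, c4⟩ := reg_corner hM hkc hz1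
      rw [e] at c1 c2 c3 c4
      simp only [neg_mul, neg_re, neg_im, I_mul_re, I_mul_im, neg_neg] at c1 c2 c3 c4
      linarith
    · obtain ⟨⟨c1, c2⟩, c3, c4⟩ := reg_straight hM hkc hz1
      rw [e] at c1 c2 c3 c4
      simp only [neg_mul, neg_re, neg_im, I_mul_re, I_mul_im, neg_neg] at c1 c2 c3 c4
      linarith

theorem reg_cell_disj (hM : 0 < M) (hk : k < nc M) (hs : s < nc M) (hs' : s % (2 * M + 1) < 2 * M)
    (h1 : k ≠ s) (h2 : k ≠ s + 1) (h3 : s ≠ (k + 1) % nc M) : Disjoint (reg M k) (cell M s) := by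
  rw [Set.disjoint_iff_inter_eq_empty, ← Set.not_nonempty_iff_eq_empty]
  intro h
  rcases reg_cell hM hk hs hs' h with h | h | h
  · exact h1 h
  · exact h2 h
  · exact h3 h

/-- The radial corridors of the other gates are off the cell. -/
theorem rad_cell (hM : 0 < M) (hk : k < nc M) (hs : s < nc M) (hs' : s % (2 * M + 1) < 2 * M)
    (h1 : k ≠ s) (h2 : k ≠ s + 1) : Disjoint (CBox M (pout M k) (prad M k)) (cell M s) := by
  rw [Set.disjoint_left]
  intro z hz hz'
  obtain ⟨w, hw⟩ := exists_eq_I_pow_mul (k / (2 * M + 1)) z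
  obtain ⟨w', hw'⟩ := exists_eq_I_pow_mul (s / (2 * M + 1)) z
  obtain ⟨h0, h3, -, -⟩ := num hM
  have h4 := sd_pos hM
  have hz1 := hw ▸ hz
  have hz2 := hw' ▸ hz'
  obtain ⟨a1, a2, a3⟩ := rad_crude hM hz1
  obtain ⟨⟨b1, b2⟩, b3, b4⟩ := straight_cell hM hs' hz2
  obtain ⟨-, b5, b6⟩ := mem_cell_iff.1 hz2
  rcases two_frames (side_lt hk) (side_lt hs) (hw.symm.trans hw') with ⟨hs1, e⟩ | e | e | e
  · subst e
    obtain ⟨-, c1, c2⟩ := rad_local hM hz1
    have e1 := Nat.div_add_mod k (2 * M + 1)
    have e2 := Nat.div_add_mod s (2 * M + 1)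
    rw [hs1] at e1
    have h5 : k % (2 * M + 1) < s % (2 * M + 1) + 2 := by
      have : ((k % (2 * M + 1) : ℕ) : ℝ) < ((s % (2 * M + 1) : ℕ) : ℝ) + 2 := by
        by_contra hc
        rw [not_lt] at hc
        have := mul_le_mul_of_nonneg_right hc h0.le
        linarith
      exact_mod_cast this
    have h6 : s % (2 * M + 1) < k % (2 * M + 1) + 1 := by
      have : ((s % (2 * M + 1) : ℕ) : ℝ) < ((k % (2 * M + 1) : ℕ) : ℝ) + 1 := by
        by_contra hc
        rw [not_lt] at hc
        have := mul_le_mul_of_nonneg_right hc h0.le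
        linarith
      exact_mod_cast this
    omega
  · rw [e] at a1 a2 a3
    simp only [I_mul_re, I_mul_im] at a1 a2 a3
    linarith
  · rw [e] at a1 a2 a3
    simp only [neg_re, neg_im] at a1 a2 a3
    linarith
  · rw [e] at a1 a2 a3
    simp only [neg_mul, neg_re, neg_im, I_mul_re, I_mul_im, neg_neg] at a1 a2 a3
    linarith

end Vale.Agent.P148.R2.H995
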