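import Vale.Agent.P148.R2.H488.Cw
import Vale.Agent.P148.R2.H419.Col2
import Vale.Agent.P148.R2.H995.Jreg
import Vale.Agent.P148.R2.H995.Blk

/-!
# P148, row CAL (C5): locations

`Jc M p q` : the half-open cells `p, …, q - 1`.  Position of regions, gate boxes and rails.
-/

open Set Metric Complex

namespace Vale.Agent.P148.R2.H995

open Vale.Agent.P148.R2.N (ms nc gateC gbox cell csq ms_pos)
open Vale.Agent.P148.R2.H959 (reg)
open Vale.Agent.P148.R2.H488 (hc)
open Vale.Agent.P148.R2.H678 (pin pout sd CBox hbox)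

variable {M p q k l : ℕ} {z : ℂ}

/-- The half-open cells `p, …, q - 1`. -/
def Jc (M p q : ℕ) : Set ℂ := ⋃ k ∈ Ico p q, hc M k

theorem mem_Jc : z ∈ Jc M p q ↔ ∃ k, p ≤ k ∧ k < q ∧ z ∈ hc M k := by
  unfold Jc
  simp only [mem_iUnion, mem_Ico, exists_prop, and_assoc]

theorem Jc_mono {p' q' : ℕ} (h1 : p' ≤ p) (h2 : q ≤ q') : Jc M p q ⊆ Jc M p' q' := by
  intro z hz
  obtain ⟨k, a, b, c⟩ := mem_Jc.1 hz
  exact mem_Jc.2 ⟨k, by omega, by omega, c⟩

theorem hc_false (hM : 0 < M) (h1 : z ∈ hc M k) (h2 : z ∈ hc M l) (h : k < l)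
    (h' : l < k + nc M) : False := by
  have h3 := H488.hc_unique' hM h2 h1
  have h4 := Nat.sub_mod_eq_zero_of_mod_eq h3
  rw [Nat.mod_eq_of_lt (by omega)] at h4
  omega

theorem hc_not_Jc (hM : 0 < M) (h1 : q ≤ k) (h2 : k < p + nc M) (hz : z ∈ hc M k) :
    z ∉ Jc M p q := by
  intro h
  obtain ⟨j, a, b, c⟩ := mem_Jc.1 h
  exact hc_false hM c hz (by omega) (by omega)

theorem reg_hc (hM : 0 < M) (hz : z ∈ reg M k) :
    z ∈ hc M (k + (nc M - 1)) ∨ z ∈ hc M k ∨ z ∈ hc M (k + 1) := by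
  refine H488.hc_cover hM hz ?_
  have := ms_pos hM
  rw [N.mem_csq]
  simp only [sub_self, abs_zero]
  constructor <;> linarith

theorem twelve_le_nc (hM : 0 < M) : 12 ≤ nc M := by unfold nc; omega

/-- A region away from the cells `p, …, q - 1`. -/
theorem reg_Jc_disj (hM : 0 < M) (h1 : q + 1 ≤ k) (h2 : k + 2 ≤ p + nc M) :
    Disjoint (reg M k) (Jc M p q) := by
  have hn := twelve_le_nc hM
  rw [Set.disjoint_left]
  intro z hz hJ
  rcases reg_hc hM hz with h | h | h
  · rw [show k + (nc M - 1) = (k - 1) + nc M by omega, H488.hc_add_nc] at h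
    exact hc_not_Jc hM (by omega) (by omega) h hJ
  · exact hc_not_Jc hM (by omega) (by omega) h hJ
  · exact hc_not_Jc hM (by omega) (by omega) h hJ

/-- A region inside the cells `p, …, q - 1`. -/
theorem reg_sub_Jc (hM : 0 < M) (h1 : p + 1 ≤ k) (h2 : k + 2 ≤ q) : reg M k ⊆ Jc M p q := by
  have hn := twelve_le_nc hM
  intro z hz
  rcases reg_hc hM hz with h | h | h
  · rw [show k + (nc M - 1) = (k - 1) + nc M by omega, H488.hc_add_nc] at h
    exact mem_Jc.2 ⟨k - 1, by omega, by omega, h⟩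
  · exact mem_Jc.2 ⟨k, by omega, by omega, h⟩
  · exact mem_Jc.2 ⟨k + 1, by omega, by omega, h⟩

/-- A gate box meets the cells on its two sides only. -/
theorem gbox_hc (hM : 0 < M) (hz : z ∈ gbox M k) : z ∈ hc M (k + (nc M - 1)) ∨ z ∈ hc M k := by
  have hn := twelve_le_nc hM
  have h1 := reg_hc hM (H959.gbox_subset_reg M k hz)
  have h2 : z ∈ reg M (k + (nc M - 1)) := by
    apply H959.gbox_succ_subset_reg hM
    rw [show k + (nc M - 1) + 1 = k + nc M by omega, N.gbox_add_nc]
    exact hz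
  rcases h1 with h1 | h1 | h1
  · exact Or.inl h1
  · exact Or.inr h1
  · exfalso
    rcases reg_hc hM h2 with h3 | h3 | h3
    · rw [show k + (nc M - 1) + (nc M - 1) = (k + (nc M - 2)) + nc M by omega,
        H488.hc_add_nc] at h3
      exact hc_false hM h1 h3 (by omega) (by omega)
    · exact hc_false hM h1 h3 (by omega) (by omega)
    · exact hc_false hM h1 h3 (by omega) (by omega)

/-- A gate box away from the cells `p, …, q - 1`. -/
theorem gbox_Jc_disj (hM : 0 < M) (h1 : q + 1 ≤ k) (h2 : k + 1 ≤ p + nc M) :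
    Disjoint (gbox M k) (Jc M p q) := by
  have hn := twelve_le_nc hM
  rw [Set.disjoint_left]
  intro z hz hJ
  rcases gbox_hc hM hz with h | h
  · rw [show k + (nc M - 1) = (k - 1) + nc M by omega, H488.hc_add_nc] at h
    exact hc_not_Jc hM (by omega) (by omega) h hJ
  · exact hc_not_Jc hM (by omega) (by omega) h hJ

/-- A gate box inside the cells `p, …, q - 1`. -/
theorem gbox_sub_Jc (hM : 0 < M) (h1 : p + 1 ≤ k) (h2 : k + 1 ≤ q) : gbox M k ⊆ Jc M p q := by
  have hn := twelve_le_nc hM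
  intro z hz
  rcases gbox_hc hM hz with h | h
  · rw [show k + (nc M - 1) = (k - 1) + nc M by omega, H488.hc_add_nc] at h
    exact mem_Jc.2 ⟨k - 1, by omega, by omega, h⟩
  · exact mem_Jc.2 ⟨k, by omega, by omega, h⟩

theorem railin_hc (hM : 0 < M) (k : ℕ) : CBox M (pin M k) (pin M (k + 1)) ⊆ hc M k :=
  (rail_in_sub hM k).trans (H488.cell_subset_hc M k)

theorem railout_hc (hM : 0 < M) (k : ℕ) : CBox M (pout M k) (pout M (k + 1)) ⊆ hc M k :=
  (rail_out_sub hM k).trans (H488.cell_subset_hc M k)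

/-- Regions and gate boxes with different indices. -/
theorem reg_gbox_disj (hM : 0 < M) (h1 : l + 1 ≤ k) (h2 : k + 2 ≤ l + nc M) :
    Disjoint (reg M k) (gbox M l) := by
  -- `gbox l ⊆ reg (l - 1) ∩ reg l`
  have hn := twelve_le_nc hM
  rcases Nat.lt_or_ge k (l + 2) with h | h
  · -- `k = l + 1`; use `reg (l - 1)`
    have hk : k = l + 1 := by omega
    subst hk
    have h3 : gbox M l ⊆ reg M (l + (nc M - 1)) := by
      intro z hz
      apply H959.gbox_succ_subset_reg hM
      rw [show l + (nc M - 1) + 1 = l + nc M by omega, N.gbox_add_nc]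
      exact hz
    exact (H959.disjoint_reg hM (j := l + 1) (k := l + (nc M - 1)) (by omega)
      (by omega)).mono_right h3
  · have h3 := H959.disjoint_reg hM (j := l) (k := k) h h2
    exact h3.symm.mono_right (H959.gbox_subset_reg M l)

theorem gateC_gbox (hM : 0 < M) (k : ℕ) : gateC M k ∈ gbox M k := by
  have := ms_pos hM
  unfold gbox
  rw [N.mem_csq]
  simp only [sub_self, abs_zero]
  constructor <;> linarith

/-- A region near the gate `p`. -/
theorem reg_ball (hM : 0 < M) {r : ℝ} (h1 : k ≤ p + 2) (h2 : p ≤ k + 2)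
    (hr : 13 / 2 * ms M < r) : reg M k ⊆ ball (gateC M p) r := by
  intro z hz
  have h3 := reg_dist' hM (n := 2) h1 h2 hz (H959.gbox_subset_reg M p (gateC_gbox hM p))
  rw [mem_ball]
  refine lt_of_le_of_lt h3 (lt_of_le_of_lt ?_ hr)
  push_cast
  apply le_of_eq
  ring

end Vale.Agent.P148.R2.H995
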