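import Vale.Agent.P148.R2.H592.Del3

/-!
# Delaunay edges do not cross (P148, module R5a)
-/

open Set Metric

namespace Vale.Agent.P148.R2.H995

open H592

/-- difference of the powers of `x` with respect to the circles of centre `z` through `u` and of
centre `z'` through `u'`. -/
noncomputable def pd (z z' u u' x : ℂ) : ℝ :=
  (Complex.normSq (x - z) - Complex.normSq (u - z)) -
    (Complex.normSq (x - z') - Complex.normSq (u' - z'))

theorem pd_seg (z z' u u' a b : ℂ) (t : ℝ) :
    pd z z' u u' (a + (t : ℂ) * (b - a)) = (1 - t) * pd z z' u u' a + t * pd z z' u u' b := by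
  unfold pd
  simp only [Complex.normSq_apply, Complex.add_re, Complex.add_im, Complex.mul_re, Complex.mul_im,
    Complex.ofReal_re, Complex.ofReal_im, Complex.sub_re, Complex.sub_im]
  ring

theorem normSq_seg_lt {a b c : ℂ} (hab : a ≠ b) {t r : ℝ} (h0 : 0 < t) (h1 : t < 1)
    (ha : Complex.normSq (a - c) ≤ r) (hb : Complex.normSq (b - c) ≤ r) :
    Complex.normSq (a + (t : ℂ) * (b - a) - c) < r := by
  have h : 0 < Complex.normSq (b - a) := Complex.normSq_pos.2 (sub_ne_zero.2 hab.symm)
  have key : Complex.normSq (a + (t : ℂ) * (b - a) - c) =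
      (1 - t) * Complex.normSq (a - c) + t * Complex.normSq (b - c) -
        t * (1 - t) * Complex.normSq (b - a) := by
    simp only [Complex.normSq_apply, Complex.add_re, Complex.add_im, Complex.mul_re,
      Complex.mul_im, Complex.ofReal_re, Complex.ofReal_im, Complex.sub_re, Complex.sub_im]
    ring
  rw [key]
  have h2 : 0 < t * (1 - t) * Complex.normSq (b - a) :=
    mul_pos (mul_pos h0 (by linarith)) h
  nlinarith

theorem normSq_le_of_vcell {X : Set ℂ} {u w z : ℂ} (h : z ∈ vcell X u) (hw : w ∈ X) :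
    Complex.normSq (u - z) ≤ Complex.normSq (w - z) := by
  have := h w hw
  rw [dist_comm z u, dist_comm z w, Complex.dist_eq, Complex.dist_eq] at this
  rw [Complex.normSq_eq_norm_sq, Complex.normSq_eq_norm_sq]
  exact pow_le_pow_left₀ (norm_nonneg _) this 2

theorem vcell_of_normSq {X : Set ℂ} {u w z : ℂ} (h : z ∈ vcell X u)
    (hw : Complex.normSq (w - z) = Complex.normSq (u - z)) : z ∈ vcell X w := by
  intro x hx
  have h1 := h x hx
  have h2 : dist z w = dist z u := by
    rw [Complex.normSq_eq_norm_sq, Complex.normSq_eq_norm_sq] at hw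
    rw [dist_comm z w, dist_comm z u, Complex.dist_eq, Complex.dist_eq]
    exact (sq_eq_sq₀ (norm_nonneg _) (norm_nonneg _)).1 hw
  rw [h2]; exact h1

/-- The point at parameter `t` of the segment. -/
noncomputable def sg (a b : ℂ) (t : ℝ) : ℂ := a + (t : ℂ) * (b - a)

/-- **Delaunay edges do not cross.** -/
theorem seg_disjoint {X : Set ℂ} (hX : Three X) {u v u' v' : ℂ} (h : nbr X u v)
    (h' : nbr X u' v') (h1 : u ≠ u') (h2 : u ≠ v') (h3 : v ≠ u') (h4 : v ≠ v') {s t : ℝ}
    (hs0 : 0 ≤ s) (hs1 : s ≤ 1) (ht0 : 0 ≤ t) (ht1 : t ≤ 1) : sg u v s ≠ sg u' v' t := by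
  intro he
  obtain ⟨hu, hv, huv, z, hz1, hz2⟩ := h
  obtain ⟨hu', hv', huv', z', hz1', hz2'⟩ := h'
  have eqv : Complex.normSq (v - z) = Complex.normSq (u - z) :=
    le_antisymm (normSq_le_of_vcell hz2 hu) (normSq_le_of_vcell hz1 hv)
  have eqv' : Complex.normSq (v' - z') = Complex.normSq (u' - z') :=
    le_antisymm (normSq_le_of_vcell hz2' hu') (normSq_le_of_vcell hz1' hv')
  have a1 : pd z z' u u' u ≤ 0 := by
    unfold pd; have := normSq_le_of_vcell hz1' hu; linarith
  have a2 : pd z z' u u' v ≤ 0 := by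
    unfold pd; have := normSq_le_of_vcell hz1' hv; linarith
  have a3 : 0 ≤ pd z z' u u' u' := by
    unfold pd; have := normSq_le_of_vcell hz1 hu'; linarith
  have a4 : 0 ≤ pd z z' u u' v' := by
    unfold pd; have := normSq_le_of_vcell hz1 hv'; linarith
  have e1 := pd_seg z z' u u' u v s
  have e2 := pd_seg z z' u u' u' v' t
  have he' : u + (s : ℂ) * (v - u) = u' + (t : ℂ) * (v' - u') := he
  rw [he'] at e1
  have hzero : pd z z' u u' (u' + (t : ℂ) * (v' - u')) = 0 := by
    apply le_antisymm
    · rw [e1]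
      have := mul_nonneg (sub_nonneg.2 hs1) (neg_nonneg.2 a1)
      have := mul_nonneg hs0 (neg_nonneg.2 a2)
      nlinarith
    · rw [e2]
      have := mul_nonneg (sub_nonneg.2 ht1) a3
      have := mul_nonneg ht0 a4
      nlinarith
  -- interior parameters
  have hs0' : s ≠ 0 := by
    rintro rfl
    -- `u` on the segment `u' v'`
    have hu0 : u = u' + (t : ℂ) * (v' - u') := by simpa using he'
    have ht0' : t ≠ 0 := by rintro rfl; exact h1 (by simpa using hu0)
    have ht1' : t ≠ 1 := by rintro rfl; exact h2 (by simpa using hu0)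
    have := normSq_seg_lt (a := u') (b := v') (c := z') huv' (lt_of_le_of_ne ht0 (Ne.symm ht0'))
      (lt_of_le_of_ne ht1 ht1') le_rfl eqv'.le
    rw [← hu0] at this
    exact absurd (normSq_le_of_vcell hz1' hu) (not_le.2 this)
  have hs1' : s ≠ 1 := by
    rintro rfl
    have hu0 : v = u' + (t : ℂ) * (v' - u') := by simpa using he'
    have ht0' : t ≠ 0 := by rintro rfl; exact h3 (by simpa using hu0)
    have ht1' : t ≠ 1 := by rintro rfl; exact h4 (by simpa using hu0)
    have := normSq_seg_lt (a := u') (b := v') (c := z') huv' (lt_of_le_of_ne ht0 (Ne.symm ht0'))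
      (lt_of_le_of_ne ht1 ht1') le_rfl eqv'.le
    rw [← hu0] at this
    exact absurd (normSq_le_of_vcell hz1' hv) (not_le.2 this)
  have ht0' : t ≠ 0 := by
    rintro rfl
    have hu0 : u' = u + (s : ℂ) * (v - u) := by simpa using he'.symm
    have := normSq_seg_lt (a := u) (b := v) (c := z) huv (lt_of_le_of_ne hs0 (Ne.symm hs0'))
      (lt_of_le_of_ne hs1 hs1') le_rfl eqv.le
    rw [← hu0] at this
    exact absurd (normSq_le_of_vcell hz1 hu') (not_le.2 this)
  have ht1' : t ≠ 1 := by
    rintro rfl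
    have hu0 : v' = u + (s : ℂ) * (v - u) := by simpa using he'.symm
    have := normSq_seg_lt (a := u) (b := v) (c := z) huv (lt_of_le_of_ne hs0 (Ne.symm hs0'))
      (lt_of_le_of_ne hs1 hs1') le_rfl eqv.le
    rw [← hu0] at this
    exact absurd (normSq_le_of_vcell hz1 hv') (not_le.2 this)
  have ps : 0 < s := lt_of_le_of_ne hs0 (Ne.symm hs0')
  have ps' : 0 < 1 - s := sub_pos.2 (lt_of_le_of_ne hs1 hs1')
  have pt : 0 < t := lt_of_le_of_ne ht0 (Ne.symm ht0')
  have pt' : 0 < 1 - t := sub_pos.2 (lt_of_le_of_ne ht1 ht1')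
  have f1 : pd z z' u u' u = 0 := by
    have h5 := mul_nonneg ps'.le (neg_nonneg.2 a1)
    have h6 := mul_nonneg hs0 (neg_nonneg.2 a2)
    have : (1 - s) * pd z z' u u' u = 0 := by linarith [hzero, e1]
    rcases mul_eq_zero.1 this with h | h
    · exact absurd h ps'.ne'
    · exact h
  have f3 : pd z z' u u' u' = 0 := by
    have h5 := mul_nonneg pt'.le a3
    have h6 := mul_nonneg ht0 a4
    have : (1 - t) * pd z z' u u' u' = 0 := by linarith [hzero, e2]
    rcases mul_eq_zero.1 this with h | h
    · exact absurd h pt'.ne'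
    · exact h
  have f4 : pd z z' u u' v' = 0 := by
    have h5 := mul_nonneg pt'.le a3
    have h6 := mul_nonneg ht0 a4
    have : t * pd z z' u u' v' = 0 := by linarith [hzero, e2]
    rcases mul_eq_zero.1 this with h | h
    · exact absurd h pt.ne'
    · exact h
  have g3 : Complex.normSq (u' - z) = Complex.normSq (u - z) := by
    unfold pd at f3; linarith
  have g4 : Complex.normSq (v' - z) = Complex.normSq (u - z) := by
    unfold pd at f4; linarith
  have k3 : z ∈ vcell X u' := vcell_of_normSq hz1 g3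
  have k4 : z ∈ vcell X v' := vcell_of_normSq hz1 g4
  rcases hX z u v u' v' hu hv hu' hv' hz1 hz2 k3 k4 huv h3 (Ne.symm h1) with h | h | h
  · exact h2 h.symm
  · exact h4 h.symm
  · exact huv' h.symm

end Vale.Agent.P148.R2.H995
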