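import Vale.Agent.P148.R2.H995.CalE1
import Vale.Agent.P148.R2.H419.Col3
import Vale.Agent.P148.R2.H678.Wrd
import Vale.Agent.P148.R2.H897.CalFair

/-!
# P148, row CAL (C5): the explored set and the colours of the world of the mark

Marks `p < q` (gates).  `Pm` : the complete inner hubs of the gates `p, …, p + 3`; `Vm` : the sites of
the tooth box of `p`; `Lm` : the sites of the boxes of the inner rails `p, p + 1, p + 2`;
`EA` : the explored set away from the cells `p, …, q - 1` (gates `q + 1, …, p + nc M`);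
`EB` : the explored set inside the cells `p + 2, …, q - 1` (gates `p + 3, …, q - 1`);
`EC` : the union.  `SC` : the locations which are flipped.  `CalW` : the colours.
-/

open Set Relation Metric

namespace Vale.Agent.P148.R2.H995

open Vale.Agent.P148.R2.N (ms nc gateC gbox cell ms_pos)
open Vale.Agent.P148.R2.H592 (nbr nbr_symm ConnIn HullTri comp)
open Vale.Agent.P148.R2.H959 (Jn reg)
open Vale.Agent.P148.R2.H488 (hc)
open Vale.Agent.P148.R2.H678 (core hub rim pin pout sd CBox inHub outHub inRim outRim hbox Ex mix mB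
  mW EJ D0 oseed inHub_mix outHub_mix mem_mix_of_not_mem mem_mix_of_mem HubV)
open Vale.Agent.P148.R2.H419 (Col EK)
open Vale.Agent.P148.R2.H953 (IsStop Agree glue agree_glue)
open Vale.Agent.P148.R2.H938 (pc)

variable {M p q k l : ℕ} {X Bl Wh Bl₁ Wh₁ Bl₂ Wh₂ J : Set ℂ} {K : Set ℕ} {z : ℂ}

/-- The inner hubs of the mark `p`. -/
def Pm (M : ℕ) (X Wh : Set ℂ) (p : ℕ) : Set ℂ := ⋃ i ∈ Iio 4, inHub M X Wh (p + i)

/-- The sites of the boxes of the first three inner rails. -/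
def Lm (M : ℕ) (X : Set ℂ) (p : ℕ) : Set ℂ :=
  X ∩ ⋃ i ∈ Iio 3, CBox M (pin M (p + i)) (pin M (p + i + 1))

/-- The sites of the box of the tooth. -/
def Vm (M : ℕ) (X : Set ℂ) (p : ℕ) : Set ℂ := X ∩ CBox M (pin M p) (pout M p)

/-- The explored set away from the cells `p, …, q - 1`. -/
def EA (M : ℕ) (X : Set ℂ) (p q : ℕ) (Bl Wh : Set ℂ) : Set ℂ :=
  EJ M X (Icc (q + 1) (p + nc M)) (Jc M p q) Bl Wh

/-- The explored set inside the cells `p + 2, …, q - 1`. -/
def EB (M : ℕ) (X : Set ℂ) (p q : ℕ) (Bl Wh : Set ℂ) : Set ℂ :=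
  EJ M X (Ico (p + 3) q) (Jc M (p + 2) q)ᶜ Bl Wh

/-- The explored set of the world of the mark. -/
def EC (M : ℕ) (X : Set ℂ) (p q : ℕ) (Bl Wh : Set ℂ) : Set ℂ :=
  Pm M X Wh p ∪ outHub M X Bl p ∪ Vm M X p ∪ Lm M X p ∪ EA M X p q Bl Wh ∪ EB M X p q Bl Wh

/-- The locations which are flipped. -/
def SC (M : ℕ) (X : Set ℂ) (p q : ℕ) : Set ℂ := Jc M (p + 2) q ∪ Lm M X p

theorem mem_Pm : z ∈ Pm M X Wh p ↔ ∃ i < 4, z ∈ inHub M X Wh (p + i) := by
  unfold Pm; simp only [mem_iUnion, mem_Iio, exists_prop]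

theorem mem_Lm : z ∈ Lm M X p ↔ z ∈ X ∧ ∃ i < 3, z ∈ CBox M (pin M (p + i)) (pin M (p + i + 1)) := by
  unfold Lm; simp only [mem_inter_iff, mem_iUnion, mem_Iio, exists_prop]

theorem Pm_sub_EC : Pm M X Wh p ⊆ EC M X p q Bl Wh := fun _ h =>
  Or.inl (Or.inl (Or.inl (Or.inl (Or.inl h))))

theorem hub_sub_EC : outHub M X Bl p ⊆ EC M X p q Bl Wh := fun _ h =>
  Or.inl (Or.inl (Or.inl (Or.inl (Or.inr h))))

theorem Vm_sub_EC : Vm M X p ⊆ EC M X p q Bl Wh := fun _ h =>
  Or.inl (Or.inl (Or.inl (Or.inr h)))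

theorem Lm_sub_EC : Lm M X p ⊆ EC M X p q Bl Wh := fun _ h => Or.inl (Or.inl (Or.inr h))

theorem EA_sub_EC : EA M X p q Bl Wh ⊆ EC M X p q Bl Wh := fun _ h => Or.inl (Or.inr h)

theorem EB_sub_EC : EB M X p q Bl Wh ⊆ EC M X p q Bl Wh := fun _ h => Or.inr h

theorem EC_cases (h : z ∈ EC M X p q Bl Wh) : z ∈ Pm M X Wh p ∨ z ∈ outHub M X Bl p ∨
    z ∈ Vm M X p ∨ z ∈ Lm M X p ∨ z ∈ EA M X p q Bl Wh ∨ z ∈ EB M X p q Bl Wh := by
  rcases h with ((((h | h) | h) | h) | h) | h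
  · exact Or.inl h
  · exact Or.inr (Or.inl h)
  · exact Or.inr (Or.inr (Or.inl h))
  · exact Or.inr (Or.inr (Or.inr (Or.inl h)))
  · exact Or.inr (Or.inr (Or.inr (Or.inr (Or.inl h))))
  · exact Or.inr (Or.inr (Or.inr (Or.inr (Or.inr h))))

theorem EC_sub_X : EC M X p q Bl Wh ⊆ X := by
  intro z hz
  rcases EC_cases hz with h | h | h | h | h | h
  · obtain ⟨i, -, h⟩ := mem_Pm.1 h
    exact H678.hub_sub_X h
  · exact H678.hub_sub_X h
  · exact h.1
  · exact h.1
  · exact H678.EJ_sub_X h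
  · exact H678.EJ_sub_X h

theorem Pm_mix : Pm M X (mW M X Bl₁ Wh₁ Wh₂) p = Pm M X Wh₁ p := by
  unfold Pm
  simp only [inHub_mix]

/-! ### hub boxes -/

theorem hin_hout (hM : 0 < M) (k l : ℕ) : Disjoint (hbox M (pin M k)) (hbox M (pout M l)) := by
  by_cases hkl : k % nc M = l % nc M
  · rw [← pin_mod, hkl, pin_mod]
    exact hbox_disj hM l
  · have := hboxes_disj hM (H678.mod_nc_lt M k) (H678.mod_nc_lt M l) hkl
    rw [← pin_mod M k, ← pout_mod M l]
    exact this.mono subset_union_left subset_union_right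

theorem railin_hout (hM : 0 < M) (k l : ℕ) :
    Disjoint (CBox M (pin M k) (pin M (k + 1))) (hbox M (pout M l)) := by
  have := railin_hout_disj hM (H678.mod_nc_lt M k) (H678.mod_nc_lt M l)
  rwa [pin_mod, pout_mod, H565.pin_succ_mod] at this

theorem tooth_railin (hM : 0 < M) (k l : ℕ) :
    Disjoint (CBox M (pin M l) (pout M l)) (CBox M (pin M k) (pin M (k + 1))) := by
  have := tooth_rail_disj hM (H678.mod_nc_lt M k) (H678.mod_nc_lt M l)
  rw [pin_mod, pout_mod, pin_mod, H565.pin_succ_mod] at this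
  exact this.mono_right subset_union_left

/-! ### stopping sets -/

section stop

/-- The inner hubs of the mark, as a function of the colouring of the sites. -/
def PmV (M : ℕ) (X : Set ℂ) (p : ℕ) (σ : X → Bool) : Set X :=
  {v | v.1 ∈ Pm M X (pc Subtype.val false σ) p}

/-- The explored set of the world of the mark, as a function of the colouring of the sites. -/
def ECV (M : ℕ) (X : Set ℂ) (p q : ℕ) (σ : X → Bool) : Set X :=
  {v | v.1 ∈ EC M X p q (pc Subtype.val true σ) (pc Subtype.val false σ)}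

theorem inHub_congr' {σ ρ : X → Bool}
    (h : ∀ v : X, v.1 ∈ inHub M X (pc Subtype.val false σ) k → ρ v = σ v) :
    inHub M X (pc Subtype.val false ρ) k = inHub M X (pc Subtype.val false σ) k := by
  refine H678.hub_congr fun z hz => ?_
  have hzX : z ∈ X := H678.hub_sub_X hz
  rw [H678.mem_pc_val hzX, H678.mem_pc_val hzX, h ⟨z, hzX⟩ hz]

theorem outHub_congr' {σ ρ : X → Bool}
    (h : ∀ v : X, v.1 ∈ outHub M X (pc Subtype.val true σ) k → ρ v = σ v) :
    outHub M X (pc Subtype.val true ρ) k = outHub M X (pc Subtype.val true σ) k := by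
  refine H678.hub_congr fun z hz => ?_
  have hzX : z ∈ X := H678.hub_sub_X hz
  rw [H678.mem_pc_val hzX, H678.mem_pc_val hzX, h ⟨z, hzX⟩ hz]

theorem Pm_congr' {σ ρ : X → Bool} (h : Agree (PmV M X p σ) σ ρ) :
    Pm M X (pc Subtype.val false ρ) p = Pm M X (pc Subtype.val false σ) p := by
  unfold Pm
  refine iUnion₂_congr fun i hi => ?_
  exact inHub_congr' fun v hv => h v (mem_Pm.2 ⟨i, hi, hv⟩)

theorem isStop_PmV (M : ℕ) (X : Set ℂ) (p : ℕ) : IsStop (PmV M X p) := by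
  intro σ ρ h
  unfold PmV
  rw [Pm_congr' h]

theorem isStop_ECV (M : ℕ) (X : Set ℂ) (p q : ℕ) : IsStop (ECV M X p q) := by
  intro σ ρ h
  have h1 : Pm M X (pc Subtype.val false ρ) p = Pm M X (pc Subtype.val false σ) p :=
    Pm_congr' fun v hv => h v (Pm_sub_EC hv)
  have h2 : outHub M X (pc Subtype.val true ρ) p = outHub M X (pc Subtype.val true σ) p :=
    outHub_congr' fun v hv => h v (hub_sub_EC hv)
  have h3 : EA M X p q (pc Subtype.val true ρ) (pc Subtype.val false ρ) =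
      EA M X p q (pc Subtype.val true σ) (pc Subtype.val false σ) :=
    H678.EJX_congr fun v hv => h v (EA_sub_EC hv)
  have h4 : EB M X p q (pc Subtype.val true ρ) (pc Subtype.val false ρ) =
      EB M X p q (pc Subtype.val true σ) (pc Subtype.val false σ) :=
    H678.EJX_congr fun v hv => h v (EB_sub_EC hv)
  unfold ECV EC
  rw [h1, h2, h3, h4]

theorem PmV_sub_ECV (σ : X → Bool) : PmV M X p σ ⊆ ECV M X p q σ := fun _ hv => Pm_sub_EC hv

theorem PmV_sub_HubV (σ : X → Bool) : PmV M X p σ ⊆ HubV M X σ := by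
  intro v hv
  obtain ⟨i, -, h⟩ := mem_Pm.1 hv
  exact H678.mem_HubV.2 (mem_iUnion.2 ⟨p + i, Or.inl h⟩)

end stop

/-! ### the colours -/

/-- The colours of the world of the mark on its explored set: flipped on the inner hubs of the mark
and at the locations `SC`, unchanged elsewhere. -/
structure CalW (M : ℕ) (X Bl Wh : Set ℂ) (s : ℂ → Bool) (p q : ℕ) (w : X → Bool) : Prop where
  fl : ∀ v : X, v.1 ∈ EC M X p q Bl Wh → v.1 ∈ Pm M X Wh p ∨ v.1 ∈ SC M X p q → w v = !s v.1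
  nf : ∀ v : X, v.1 ∈ EC M X p q Bl Wh → v.1 ∉ Pm M X Wh p → v.1 ∉ SC M X p q → w v = s v.1

/-- The colouring `cal` of helper897 has these colours. -/
theorem calW_cal [Fintype X] (s : ℂ → Bool) (c₁ c₂ c₃ : X → Bool)
    (hs : ∀ v : X, s v.1 = H838.s12 (HubV M X) c₁ c₂ v) :
    CalW M X (mB M X (pc Subtype.val true c₁) (pc Subtype.val false c₁) (pc Subtype.val true c₂))
      (mW M X (pc Subtype.val true c₁) (pc Subtype.val false c₁) (pc Subtype.val false c₂)) s p q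
      (H897.cal (HubV M X) (PmV M X p) (ECV M X p q) (fun _ => True)
        (fun v => v.1 ∈ SC M X p q) c₁ c₂ c₃) := by
  have e1 := H678.pc_s12 (M := M) (X := X) true c₁ c₂
  have e2 := H678.pc_s12 (M := M) (X := X) false c₁ c₂
  unfold mB mW
  rw [← e1, ← e2]
  constructor
  · intro v hv h
    rw [hs v]
    refine H897.cal_flip c₃ (show v ∈ ECV M X p q (H838.s12 (HubV M X) c₁ c₂) from hv)
      (fun _ => trivial) (fun h1 => ?_)
    exact h.resolve_left h1
  · intro v hv h1 h2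
    rw [hs v]
    exact H897.cal_same c₃ (show v ∈ ECV M X p q (H838.s12 (HubV M X) c₁ c₂) from hv)
      (fun h3 => absurd h3 h1) (fun _ => h2)

/-- Off the explored set: the third colouring. -/
theorem cal_third [Fintype X] (c₁ c₂ c₃ : X → Bool) {v : X}
    (hv : v.1 ∉ EC M X p q
      (mB M X (pc Subtype.val true c₁) (pc Subtype.val false c₁) (pc Subtype.val true c₂))
      (mW M X (pc Subtype.val true c₁) (pc Subtype.val false c₁) (pc Subtype.val false c₂))) :
    H897.cal (HubV M X) (PmV M X p) (ECV M X p q) (fun _ => True)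
        (fun v => v.1 ∈ SC M X p q) c₁ c₂ c₃ v = c₃ v := by
  refine H897.cal_off c₃ fun h => hv ?_
  have e1 := H678.pc_s12 (M := M) (X := X) true c₁ c₂
  have e2 := H678.pc_s12 (M := M) (X := X) false c₁ c₂
  unfold mB mW
  rw [← e1, ← e2]
  exact h

/-! ### positions, on the comb event -/

section col

variable {b : ZMod 3 → ℂ} {s : ℂ → Bool} (hC : Col M X b Bl₁ Wh₁ Bl₂ Wh₂ s)
include hC

theorem Col.inHub_sub (k : ℕ) : inHub M X Wh₁ k ⊆ hbox M (pin M k) := hC.good.inSub k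

theorem Col.outHub_sub (k : ℕ) : outHub M X Bl₁ k ⊆ hbox M (pout M k) := hC.good.outSub k

theorem Col.hubs_disj (k l : ℕ) : Disjoint (inHub M X Wh₁ k) (outHub M X Bl₁ l) :=
  (hin_hout hC.hM k l).mono (Col.inHub_sub hC k) (Col.outHub_sub hC l)

/-- White explored vertices are in no inner hub. -/
theorem Col.white_off {K : Set ℕ} {J : Set ℂ} (hz : z ∈ EK M X Bl₁ Wh₁ Bl₂ Wh₂ K J)
    (hs : s z = false) (k : ℕ) : z ∉ inHub M X Wh₁ k := by
  obtain ⟨h0, hh0, hr⟩ := hz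
  rw [H678.hub_oseed] at hh0
  obtain ⟨j, hj, hj2⟩ := mem_iUnion₂.1 hh0
  rw [outHub_mix] at hj2
  induction hr with
  | refl => exact fun h => Set.disjoint_left.1 (Col.hubs_disj hC k j) h hj2
  | @tail a c ha hac ih =>
    intro h
    have h1 : c ∈ core (nbr X) (X ∩ ball (pin M k) (sd M)) Wh₁ := by
      by_contra h2
      have h3 := hC.comb.hin' k c h (H678.rim_not ⟨h, h2⟩)
      rw [hs] at h3
      exact absurd h3 (by decide)
    have ha1 : a ∈ X := hac.2.1.1
    exact ih ((hC.cW a ha1).1 hac.1) (H678.hub_step h1 (nbr_symm hac.2.1))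

theorem Col.Pm_gbox (hz : z ∈ Pm M X Wh₁ p) : ∃ i < 4, z ∈ gbox M (p + i) := by
  obtain ⟨i, hi, h⟩ := mem_Pm.1 hz
  exact ⟨i, hi, hbox_pin_sub hC.hM _ (Col.inHub_sub hC _ h)⟩

/-- The inner hubs of the mark are away from the far regions. -/
theorem Col.reg_Pm (h0 : p + 3 ≤ q) (h1 : q + 1 ≤ k) (h2 : k + 2 ≤ p + nc M) :
    Disjoint (reg M k) (Pm M X Wh₁ p) := by
  rw [Set.disjoint_left]
  intro z hz hP
  obtain ⟨i, hi, h⟩ := Col.Pm_gbox hC hP
  exact Set.disjoint_left.1 (reg_gbox_disj hC.hM (by omega) (by omega)) hz h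

/-- The far explored set is not flipped by location. -/
theorem Col.EA_SC (h0 : p + 3 ≤ q) : Disjoint
    (EA M X p q (mB M X Bl₁ Wh₁ Bl₂) (mW M X Bl₁ Wh₁ Wh₂)) (SC M X p q) := by
  have hn := twelve_le_nc hC.hM
  rw [Set.disjoint_left]
  intro z hz hS
  have key : z ∈ Jc M p q → ∃ k, q + 1 ≤ k ∧ k ≤ p + nc M ∧ z ∈ outHub M X Bl₁ k := by
    intro hJ
    have h1 : z ∈ EJ M X (Icc (q + 1) (p + nc M)) (Jc M p q) (mB M X Bl₁ Wh₁ Bl₂)
        (mW M X Bl₁ Wh₁ Wh₂) ∩ Jc M p q := ⟨hz, hJ⟩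
    rw [H678.EJ_inter] at h1
    obtain ⟨k, hk, h2⟩ := mem_iUnion₂.1 h1.1
    rw [outHub_mix] at h2
    exact ⟨k, hk.1, hk.2, h2⟩
  rcases hS with h | h
  · obtain ⟨k, k1, k2, hk⟩ := key (Jc_mono (by omega) le_rfl h)
    have h3 := hbox_pout_sub hC.hM k (Col.outHub_sub hC k hk)
    exact Set.disjoint_left.1 (gbox_Jc_disj hC.hM (p := p + 2) (q := q) (k := k) (by omega)
      (by omega)) h3 h
  · obtain ⟨-, i, hi, h⟩ := mem_Lm.1 h
    obtain ⟨k, k1, k2, hk⟩ := key (mem_Jc.2 ⟨p + i, by omega, by omega, railin_hc hC.hM _ h⟩)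
    exact Set.disjoint_left.1 (railin_hout hC.hM (p + i) k) h (Col.outHub_sub hC k hk)

/-- The explored set of the arc is in the flipped cells. -/
theorem Col.EB_sub : EB M X p q (mB M X Bl₁ Wh₁ Bl₂) (mW M X Bl₁ Wh₁ Wh₂) ⊆ Jc M (p + 2) q := by
  intro z hz
  rcases H678.EJ_sub hz with h | h
  · obtain ⟨k, hk, h⟩ := mem_iUnion₂.1 h
    rw [outHub_mix] at h
    exact gbox_sub_Jc hC.hM (p := p + 2) (by have := hk.1; omega) (by have := hk.2; omega)
      (hbox_pout_sub hC.hM k (Col.outHub_sub hC k h))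
  · by_contra hc
    exact h.2 hc

/-- **Explored fresh sites**: what the world of the mark explores outside the explored set of world 0
is near the mark. -/
theorem Col.EC_fresh (hz : z ∈ EC M X p q (mB M X Bl₁ Wh₁ Bl₂) (mW M X Bl₁ Wh₁ Wh₂))
    (h0 : z ∉ EK M X Bl₁ Wh₁ Bl₂ Wh₂ univ ∅) :
    z ∈ Pm M X Wh₁ p ∪ Vm M X p ∪ Lm M X p ∧ z ∈ ball (gateC M p) (7 * ms M) := by
  have hms := ms_pos hC.hM
  have hEK : ∀ {K : Set ℕ} {J : Set ℂ}, z ∉ EK M X Bl₁ Wh₁ Bl₂ Wh₂ K J :=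
    fun {K J} h => h0 (H678.EJ_anti (subset_univ K) (empty_subset J) h)
  have hb : ∀ {i : ℕ}, i ≤ 2 → reg M (p + i) ⊆ ball (gateC M p) (7 * ms M) := fun {i} hi =>
    reg_ball hC.hM (by omega) (by omega) (by linarith)
  rcases EC_cases hz with h | h | h | h | h | h
  · rw [Pm_mix] at h
    refine ⟨Or.inl (Or.inl h), ?_⟩
    obtain ⟨i, hi, h⟩ := Col.Pm_gbox hC h
    rcases Nat.lt_or_ge i 3 with hi3 | hi3
    · exact hb (by omega) (H959.gbox_subset_reg M _ h)
    · have : i = 2 + 1 := by omega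
      subst this
      exact hb le_rfl (H959.gbox_succ_subset_reg hC.hM (p + 2) h)
  · exfalso
    refine hEK (K := univ) (J := ∅) ?_
    exact H678.outHub_sub_EJ (mem_univ p) h
  · refine ⟨Or.inl (Or.inr h), hb (i := 0) (by omega) ?_⟩
    exact H959.gbox_subset_reg M _ (tooth_sub hC.hM _ h.2)
  · refine ⟨Or.inr h, ?_⟩
    obtain ⟨-, i, hi, h⟩ := mem_Lm.1 h
    exact hb (by omega) ((H419.regs_reg hC.hM).lo (p + i) h)
  · exact absurd h hEK
  · exact absurd h hEK

end col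

end Vale.Agent.P148.R2.H995
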