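import Vale.Agent.P148.R2.H995.CalE2
import Vale.Agent.P148.R2.H144.Far
import Vale.Agent.P148.R2.H112.Ori3

/-!
# P148, row CAL (C5): the strand in the world of the mark

`Str` : the closed strand of the comb with its times.  In the colours `w` of the world of the mark
(`CalW`, marks `p < q`): the strand keeps its colours on the pieces `q + 1, …, p + nc M - 2`, its left
vertices are white on the pieces `p + 3, …, q - 2`, and these are joined in white to the right vertices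
of the first ones (`Str.chain`).
-/

open Set Relation Metric Function

namespace Vale.Agent.P148.R2.H995

open Vale.Agent.P148.R2.H258 Vale.Agent.P148.R2.H565
open Vale.Agent.P148.R2.N (ms nc gateC gbox cell ms_pos)
open Vale.Agent.P148.R2.H592 (nbr nbr_symm ConnIn HullTri Fc comp)
open Vale.Agent.P148.R2.H959 (Jn reg)
open Vale.Agent.P148.R2.H488 (hc)
open Vale.Agent.P148.R2.H678 (core hub pin pout sd CBox inHub outHub inRim outRim hbox Ex mix mB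
  mW EJ D0 oseed inHub_mix outHub_mix mem_mix_of_not_mem mem_mix_of_mem HubV)
open Vale.Agent.P148.R2.H419 (Col EK Foot Clo)
open Vale.Agent.P148.R2.H144.Far (fo fi frim)

/-! ### dictionary -/

section dict

variable {X : Set ℂ} {b : ZMod 3 → ℂ} (h : HullTri X b) (x₀ : X)

theorem rim_frim {K : Set ℂ} {v : X} (hv : v ∈ rim (HT h x₀) (vs K) ⟨b 0, h.mem 0⟩) :
    v.1 ∈ frim X (b 0) K := by
  obtain ⟨⟨h1, l, hl, hlm⟩, g, hg, hg2⟩ := hv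
  refine ⟨⟨v.2, h1, _, hg2, ?_⟩, ?_⟩
  · have h3 := HT_nbr h x₀ g
    rw [hg] at h3
    exact h3
  · exact H112.walk_jn h x₀ (Y := X \ K) hl (fun g hg =>
      ⟨⟨Subtype.coe_prop _, (hlm g hg).1⟩, ⟨Subtype.coe_prop _, (hlm g hg).2⟩⟩)

/-- The sites of `F` with the colour `c`. -/
def Yc (F : Set ℂ) (w : X → Bool) (c : Bool) : Set ℂ := {z | z ∈ F ∧ ∃ hz : z ∈ X, w ⟨z, hz⟩ = c}

theorem joined_of_jn {F : Set ℂ} {w : X → Bool} {c : Bool} {x y : X}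
    (hxy : Jn X (Yc F w c) x.1 y.1) (hx : x.1 ∈ Yc F w c) :
    H838.Joined (HT h x₀) w c (vs F) x y := by
  obtain ⟨hx1, _, hx2⟩ := hx
  obtain ⟨l, h1, h2⟩ := HT_walk h x₀ hxy
  refine ⟨hx1, hx2, l, h1, fun g hg => ?_⟩
  obtain ⟨⟨a1, _, a2⟩, b1, _, b2⟩ := h2 g hg
  exact ⟨⟨a2, a1⟩, b2, b1⟩

end dict

/-- One step of the strand on the left side. -/
theorem src_st_cases {V D : Type*} {T : Tri V D} {σ : V → Bool} {o : D} (hb : T.Bi σ o) :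
    T.src (T.st σ o) = T.src o ∨ ∃ g, T.src g = T.src o ∧ T.tgt g = T.src (T.st σ o) := by
  rcases H112.st_step hb with ⟨h, -⟩ | ⟨h, -⟩
  · right
    refine ⟨T.rev (T.nxt (T.nxt o)), ?_, ?_⟩
    · rw [T.src_rev, T.tgt_nxt2]
    · rw [T.tgt_rev, T.src_nxt2, h]
  · exact Or.inl h

variable {M p q k : ℕ} {X Bl₁ Wh₁ Bl₂ Wh₂ : Set ℂ} {b : ZMod 3 → ℂ} {s : ℂ → Bool}

/-! ### colours of the world of the mark -/

section colours

variable (hC : Col M X b Bl₁ Wh₁ Bl₂ Wh₂ s) {w : X → Bool}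
  (hw : CalW M X (mB M X Bl₁ Wh₁ Bl₂) (mW M X Bl₁ Wh₁ Wh₂) s p q w)
include hC hw

theorem CalW.EA_off {v : X} (h0 : p + 3 ≤ q)
    (h1 : v.1 ∈ EA M X p q (mB M X Bl₁ Wh₁ Bl₂) (mW M X Bl₁ Wh₁ Wh₂))
    (h2 : v.1 ∉ Pm M X Wh₁ p) : w v = s v.1 :=
  hw.nf v (EA_sub_EC h1) (by rwa [Pm_mix]) (Set.disjoint_left.1 (Col.EA_SC hC h0) h1)

theorem CalW.EA_white {v : X} (h0 : p + 3 ≤ q)
    (h1 : v.1 ∈ EA M X p q (mB M X Bl₁ Wh₁ Bl₂) (mW M X Bl₁ Wh₁ Wh₂)) (h2 : s v.1 = false) :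
    w v = false := by
  rw [CalW.EA_off hC hw h0 h1, h2]
  intro h3
  obtain ⟨i, -, h3⟩ := mem_Pm.1 h3
  exact Col.white_off hC h1 h2 _ h3

theorem CalW.EB_flip {v : X}
    (h1 : v.1 ∈ EB M X p q (mB M X Bl₁ Wh₁ Bl₂) (mW M X Bl₁ Wh₁ Wh₂)) : w v = !s v.1 :=
  hw.fl v (EB_sub_EC h1) (Or.inr (Or.inl (Col.EB_sub hC h1)))

theorem CalW.Pm_flip {v : X} (h1 : v.1 ∈ Pm M X Wh₁ p) : w v = !s v.1 := by
  refine hw.fl v (Pm_sub_EC ?_) (Or.inl ?_) <;> rwa [Pm_mix]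

theorem CalW.Lm_flip {v : X} (h1 : v.1 ∈ Lm M X p) : w v = !s v.1 :=
  hw.fl v (Lm_sub_EC h1) (Or.inr (Or.inr h1))

theorem CalW.gbox_off {v : X} (h0 : q + 1 ≤ p + nc M) (h1 : v.1 ∈ gbox M p) :
    v.1 ∉ Jc M (p + 2) q := by
  have h4 : v.1 ∈ gbox M (p + nc M) := by rwa [N.gbox_add_nc]
  exact Set.disjoint_left.1 (gbox_Jc_disj hC.hM (p := p + 2) (q := q) (k := p + nc M) (by omega)
    (by omega)) h4

theorem CalW.Vm_off {v : X} (h0 : q + 1 ≤ p + nc M) (h1 : v.1 ∈ Vm M X p)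
    (h2 : v.1 ∉ Pm M X Wh₁ p) : w v = s v.1 := by
  refine hw.nf v (Vm_sub_EC h1) (by rwa [Pm_mix]) ?_
  rintro (h3 | h3)
  · exact CalW.gbox_off hC hw h0 (tooth_sub hC.hM p h1.2) h3
  · obtain ⟨-, i, -, h4⟩ := mem_Lm.1 h3
    exact Set.disjoint_left.1 (tooth_railin hC.hM (p + i) p) h1.2 h4

theorem CalW.hub_off {v : X} (h0 : q + 1 ≤ p + nc M) (h1 : v.1 ∈ outHub M X Bl₁ p) :
    w v = s v.1 := by
  have h5 := Col.outHub_sub hC p h1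
  refine hw.nf v (hub_sub_EC (by rwa [outHub_mix])) ?_ ?_
  · rw [Pm_mix]
    intro h2
    obtain ⟨i, -, h2⟩ := mem_Pm.1 h2
    exact Set.disjoint_left.1 (Col.hubs_disj hC (p + i) p) h2 h1
  · rintro (h3 | h3)
    · exact CalW.gbox_off hC hw h0 (hbox_pout_sub hC.hM p h5) h3
    · obtain ⟨-, i, -, h4⟩ := mem_Lm.1 h3
      exact Set.disjoint_left.1 (railin_hout hC.hM (p + i) p) h4 h5

end colours

/-! ### the chain in the plane -/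

section chain

variable (hC : Col M X b Bl₁ Wh₁ Bl₂ Wh₂ s) {w : X → Bool}
  (hw : CalW M X (mB M X Bl₁ Wh₁ Bl₂) (mW M X Bl₁ Wh₁ Wh₂) s p q w)

/-- The white explored sites of the world of the mark. -/
abbrev YE (M : ℕ) (X Bl₁ Wh₁ Bl₂ Wh₂ : Set ℂ) (p q : ℕ) (w : X → Bool) : Set ℂ :=
  Yc (EC M X p q (mB M X Bl₁ Wh₁ Bl₂) (mW M X Bl₁ Wh₁ Wh₂)) w false

include hC

theorem Col.far1 : ∀ j, 1 + ms M ≤ nsup (b j) := by
  intro j
  have := hC.far j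
  have := ms_pos hC.hM
  linarith

theorem Col.fi_black {z : ℂ} (hz : z ∈ fi M X Wh₁ (b 0) k) : s z = true :=
  hC.comb.hin' k z (H144.Far.fi_hub hz) (H678.rim_not (H144.Far.fi_rim hz))

theorem Col.fo_white {z : ℂ} (hz : z ∈ fo M X Bl₁ (b 0) k) : s z = false :=
  hC.comb.hout' k z (H144.Far.fo_hub hz) (H678.rim_not (H144.Far.fo_rim hz))

theorem Col.rail_white {z : ℂ} (hz : z ∈ Wh₂) (h : z ∉ Ex M X Bl₁ Wh₁) : s z = false :=
  (hC.cW z (hC.comb.w2 hz)).1 ((mem_mix_of_not_mem h).2 hz)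

theorem Col.rail_black {z : ℂ} (hz : z ∈ Bl₂) (h : z ∉ Ex M X Bl₁ Wh₁) : s z = true :=
  (hC.cB z (hC.comb.b2 hz)).1 ((mem_mix_of_not_mem h).2 hz)

theorem Col.off_Pm {z : ℂ} (h : z ∉ Ex M X Bl₁ Wh₁) : z ∉ Pm M X Wh₁ p := by
  intro h1
  obtain ⟨i, -, h1⟩ := mem_Pm.1 h1
  exact h (mem_iUnion.2 ⟨p + i, Or.inl h1⟩)

/-- A connected path set from the outer rim of the gate before `p` stays in the far explored set. -/
theorem Col.up_EA (h1 : q + 2 ≤ p + nc M) : ∃ x ∈ fo M X Bl₁ (b 0) (p + (nc M - 1)),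
    ∃ y ∈ fo M X Bl₁ (b 0) p,
      Jn X {z | z ∈ EA M X p q (mB M X Bl₁ Wh₁ Bl₂) (mW M X Bl₁ Wh₁ Wh₂) ∧ s z = false} x y := by
  have hM := hC.hM
  have hn := twelve_le_nc hM
  have hms := ms_pos hM
  set k := p + (nc M - 1) with hk
  have hk1 : k + 1 = p + nc M := by omega
  obtain ⟨x, hx, y, hy, hxy⟩ := H144.Far.up_fo (k := k) hC.hull hM hC.good hC.comb.w2
    (Col.far1 hC) (hC.rails' k)
  have hy' : y ∈ fo M X Bl₁ (b 0) p := by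
    rw [hk1, ← H144.Far.fo_mod, Nat.add_mod_right, H144.Far.fo_mod] at hy
    exact hy
  refine ⟨x, hx, y, hy', ?_⟩
  set E := EA M X p q (mB M X Bl₁ Wh₁ Bl₂) (mW M X Bl₁ Wh₁ Wh₂) with hE
  have hub : ∀ {j : ℕ}, q + 1 ≤ j → j ≤ p + nc M → outHub M X Bl₁ j ⊆ E := by
    intro j j1 j2 z hz
    have h3 := H678.outHub_sub_EJ (M := M) (X := X) (Bl := mB M X Bl₁ Wh₁ Bl₂)
      (Wh := mW M X Bl₁ Wh₁ Wh₂) (K := Icc (q + 1) (p + nc M)) (J := Jc M p q) (k := j) ⟨j1, j2⟩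
    rw [outHub_mix] at h3
    exact h3 hz
  have key : ∀ z, Jn X (fo M X Bl₁ (b 0) k ∪ fo M X Bl₁ (b 0) (k + 1) ∪
      ((Wh₂ ∩ CBox M (pout M k) (pout M (k + 1))) \ Ex M X Bl₁ Wh₁)) x z →
      (z ∈ E ∧ s z = false) ∧ Jn X {z | z ∈ E ∧ s z = false} x z := by
    intro z hz
    induction hz with
    | refl => exact ⟨⟨hub (by omega) (by omega) (H144.Far.fo_hub hx), Col.fo_white hC hx⟩,
        ReflTransGen.refl⟩
    | @tail a c _ hac ih =>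
      have hc : c ∈ E ∧ s c = false := by
        rcases hac.2.2 with (h3 | h3) | h3
        · exact ⟨hub (by omega) (by omega) (H144.Far.fo_hub h3), Col.fo_white hC h3⟩
        · exact ⟨hub (by omega) (by omega) (H144.Far.fo_hub h3), Col.fo_white hC h3⟩
        · refine ⟨?_, Col.rail_white hC h3.1.1 h3.2⟩
          refine H678.EJ_step ih.1.1 ((hC.cW a hac.1.1).2 ih.1.2) hac.1 ?_ ?_
          · have := (H678.cell_nsup hM (rail_out_sub hM k h3.1.2)).2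
            linarith
          · exact hc_not_Jc hM (k := k) (by omega) (by omega) (railout_hc hM k h3.1.2)
      exact ⟨hc, ih.2.tail ⟨hac.1, ih.1, hc⟩⟩
  exact (key y hxy).2

include hw

theorem Col.EA_YE (h0 : p + 3 ≤ q) {z : ℂ}
    (hz : z ∈ EA M X p q (mB M X Bl₁ Wh₁ Bl₂) (mW M X Bl₁ Wh₁ Wh₂)) (hs : s z = false) :
    z ∈ YE M X Bl₁ Wh₁ Bl₂ Wh₂ p q w :=
  ⟨EA_sub_EC hz, H678.EJ_sub_X hz, CalW.EA_white hC hw h0 (v := ⟨z, H678.EJ_sub_X hz⟩) hz hs⟩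

theorem Col.fi_YE {i : ℕ} (hi : i < 4) : fi M X Wh₁ (b 0) (p + i) ⊆
    YE M X Bl₁ Wh₁ Bl₂ Wh₂ p q w := by
  intro z hz
  have h1 : z ∈ Pm M X Wh₁ p := mem_Pm.2 ⟨i, hi, H144.Far.fi_hub hz⟩
  refine ⟨Pm_sub_EC (by rwa [Pm_mix]), H144.Far.fi_sub_X hz, ?_⟩
  rw [CalW.Pm_flip hC hw (v := ⟨z, H144.Far.fi_sub_X hz⟩) h1]
  rw [Col.fi_black hC hz]; rfl

theorem Col.fo_YE (h0 : q + 1 ≤ p + nc M) : fo M X Bl₁ (b 0) p ⊆
    YE M X Bl₁ Wh₁ Bl₂ Wh₂ p q w := by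
  intro z hz
  have h1 := H144.Far.fo_hub hz
  refine ⟨hub_sub_EC (by rwa [outHub_mix]), H144.Far.fo_sub_X hz, ?_⟩
  rw [CalW.hub_off hC hw (v := ⟨z, H144.Far.fo_sub_X hz⟩) h0 h1]
  exact Col.fo_white hC hz

/-- **The inner rims of the mark are joined in white.** -/
theorem Col.low_YE {x y : ℂ} (hx : x ∈ fi M X Wh₁ (b 0) p) (hy : y ∈ fi M X Wh₁ (b 0) (p + 3)) :
    Jn X (YE M X Bl₁ Wh₁ Bl₂ Wh₂ p q w) x y := by
  refine (H144.Far.low_joined (Bl₂ := Bl₂) hC.hull hC.hM hC.good hC.comb.b2 (Col.far1 hC)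
    (show p ≤ p + 3 by omega) (fun k _ _ => hC.rails' k) hx hy).mono ?_
  rintro z (hz | hz)
  · obtain ⟨k, hk, hz⟩ := mem_iUnion₂.1 hz
    obtain ⟨i, rfl⟩ := Nat.exists_eq_add_of_le hk.1
    exact Col.fi_YE hC hw (by have := hk.2; omega) hz
  · obtain ⟨k, hk, hz⟩ := mem_iUnion₂.1 hz
    obtain ⟨i, rfl⟩ := Nat.exists_eq_add_of_le hk.1
    have hzX : z ∈ X := hC.comb.b2 hz.1.1
    have h1 : z ∈ Lm M X p := mem_Lm.2 ⟨hzX, i, by have := hk.2; omega, hz.1.2⟩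
    refine ⟨Lm_sub_EC h1, hzX, ?_⟩
    rw [CalW.Lm_flip hC hw (v := ⟨z, hzX⟩) h1]
    rw [Col.rail_black hC hz.1.1 hz.2]; rfl

/-- **The tooth of the mark.** -/
theorem Col.tooth_YE (h0 : q + 1 ≤ p + nc M) : ∃ x ∈ fi M X Wh₁ (b 0) p,
    ∃ y ∈ fo M X Bl₁ (b 0) p, Jn X (YE M X Bl₁ Wh₁ Bl₂ Wh₂ p q w) x y := by
  have hT : H678.Tooth M X Wh₂ p := by
    rw [← H678.tooth_mod]
    exact hC.comb.tooth _ (Nat.mod_lt _ (H565.nc_pos M))
  obtain ⟨n, v, hn, h1, h2, h3, h4, h5⟩ := H144.Far.tooth_path hC.hull hC.hM hC.good hC.comb.w2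
    (Col.far1 hC) hT
  refine ⟨v 0, h2, v n, h3, H144.Far.jn_path h1 fun i hi => ?_⟩
  rcases Nat.eq_zero_or_pos i with rfl | hi0
  · exact Col.fi_YE hC hw (i := 0) (by omega) h2
  · rcases hi.lt_or_eq with hi1 | rfl
    · have hX : v i ∈ X := hC.comb.w2 (h4 i hi0 hi1).1
      have hV : v i ∈ Vm M X p := ⟨hX, h5 i hi⟩
      refine ⟨Vm_sub_EC hV, hX, ?_⟩
      rw [CalW.Vm_off hC hw (v := ⟨v i, hX⟩) h0 hV (Col.off_Pm hC (h4 i hi0 hi1).2)]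
      exact Col.rail_white hC (h4 i hi0 hi1).1 (h4 i hi0 hi1).2
    · exact Col.fo_YE hC hw h0 h3

/-- **The chain**: from the far outer rim of the gate before `p` to the far inner rim of the gate
`p + 3`. -/
theorem Col.chain_YE (h0 : p + 3 ≤ q) (h1 : q + 2 ≤ p + nc M) {x y : ℂ}
    (hx : x ∈ fo M X Bl₁ (b 0) (p + (nc M - 1))) (hy : y ∈ fi M X Wh₁ (b 0) (p + 3)) :
    Jn X (YE M X Bl₁ Wh₁ Bl₂ Wh₂ p q w) x y := by
  have hM := hC.hM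
  have hn := twelve_le_nc hM
  obtain ⟨a, ha, c, hc, hac⟩ := Col.up_EA hC h1
  obtain ⟨e, he, f, hf, hef⟩ := Col.tooth_YE hC hw (by omega)
  have e1 : Jn X (YE M X Bl₁ Wh₁ Bl₂ Wh₂ p q w) x a := by
    refine (H144.Far.fo_conn hC.hull hx ha).mono fun z hz => ?_
    refine Col.EA_YE hC hw h0 ?_ (Col.fo_white hC hz)
    have h3 := H678.outHub_sub_EJ (M := M) (X := X) (Bl := mB M X Bl₁ Wh₁ Bl₂)
      (Wh := mW M X Bl₁ Wh₁ Wh₂) (K := Icc (q + 1) (p + nc M)) (J := Jc M p q)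
      (k := p + (nc M - 1)) ⟨by omega, by omega⟩
    rw [outHub_mix] at h3
    exact h3 (H144.Far.fo_hub hz)
  have e2 : Jn X (YE M X Bl₁ Wh₁ Bl₂ Wh₂ p q w) a c :=
    hac.mono fun z hz => Col.EA_YE hC hw h0 hz.1 hz.2
  have e3 : Jn X (YE M X Bl₁ Wh₁ Bl₂ Wh₂ p q w) c f :=
    (H144.Far.fo_conn hC.hull hc hf).mono (Col.fo_YE hC hw (by omega))
  exact ((e1.trans e2).trans (e3.trans hef.symm)).trans (Col.low_YE hC hw he hy)

end chain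

end Vale.Agent.P148.R2.H995
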