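import Vale.Agent.P148.R2.H995.CalE3

/-!
# P148, row CAL (C5): the strand in the world of the mark

`Str` : the closed strand of the comb with its times.
* `Str.see` : what the strand sees in a range of pieces which avoid `J` is explored
* `Str.far` : on the pieces `q + 1, …, p + nc M - 2` the colours are unchanged
* `Str.arc` : on the pieces `p + 3, …, q - 2` the colours are flipped
* `Str.link` : the chain of whites
* `Str.cover` : all the other times are near the two marks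
-/

open Set Relation Metric Function

namespace Vale.Agent.P148.R2.H995

open Vale.Agent.P148.R2.H258 Vale.Agent.P148.R2.H565
open Vale.Agent.P148.R2.N (ms nc gateC gbox cell ms_pos)
open Vale.Agent.P148.R2.H592 (nbr nbr_symm ConnIn HullTri Fc comp)
open Vale.Agent.P148.R2.H959 (Jn reg)
open Vale.Agent.P148.R2.H488 (hc)
open Vale.Agent.P148.R2.H678 (core hub pin pout sd CBox inHub outHub inRim outRim hbox Ex mix mB
  mW EJ D0 oseed inHub_mix outHub_mix mem_mix_of_not_mem mem_mix_of_mem HubV)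
open Vale.Agent.P148.R2.H419 (Col EK Foot Clo)
open Vale.Agent.P148.R2.H144.Far (fo fi frim)

variable {M p q k : ℕ} {X Bl₁ Wh₁ Bl₂ Wh₂ : Set ℂ} {b : ZMod 3 → ℂ} {s : ℂ → Bool}

/-- The closed strand of the comb with its times. -/
structure Str (hC : Col M X b Bl₁ Wh₁ Bl₂ Wh₂ s) (x₀ : X) (d : ℕ → Fc X b × ZMod 3) (t : ℕ → ℕ) :
    Prop where
  foot : ∀ k, Foot hC.hull x₀ M Bl₁ Wh₁ s k (d k)
  bi : (HT hC.hull x₀).Bi (fun v => s v.1) (d 0)
  inc : ∀ k, t k < t (k + 1)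
  hit : ∀ k, ((HT hC.hull x₀).st (fun v => s v.1))^[t k] (d 0) = d k
  seen : ∀ k n, t k ≤ n → n < t (k + 1) →
    (HT hC.hull x₀).src (((HT hC.hull x₀).st (fun v => s v.1))^[n] (d 0)) ∈ vs (reg M k) ∧
    (HT hC.hull x₀).tgt (((HT hC.hull x₀).st (fun v => s v.1))^[n] (d 0)) ∈ vs (reg M k) ∧
    (HT hC.hull x₀).apex (((HT hC.hull x₀).st (fun v => s v.1))^[n] (d 0)) ∈ vs (reg M k)

/-- Every choice of the feet has its strand. -/
theorem exists_str (hC : Col M X b Bl₁ Wh₁ Bl₂ Wh₂ s) {i₀ : ℂ} (hi₀ : i₀ ∈ X)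
    (hin : nsup i₀ ≤ 1 - ms M / 8) (x₀ : X) {d : ℕ → Fc X b × ZMod 3}
    (hdp : ∀ k, d (k + nc M) = d k) (hd : ∀ k, Foot hC.hull x₀ M Bl₁ Wh₁ s k (d k)) :
    ∃ t, LoopT (HT hC.hull x₀) (fun v => s v.1) (nc M) (d 0) t ∧ Str hC x₀ d t := by
  obtain ⟨P, Q, -, -, t, h1, h2, h3⟩ := H112.comb_loop hC hi₀ hin x₀ hdp hd
  exact ⟨t, h1, hd, h1.bi, h1.inc, h2, h3⟩

namespace Str

variable {hC : Col M X b Bl₁ Wh₁ Bl₂ Wh₂ s} {x₀ : X} {d : ℕ → Fc X b × ZMod 3} {t : ℕ → ℕ}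
  (h : Str hC x₀ d t)
include h

theorem strictMono : StrictMono t := strictMono_nat_of_lt_succ h.inc

theorem mono {j k : ℕ} (hjk : j ≤ k) : t j ≤ t k := h.strictMono.monotone hjk

/-- The piece of a time. -/
theorem piece {k₀ k₁ n : ℕ} (h1 : t k₀ ≤ n) (h2 : n < t k₁) :
    ∃ k, k₀ ≤ k ∧ k < k₁ ∧ t k ≤ n ∧ n < t (k + 1) := by
  induction k₁ with
  | zero => have := h.mono (Nat.zero_le k₀); omega
  | succ k₁ ih =>
    rcases Nat.lt_or_ge n (t k₁) with h3 | h3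
    · obtain ⟨k, a, b, c⟩ := ih h3
      exact ⟨k, a, by omega, c⟩
    · refine ⟨k₁, ?_, by omega, h3, h2⟩
      by_contra hc
      have := h.mono (show k₁ + 1 ≤ k₀ by omega)
      omega

theorem tgt_gbox (k : ℕ) : (((HT hC.hull x₀).tgt (d k) : X) : ℂ) ∈ gbox M k := (h.foot k).2.2.1

theorem src_gbox (k : ℕ) : (((HT hC.hull x₀).src (d k) : X) : ℂ) ∈ gbox M k :=
  Foot.src_gbox hC (h.foot k)

/-- Positions in a range of pieces. -/
theorem pos {k₀ k₁ n : ℕ} (h0 : k₀ < k₁) (h1 : t k₀ ≤ n) (h2 : n ≤ t k₁) :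
    ∃ k, k₀ ≤ k ∧ k < k₁ ∧
      (((HT hC.hull x₀).src (((HT hC.hull x₀).st (fun v => s v.1))^[n] (d 0)) : X) : ℂ) ∈ reg M k ∧
      (((HT hC.hull x₀).tgt (((HT hC.hull x₀).st (fun v => s v.1))^[n] (d 0)) : X) : ℂ) ∈
        reg M k := by
  rcases h2.lt_or_eq with h3 | h3
  · obtain ⟨k, a1, a2, a3, a4⟩ := h.piece h1 h3
    obtain ⟨b1, b2, -⟩ := h.seen k n a3 a4
    exact ⟨k, a1, a2, b1, b2⟩
  · have h5 : k₁ - 1 + 1 = k₁ := by omega
    refine ⟨k₁ - 1, by omega, by omega, ?_, ?_⟩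
    · rw [h3, h.hit]
      apply H959.gbox_succ_subset_reg hC.hM
      rw [h5]
      exact h.src_gbox k₁
    · rw [h3, h.hit]
      apply H959.gbox_succ_subset_reg hC.hM
      rw [h5]
      exact h.tgt_gbox k₁

theorem src_black (n : ℕ) :
    s ((HT hC.hull x₀).src (((HT hC.hull x₀).st (fun v => s v.1))^[n] (d 0)) : X) = true := by
  have h1 := (HT hC.hull x₀).col_src_iter (fun v => s v.1) (d 0) n
  exact h1.trans (Foot.src_black hC (h.foot 0))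

theorem tgt_white (n : ℕ) :
    s ((HT hC.hull x₀).tgt (((HT hC.hull x₀).st (fun v => s v.1))^[n] (d 0)) : X) = false := by
  have h1 := (HT hC.hull x₀).col_tgt_iter (fun v => s v.1) (d 0) n
  exact h1.trans (h.foot 0).2.1

/-- **What the strand sees in pieces which avoid `J` is explored.** -/
theorem see {K : Set ℕ} {J : Set ℂ} {k₀ k₁ : ℕ} (hk : k₀ ∈ K) (hg : Disjoint (gbox M k₀) J)
    (hreg : ∀ k, k₀ ≤ k → k < k₁ → Disjoint (reg M k) J) {n : ℕ} (h1 : t k₀ ≤ n)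
    (h2 : n ≤ t k₁) :
    (HT hC.hull x₀).tgt (((HT hC.hull x₀).st (fun v => s v.1))^[n] (d 0)) ∈
        vs {z | z ∈ EK M X Bl₁ Wh₁ Bl₂ Wh₂ K J ∧ s z = false} ∧
      (HT hC.hull x₀).src (((HT hC.hull x₀).st (fun v => s v.1))^[n] (d 0)) ∈
        vs (EK M X Bl₁ Wh₁ Bl₂ Wh₂ K J) ∧
      H838.Joined (HT hC.hull x₀) (fun v => s v.1) false
        (vs {z | z ∈ EK M X Bl₁ Wh₁ Bl₂ Wh₂ K J ∧ s z = false}) ((HT hC.hull x₀).tgt (d k₀))
        ((HT hC.hull x₀).tgt (((HT hC.hull x₀).st (fun v => s v.1))^[n] (d 0))) := by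
  have hms := ms_pos hC.hM
  have hregA : ∀ {A : Set ℂ}, A ⊆ {z | nsup z < 1 + 5 * ms M / 8} → Disjoint A J →
      ∀ v : X, v.1 ∈ A → v ∈ vs (D0 M X \ J) := by
    intro A hA hJ v hv
    have := hA hv
    have h3 : nsup v.1 < 1 + 5 * ms M / 8 := this
    exact ⟨⟨v.2, by linarith⟩, Set.disjoint_left.1 hJ hv⟩
  have hgA : (gbox M k₀) ⊆ {z | nsup z < 1 + 5 * ms M / 8} := fun z hz =>
    (H678.gbox_nsup hC.hM hz).2
  have hout : outHub M X Bl₁ k₀ ⊆ EK M X Bl₁ Wh₁ Bl₂ Wh₂ K J := by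
    have h3 := H678.outHub_sub_EJ (M := M) (X := X) (Bl := mB M X Bl₁ Wh₁ Bl₂)
      (Wh := mW M X Bl₁ Wh₁ Wh₂) (K := K) (J := J) (k := k₀) hk
    rwa [outHub_mix] at h3
  have h0 := Foot.tgt_mem hC (h.foot k₀) (K := K) (J := J) (Bl₂ := Bl₂) (Wh₂ := Wh₂) hout hg
  have hA : ∀ i, t k₀ ≤ i → i ≤ t k₁ →
      (HT hC.hull x₀).src (((HT hC.hull x₀).st (fun v => s v.1))^[i] (d 0)) ∈ vs (D0 M X \ J) ∧
      (HT hC.hull x₀).tgt (((HT hC.hull x₀).st (fun v => s v.1))^[i] (d 0)) ∈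
        vs (D0 M X \ J) := by
    intro i i1 i2
    rcases Nat.lt_or_ge k₀ k₁ with h3 | h3
    · obtain ⟨k, a1, a2, a3, a4⟩ := h.pos h3 i1 i2
      have h4 : reg M k ⊆ {z | nsup z < 1 + 5 * ms M / 8} := fun z hz =>
        (H959.reg_nsup hC.hM hz).2
      exact ⟨hregA h4 (hreg k a1 a2) _ a3, hregA h4 (hreg k a1 a2) _ a4⟩
    · have h4 : i = t k₀ := by have := h.mono h3; omega
      rw [h4, h.hit]
      exact ⟨hregA hgA hg _ (h.src_gbox k₀), hregA hgA hg _ (h.tgt_gbox k₀)⟩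
  have h5 := (hC.clo x₀ K J).hug h.bi (h.foot 0).2.1 (i₀ := t k₀) (i₁ := t k₁) hA
    (by rw [h.hit]; exact h0) n h1 h2
  rw [h.hit] at h5
  exact h5

/-! ### the world of the mark -/

section world

variable {w : X → Bool} (hw : CalW M X (mB M X Bl₁ Wh₁ Bl₂) (mW M X Bl₁ Wh₁ Wh₂) s p q w)
  (h0 : p + 3 ≤ q) (h1 : q + 2 ≤ p + nc M)
include hw h0 h1

omit hw in
theorem far_see {n : ℕ} (n1 : t (q + 1) ≤ n) (n2 : n ≤ t (p + (nc M - 1))) :
    (HT hC.hull x₀).tgt (((HT hC.hull x₀).st (fun v => s v.1))^[n] (d 0)) ∈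
        vs {z | z ∈ EA M X p q (mB M X Bl₁ Wh₁ Bl₂) (mW M X Bl₁ Wh₁ Wh₂) ∧ s z = false} ∧
      (HT hC.hull x₀).src (((HT hC.hull x₀).st (fun v => s v.1))^[n] (d 0)) ∈
        vs (EA M X p q (mB M X Bl₁ Wh₁ Bl₂) (mW M X Bl₁ Wh₁ Wh₂)) ∧
      H838.Joined (HT hC.hull x₀) (fun v => s v.1) false
        (vs {z | z ∈ EA M X p q (mB M X Bl₁ Wh₁ Bl₂) (mW M X Bl₁ Wh₁ Wh₂) ∧ s z = false})
        ((HT hC.hull x₀).tgt (d (q + 1)))
        ((HT hC.hull x₀).tgt (((HT hC.hull x₀).st (fun v => s v.1))^[n] (d 0))) := by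
  have hn := twelve_le_nc hC.hM
  exact h.see (K := Icc (q + 1) (p + nc M)) (J := Jc M p q) (k₀ := q + 1)
    (k₁ := p + (nc M - 1)) ⟨le_rfl, by omega⟩ (gbox_Jc_disj hC.hM le_rfl (by omega))
    (fun k k1 k2 => reg_Jc_disj hC.hM k1 (by omega)) n1 n2

omit hw in
theorem far_Pm {n : ℕ} (n1 : t (q + 1) ≤ n) (n2 : n ≤ t (p + (nc M - 1))) :
    (((HT hC.hull x₀).src (((HT hC.hull x₀).st (fun v => s v.1))^[n] (d 0)) : X) : ℂ) ∉
      Pm M X Wh₁ p := by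
  have hn := twelve_le_nc hC.hM
  rcases Nat.lt_or_ge (q + 1) (p + (nc M - 1)) with h2 | h2
  · obtain ⟨k, k1, k2, k3, -⟩ := h.pos h2 n1 n2
    exact Set.disjoint_left.1 (Col.reg_Pm hC h0 k1 (by omega)) k3
  · have h3 : q + 1 = p + (nc M - 1) := by omega
    have h4 : n = t (q + 1) := by rw [← h3] at n2; omega
    rw [h4, h.hit]
    intro h5
    obtain ⟨i, hi, h6⟩ := Col.Pm_gbox hC h5
    have h7 := h.src_gbox (q + 1)
    -- different gates
    rw [← N.gbox_mod] at h6 h7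
    refine Set.disjoint_left.1 (N.disjoint_gbox hC.hM (H678.mod_nc_lt M _) (H678.mod_nc_lt M _)
      ?_) h6 h7
    intro h8
    have h9 := Nat.sub_mod_eq_zero_of_mod_eq h8.symm
    rw [Nat.mod_eq_of_lt (by omega)] at h9
    omega

/-- **Far side**: the colours of the strand are unchanged, its right vertices are joined in white. -/
theorem far {n : ℕ} (n1 : t (q + 1) ≤ n) (n2 : n ≤ t (p + (nc M - 1))) :
    w ((HT hC.hull x₀).src (((HT hC.hull x₀).st (fun v => s v.1))^[n] (d 0))) = true ∧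
    w ((HT hC.hull x₀).tgt (((HT hC.hull x₀).st (fun v => s v.1))^[n] (d 0))) = false ∧
    H838.Joined (HT hC.hull x₀) w false
      (vs (EC M X p q (mB M X Bl₁ Wh₁ Bl₂) (mW M X Bl₁ Wh₁ Wh₂)))
      ((HT hC.hull x₀).tgt (d (q + 1)))
      ((HT hC.hull x₀).tgt (((HT hC.hull x₀).st (fun v => s v.1))^[n] (d 0))) := by
  obtain ⟨a1, a2, a3⟩ := h.far_see h0 h1 n1 n2
  refine ⟨?_, CalW.EA_white hC hw h0 a1.1 a1.2, ?_⟩
  · rw [CalW.EA_off hC hw h0 a2 (h.far_Pm h0 h1 n1 n2)]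
    exact h.src_black n
  · refine (a3.congr fun v hv => ?_).mono fun v hv => EA_sub_EC hv.1
    exact (CalW.EA_white hC hw h0 hv.1 hv.2).trans hv.2.symm

omit h1 in
/-- **Arc side**: the colours of the strand are flipped, its left vertices are joined in white. -/
theorem arc {n : ℕ} (n1 : t (p + 3) ≤ n) (n2 : n ≤ t (q - 1)) (h2 : p + 4 ≤ q) :
    w ((HT hC.hull x₀).src (((HT hC.hull x₀).st (fun v => s v.1))^[n] (d 0))) = false ∧
    w ((HT hC.hull x₀).tgt (((HT hC.hull x₀).st (fun v => s v.1))^[n] (d 0))) = true ∧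
    (((HT hC.hull x₀).src (((HT hC.hull x₀).st (fun v => s v.1))^[n] (d 0)) : X) : ℂ) ∈
      EB M X p q (mB M X Bl₁ Wh₁ Bl₂) (mW M X Bl₁ Wh₁ Wh₂) ∧
    (((HT hC.hull x₀).tgt (((HT hC.hull x₀).st (fun v => s v.1))^[n] (d 0)) : X) : ℂ) ∈
      EB M X p q (mB M X Bl₁ Wh₁ Bl₂) (mW M X Bl₁ Wh₁ Wh₂) := by
  have key : ∀ {A : Set ℂ}, A ⊆ Jc M (p + 2) q → Disjoint A (Jc M (p + 2) q)ᶜ := fun {A} hA =>
    Set.disjoint_left.2 fun z hz hz2 => hz2 (hA hz)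
  obtain ⟨a1, a2, -⟩ := h.see (K := Ico (p + 3) q) (J := (Jc M (p + 2) q)ᶜ) (k₀ := p + 3)
    (k₁ := q - 1) ⟨le_rfl, by omega⟩ (key (gbox_sub_Jc hC.hM (by omega) (by omega)))
    (fun k k1 k2 => key (reg_sub_Jc hC.hM (by omega) (by omega))) n1 n2
  have b1 : (((HT hC.hull x₀).src (((HT hC.hull x₀).st (fun v => s v.1))^[n] (d 0)) : X) : ℂ) ∈
      EB M X p q (mB M X Bl₁ Wh₁ Bl₂) (mW M X Bl₁ Wh₁ Wh₂) := a2
  have b2 : (((HT hC.hull x₀).tgt (((HT hC.hull x₀).st (fun v => s v.1))^[n] (d 0)) : X) : ℂ) ∈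
      EB M X p q (mB M X Bl₁ Wh₁ Bl₂) (mW M X Bl₁ Wh₁ Wh₂) := a1.1
  refine ⟨?_, ?_, b1, b2⟩
  · rw [CalW.EB_flip hC hw b1, h.src_black n]; rfl
  · rw [CalW.EB_flip hC hw b2, h.tgt_white n]; rfl

omit h1 in
theorem arc_joined (h2 : p + 4 ≤ q) {n : ℕ} (n1 : t (p + 3) ≤ n) (n2 : n ≤ t (q - 1)) :
    H838.Joined (HT hC.hull x₀) w false
      (vs (EC M X p q (mB M X Bl₁ Wh₁ Bl₂) (mW M X Bl₁ Wh₁ Wh₂)))
      ((HT hC.hull x₀).src (d (p + 3)))
      ((HT hC.hull x₀).src (((HT hC.hull x₀).st (fun v => s v.1))^[n] (d 0))) := by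
  have hmem : ∀ m, t (p + 3) ≤ m → m ≤ t (q - 1) →
      (HT hC.hull x₀).src (((HT hC.hull x₀).st (fun v => s v.1))^[m] (d 0)) ∈
        (vs (EC M X p q (mB M X Bl₁ Wh₁ Bl₂) (mW M X Bl₁ Wh₁ Wh₂)) : Set X) ∧
      w ((HT hC.hull x₀).src (((HT hC.hull x₀).st (fun v => s v.1))^[m] (d 0))) = false :=
    fun m m1 m2 => ⟨EB_sub_EC (h.arc hw h0 m1 m2 h2).2.2.1, (h.arc hw h0 m1 m2 h2).1⟩
  induction n, n1 using Nat.le_induction with
  | base =>
    have h3 := hmem (t (p + 3)) le_rfl n2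
    rw [h.hit] at h3 ⊢
    exact H838.Joined.refl h3.1 h3.2
  | succ n n1 ih =>
    have h3 := ih (by omega)
    have h4 := hmem (n + 1) (by omega) n2
    have hb : (HT hC.hull x₀).Bi (fun v => s v.1)
        (((HT hC.hull x₀).st (fun v => s v.1))^[n] (d 0)) :=
      ((HT hC.hull x₀).bi_iter n).2 h.bi
    rw [iterate_succ', comp_apply] at h4 ⊢
    rcases src_st_cases hb with h5 | ⟨g, g1, g2⟩
    · rw [h5]; exact h3
    · exact h3.trans (H838.Joined.cons g1 g2 h3.right.1 h3.right.2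
        (H838.Joined.refl h4.1 h4.2))

/-- **The chain of whites**: from the right vertices of the far side to the left vertices of the arc. -/
theorem link (h2 : p + 4 ≤ q) : H838.Joined (HT hC.hull x₀) w false
      (vs (EC M X p q (mB M X Bl₁ Wh₁ Bl₂) (mW M X Bl₁ Wh₁ Wh₂)))
      ((HT hC.hull x₀).tgt (d (p + (nc M - 1)))) ((HT hC.hull x₀).src (d (p + 3))) := by
  have hn := twelve_le_nc hC.hM
  set k := p + (nc M - 1) with hk
  have hms := ms_pos hC.hM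
  -- the foot of the gate before `p`
  have hf := h.foot k
  have h3 : outHub M X Bl₁ k ⊆ EA M X p q (mB M X Bl₁ Wh₁ Bl₂) (mW M X Bl₁ Wh₁ Wh₂) := by
    have h3 := H678.outHub_sub_EJ (M := M) (X := X) (Bl := mB M X Bl₁ Wh₁ Bl₂)
      (Wh := mW M X Bl₁ Wh₁ Wh₂) (K := Icc (q + 1) (p + nc M)) (J := Jc M p q) (k := k)
      ⟨by omega, by omega⟩
    rwa [outHub_mix] at h3
  have hg : Disjoint (gbox M k) (Jc M p q) := gbox_Jc_disj hC.hM (by omega) (by omega)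
  have h4 := Foot.tgt_mem hC hf (K := Icc (q + 1) (p + nc M)) (J := Jc M p q) (Bl₂ := Bl₂)
    (Wh₂ := Wh₂) h3 hg
  obtain ⟨-, f2, f3, y, hy, l, hl, hlm⟩ := hf
  have h5 := (hC.clo x₀ (Icc (q + 1) (p + nc M)) (Jc M p q)).joined hl h4 f2 (fun g hg' => by
    refine ⟨⟨⟨Subtype.coe_prop _, ?_⟩, Set.disjoint_left.1 hg (hlm g hg').2⟩, (hlm g hg').1⟩
    have := (H678.gbox_nsup hC.hM (hlm g hg').2).2
    linarith)
  have h6 : H838.Joined (HT hC.hull x₀) w false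
      (vs (EC M X p q (mB M X Bl₁ Wh₁ Bl₂) (mW M X Bl₁ Wh₁ Wh₂)))
      ((HT hC.hull x₀).tgt (d k)) y := by
    refine (h5.congr fun v hv => ?_).mono fun v hv => EA_sub_EC hv.1
    exact (CalW.EA_white hC hw h0 hv.1 hv.2).trans hv.2.symm
  have hyf : y.1 ∈ fo M X Bl₁ (b 0) k := rim_frim hC.hull x₀ hy
  have hzf : (((HT hC.hull x₀).src (d (p + 3)) : X) : ℂ) ∈ fi M X Wh₁ (b 0) (p + 3) :=
    rim_frim hC.hull x₀ (h.foot (p + 3)).1
  have h7 := Col.chain_YE hC hw h0 h1 hyf hzf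
  refine h6.trans (joined_of_jn hC.hull x₀ h7 ?_)
  exact Col.EA_YE hC hw h0 (h3 (H144.Far.fo_hub hyf)) (Col.fo_white hC hyf)

/-- **The right vertices of the far side are joined in white to the left vertices of the arc.** -/
theorem joined (h2 : p + 4 ≤ q) {n m : ℕ} (n1 : t (q + 1) ≤ n) (n2 : n ≤ t (p + (nc M - 1)))
    (m1 : t (p + 3) ≤ m) (m2 : m ≤ t (q - 1)) : H838.Joined (HT hC.hull x₀) w false
      (vs (EC M X p q (mB M X Bl₁ Wh₁ Bl₂) (mW M X Bl₁ Wh₁ Wh₂)))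
      ((HT hC.hull x₀).src (((HT hC.hull x₀).st (fun v => s v.1))^[m] (d 0)))
      ((HT hC.hull x₀).tgt (((HT hC.hull x₀).st (fun v => s v.1))^[n] (d 0))) := by
  have hn := twelve_le_nc hC.hM
  have e1 := (h.far hw h0 h1 n1 n2).2.2
  have e2 := (h.far hw h0 h1 (n := t (p + (nc M - 1))) (h.mono (by omega)) le_rfl).2.2
  rw [h.hit] at e2
  exact ((h.arc_joined hw h0 h2 m1 m2).symm.trans
    ((h.link hw h0 h1 h2).symm.trans (e2.symm.trans e1)))

/-- **Members of the far side stay members.** -/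
theorem far_mi {n : ℕ} (n1 : t (q + 1) ≤ n) (n2 : n + 1 ≤ t (p + (nc M - 1)))
    (hm : (HT hC.hull x₀).Mi (fun v => s v.1)
      (((HT hC.hull x₀).st (fun v => s v.1))^[n] (d 0))) :
    (HT hC.hull x₀).Mi w (((HT hC.hull x₀).st (fun v => s v.1))^[n] (d 0)) := by
  obtain ⟨a1, a2, -⟩ := h.far hw h0 h1 n1 (by omega)
  obtain ⟨b1, -, -⟩ := h.far hw h0 h1 (n := n + 1) (by omega) n2
  rw [iterate_succ', comp_apply, (HT hC.hull x₀).src_st_mi hm] at b1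
  refine ⟨?_, ?_⟩
  · rw [a1, a2]; decide
  · rw [a1, b1]

omit hw in
/-- **All the other times are near the two marks.** -/
theorem cover {n : ℕ} (n1 : t p ≤ n) (n2 : n < t (p + nc M)) :
    (t (p + 3) ≤ n ∧ n < t (q - 1)) ∨ (t (q + 1) ≤ n ∧ n < t (p + (nc M - 1))) ∨
    ∃ g, (g = p ∨ g = q) ∧ ∀ x ∈
      ({(HT hC.hull x₀).src (((HT hC.hull x₀).st (fun v => s v.1))^[n] (d 0)),
        (HT hC.hull x₀).tgt (((HT hC.hull x₀).st (fun v => s v.1))^[n] (d 0)),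
        (HT hC.hull x₀).apex (((HT hC.hull x₀).st (fun v => s v.1))^[n] (d 0))} : Set X),
      x.1 ∈ ball (gateC M g) (7 * ms M) := by
  have hn := twelve_le_nc hC.hM
  have hms := ms_pos hC.hM
  obtain ⟨k, k1, k2, k3, k4⟩ := h.piece n1 n2
  obtain ⟨s1, s2, s3⟩ := h.seen k n k3 k4
  have near : ∀ {g j : ℕ}, j ≤ g + 2 → g ≤ j + 2 → reg M j = reg M k →
      ∀ x ∈
      ({(HT hC.hull x₀).src (((HT hC.hull x₀).st (fun v => s v.1))^[n] (d 0)),
        (HT hC.hull x₀).tgt (((HT hC.hull x₀).st (fun v => s v.1))^[n] (d 0)),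
        (HT hC.hull x₀).apex (((HT hC.hull x₀).st (fun v => s v.1))^[n] (d 0))} : Set X),
      x.1 ∈ ball (gateC M g) (7 * ms M) := by
    intro g j g1 g2 hjk x hx
    have hb : reg M k ⊆ ball (gateC M g) (7 * ms M) := by
      rw [← hjk]
      exact reg_ball hC.hM g1 g2 (by linarith)
    rcases hx with rfl | rfl | rfl
    · exact hb s1
    · exact hb s2
    · exact hb s3
  rcases (show k ≤ p + 2 ∨ (p + 3 ≤ k ∧ k + 2 ≤ q) ∨ (p + 3 ≤ k ∧ q ≤ k + 1 ∧ k ≤ q) ∨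
      (q + 1 ≤ k ∧ k + 2 ≤ p + nc M) ∨ k + 1 = p + nc M by omega) with c | c | c | c | c
  · exact Or.inr (Or.inr ⟨p, Or.inl rfl, near c (by omega) rfl⟩)
  · refine Or.inl ⟨(h.mono c.1).trans k3, lt_of_lt_of_le k4 (h.mono (by omega))⟩
  · exact Or.inr (Or.inr ⟨q, Or.inr rfl, near (by omega) (by omega) rfl⟩)
  · exact Or.inr (Or.inl ⟨(h.mono c.1).trans k3, lt_of_lt_of_le k4 (h.mono (by omega))⟩)
  · refine Or.inr (Or.inr ⟨p, Or.inl rfl, ?_⟩)
    -- the piece before `p`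
    have hb : reg M k ⊆ ball (gateC M p) (7 * ms M) := by
      have h5 := reg_ball (p := p + nc M) (k := k) hC.hM (r := 7 * ms M) (by omega) (by omega)
        (by linarith)
      have h6 : gateC M (p + nc M) = gateC M p := by
        have e1 := H565.pin_add_nc M p
        have e2 := H565.pout_add_nc M p
        have e3 : ∀ j, gateC M j = (pin M j + pout M j) / 2 := by
          intro j
          unfold pin pout
          ring
        rw [e3, e3, e1, e2]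
      rwa [h6] at h5
    intro x hx
    rcases hx with rfl | rfl | rfl
    · exact hb s1
    · exact hb s2
    · exact hb s3

end world

end Str

end Vale.Agent.P148.R2.H995
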