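import Vale.Agent.P148.R2.H678.CombDef

/-!
# P148, row N1/N2: the real-number geometry of the comb gates
-/

open Set Metric Complex
open scoped ComplexConjugate

namespace Vale.Agent.P148.R2.H995

open Vale.Agent.P148.R2.N Vale.Agent.P148.R2.H678

variable {M k l : ℕ}

theorem sd_pos (hM : 0 < M) : 0 < sd M := by
  have := ms_pos hM
  unfold sd; positivity

/-! ### rotations -/

theorem nsup_I_mul (w : ℂ) : nsup (I * w) = nsup w := by
  simp [nsup, Complex.mul_re, Complex.mul_im, max_comm]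

theorem hbox_rot (s : ℕ) {z w : ℂ} : I ^ s * w ∈ hbox M (I ^ s * z) ↔ w ∈ hbox M z := by
  induction s with
  | zero => simp
  | succ s ih =>
    rw [← ih]
    show nsup (I ^ (s + 1) * w - I ^ (s + 1) * z) ≤ hb M ↔ nsup (I ^ s * w - I ^ s * z) ≤ hb M
    rw [show I ^ (s + 1) * w - I ^ (s + 1) * z = I * (I ^ s * w - I ^ s * z) by ring, nsup_I_mul]

theorem cio_mul {c : ℂ} (hc : ‖c‖ = 1) (z z' : ℂ) : cio (c * z) (c * z') = conj c * cio z z' := by
  unfold cio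
  rw [← mul_sub, map_mul, norm_mul, hc, one_mul, mul_div_assoc]

theorem cbox_rot (s : ℕ) {A B w : ℂ} : I ^ s * w ∈ CBox M (I ^ s * A) (I ^ s * B) ↔
    w ∈ CBox M A B := by
  have hc : ‖(I : ℂ) ^ s‖ = 1 := by rw [norm_pow, norm_I, one_pow]
  have h1 : conj ((I : ℂ) ^ s) * I ^ s = 1 := by
    rw [← Complex.normSq_eq_conj_mul_self, Complex.normSq_eq_norm_sq, hc]; simp
  unfold CBox Box
  rw [mem_ofPred_eq, mem_ofPred_eq, cio_mul hc, ← mul_sub, ← mul_sub, norm_mul, hc, one_mul,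
    show conj ((I : ℂ) ^ s) * cio A B * (I ^ s * (w - A)) =
      (conj ((I : ℂ) ^ s) * I ^ s) * (cio A B * (w - A)) by ring, h1, one_mul]

/-- Membership in a corridor of direction `e`. -/
theorem mem_cbox {e : ℂ} {d : ℝ} (hd : 0 < d) (he : ‖e‖ = 1) {A B w : ℂ} (hB : B - A = d * e) :
    w ∈ CBox M A B ↔ (3 * sd M / 8 ≤ (conj e * (w - A)).re ∧
      (conj e * (w - A)).re ≤ d - 3 * sd M / 8) ∧
      (-(sd M / 8) ≤ (conj e * (w - A)).im ∧ (conj e * (w - A)).im ≤ sd M / 8) := by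
  have h1 : ‖B - A‖ = d := by
    rw [hB, norm_mul, he, mul_one, Complex.norm_real, Real.norm_of_nonneg hd.le]
  have h2 : cio A B = conj e := by
    unfold cio
    have hd' : (d : ℂ) ≠ 0 := by exact_mod_cast hd.ne'
    rw [h1, hB, map_mul, Complex.conj_ofReal]
    field_simp
  unfold CBox Box
  rw [mem_ofPred_eq, h2, h1]
  constructor
  · rintro ⟨a1, a2, a3, a4⟩
    exact ⟨⟨by linarith, by linarith⟩, a3, a4⟩
  · rintro ⟨⟨a1, a2⟩, a3, a4⟩
    exact ⟨by linarith, by linarith, a3, a4⟩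

/-! ### local coordinates -/

/-- The inner and outer hubs (parameter `c = 7/16`, `9/16`) in the frame of the side. -/
noncomputable def lp (M : ℕ) (c : ℝ) (j : ℕ) : ℂ := ⟨1 + c * ms M, -1 + j * ms M⟩

/-- The hubs of the first gate of the next side, in the frame of the side. -/
noncomputable def lq (M : ℕ) (c : ℝ) : ℂ := ⟨1, 1 + c * ms M⟩

/-- The hub with parameter `c`. -/
noncomputable def hp (M k : ℕ) (c : ℝ) : ℂ := I ^ (k / (2 * M + 1)) * lp M c (k % (2 * M + 1))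

theorem pin_eq (M k : ℕ) : pin M k = hp M k (7 / 16) := by
  unfold pin hp gateC uo
  rw [← mul_sub]
  congr 1
  apply Complex.ext
  · simp [lp]; ring
  · simp [lp]

theorem pout_eq (M k : ℕ) : pout M k = hp M k (9 / 16) := by
  unfold pout hp gateC uo
  rw [← mul_add]
  congr 1
  apply Complex.ext
  · simp [lp]; ring
  · simp [lp]

theorem hp_succ_of_ne (h : k % (2 * M + 1) ≠ 2 * M) (c : ℝ) :
    hp M (k + 1) c = I ^ (k / (2 * M + 1)) * lp M c (k % (2 * M + 1) + 1) := by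
  obtain ⟨h1, h2⟩ := div_add_one_of_ne h
  unfold hp
  rw [h1, h2]

theorem hp_succ_of_eq (hM : 0 < M) (h : k % (2 * M + 1) = 2 * M) (c : ℝ) :
    hp M (k + 1) c = I ^ (k / (2 * M + 1)) * lq M c := by
  obtain ⟨h1, h2⟩ := div_add_one_of_eq hM h
  unfold hp
  rw [h1, h2, pow_succ, mul_assoc]
  congr 1
  apply Complex.ext
  · simp [lp, lq]
  · simp [lp, lq]

theorem norm_I_eq : ‖(I : ℂ)‖ = 1 := norm_I

/-- The direction of the corridors of the corner cells. -/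
noncomputable def dg : ℂ := ((1 / Real.sqrt 2 : ℝ) : ℂ) * (-1 + I)

theorem sqrt_two_bd : 1.41 < Real.sqrt 2 ∧ Real.sqrt 2 < 1.42 := by
  constructor
  · rw [Real.lt_sqrt (by norm_num)]; norm_num
  · rw [Real.sqrt_lt' (by norm_num)]; norm_num

theorem norm_dg : ‖dg‖ = 1 := by
  have h0 : 0 < Real.sqrt 2 := Real.sqrt_pos.2 (by norm_num)
  have h1 : ‖(-1 + I : ℂ)‖ = Real.sqrt 2 := by
    rw [Complex.norm_def, Complex.normSq_apply]
    simp
    norm_num
  unfold dg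
  rw [norm_mul, h1, Complex.norm_real, Real.norm_of_nonneg (by positivity)]
  field_simp

/-- Tooth. -/
theorem mem_tooth (hM : 0 < M) {j : ℕ} {w : ℂ} :
    w ∈ CBox M (lp M (7 / 16) j) (lp M (9 / 16) j) ↔
      (1 + 7 / 16 * ms M + 3 * sd M / 8 ≤ w.re ∧ w.re ≤ 1 + 9 / 16 * ms M - 3 * sd M / 8) ∧
      (-1 + j * ms M - sd M / 8 ≤ w.im ∧ w.im ≤ -1 + j * ms M + sd M / 8) := by
  have h0 := ms_pos hM
  rw [mem_cbox (e := 1) (d := ms M / 8) (by positivity) (by simp)]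
  · simp only [map_one, one_mul, sub_re, sub_im, lp]
    constructor
    · rintro ⟨⟨a1, a2⟩, a3, a4⟩
      exact ⟨⟨by linarith, by linarith⟩, by linarith, by linarith⟩
    · rintro ⟨⟨a1, a2⟩, a3, a4⟩
      exact ⟨⟨by linarith, by linarith⟩, by linarith, by linarith⟩
  · apply Complex.ext
    · simp [lp]; ring
    · simp [lp]

/-- Straight rails. -/
theorem mem_rail (hM : 0 < M) {c : ℝ} {j : ℕ} {w : ℂ} :
    w ∈ CBox M (lp M c j) (lp M c (j + 1)) ↔
      (1 + c * ms M - sd M / 8 ≤ w.re ∧ w.re ≤ 1 + c * ms M + sd M / 8) ∧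
      (-1 + j * ms M + 3 * sd M / 8 ≤ w.im ∧ w.im ≤ -1 + j * ms M + ms M - 3 * sd M / 8) := by
  have h0 := ms_pos hM
  rw [mem_cbox (e := I) (d := ms M) h0 (by simp)]
  · simp only [conj_I, neg_mul, neg_re, neg_im, I_mul_re, I_mul_im, sub_re, sub_im, lp, neg_neg]
    constructor
    · rintro ⟨⟨a1, a2⟩, a3, a4⟩
      exact ⟨⟨by linarith, by linarith⟩, by linarith, by linarith⟩
    · rintro ⟨⟨a1, a2⟩, a3, a4⟩
      exact ⟨⟨by linarith, by linarith⟩, by linarith, by linarith⟩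
  · apply Complex.ext
    · simp [lp]
    · simp [lp]; ring

/-- Diagonal rails: coordinates `p`, `q` relative to the hub at the beginning. -/
theorem mem_diag (hM : 0 < M) {c : ℝ} (hc : 0 < c) {w : ℂ} :
    w ∈ CBox M (lp M c (2 * M)) (lq M c) ↔
      (3 * sd M / 8 * Real.sqrt 2 ≤ (w.im - 1) - (w.re - (1 + c * ms M)) ∧
        (w.im - 1) - (w.re - (1 + c * ms M)) ≤ 2 * (c * ms M) - 3 * sd M / 8 * Real.sqrt 2) ∧
      (-(sd M / 8 * Real.sqrt 2) ≤ (w.im - 1) + (w.re - (1 + c * ms M)) ∧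
        (w.im - 1) + (w.re - (1 + c * ms M)) ≤ sd M / 8 * Real.sqrt 2) := by
  have h0 := ms_pos hM
  have h1 := M_mul_ms hM
  have hs : 0 < Real.sqrt 2 := Real.sqrt_pos.2 (by norm_num)
  have hss : Real.sqrt 2 * Real.sqrt 2 = 2 := Real.mul_self_sqrt (by norm_num)
  rw [mem_cbox (e := dg) (d := c * ms M * Real.sqrt 2) (by positivity) norm_dg]
  · have e1 : (conj dg * (w - lp M c (2 * M))).re =
        ((w.im - 1) - (w.re - (1 + c * ms M))) / Real.sqrt 2 := by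
      simp only [dg, map_mul, map_add, map_neg, map_one, conj_ofReal, conj_I, mul_re, mul_im,
        ofReal_re, ofReal_im, add_re, add_im, neg_re, neg_im, one_re, one_im, I_re, I_im, sub_re,
        sub_im, lp]
      push_cast
      field_simp
      linear_combination (-2 : ℝ) * h1
    have e2 : (conj dg * (w - lp M c (2 * M))).im =
        -((w.im - 1) + (w.re - (1 + c * ms M))) / Real.sqrt 2 := by
      simp only [dg, map_mul, map_add, map_neg, map_one, conj_ofReal, conj_I, mul_re, mul_im,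
        ofReal_re, ofReal_im, add_re, add_im, neg_re, neg_im, one_re, one_im, I_re, I_im, sub_re,
        sub_im, lp]
      push_cast
      field_simp
      linear_combination (2 : ℝ) * h1
    rw [e1, e2, le_div_iff₀ hs, div_le_iff₀ hs, le_div_iff₀ hs, div_le_iff₀ hs]
    have e3 : (c * ms M * Real.sqrt 2 - 3 * sd M / 8) * Real.sqrt 2 =
        2 * (c * ms M) - 3 * sd M / 8 * Real.sqrt 2 := by
      linear_combination (c * ms M) * hss
    rw [e3]
    constructor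
    · rintro ⟨⟨a1, a2⟩, a3, a4⟩
      exact ⟨⟨a1, a2⟩, by linarith, by linarith⟩
    · rintro ⟨⟨a1, a2⟩, a3, a4⟩
      exact ⟨⟨a1, a2⟩, by linarith, by linarith⟩
  · apply Complex.ext
    · simp only [lp, lq, dg, sub_re, mul_re, ofReal_re, ofReal_im, add_re, add_im, neg_re, neg_im,
        one_re, one_im, I_re, I_im, mul_im]
      push_cast
      field_simp
      ring
    · simp only [lp, lq, dg, sub_im, mul_re, ofReal_re, ofReal_im, add_re, add_im, neg_re, neg_im,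
        one_re, one_im, I_re, I_im, mul_im]
      push_cast
      field_simp
      linear_combination (-2 * Real.sqrt 2 : ℝ) * h1

/-- `linarith` form of the bounds. -/
theorem num (hM : 0 < M) : 0 < ms M ∧ ms M = 256 * sd M ∧ 1.41 * sd M < sd M * Real.sqrt 2 ∧
    sd M * Real.sqrt 2 < 1.42 * sd M := by
  have h0 := ms_pos hM
  have h1 := sd_pos hM
  refine ⟨h0, by unfold sd; ring, ?_, ?_⟩
  · rw [mul_comm (sd M) (Real.sqrt 2)]
    exact mul_lt_mul_of_pos_right sqrt_two_bd.1 h1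
  · rw [mul_comm (sd M) (Real.sqrt 2)]
    exact mul_lt_mul_of_pos_right sqrt_two_bd.2 h1

/-- The local form of the diagonal rails. -/
theorem diag_bd (hM : 0 < M) {c : ℝ} (hc : 0 < c) (hc1 : c < 1) {w : ℂ}
    (h : w ∈ CBox M (lp M c (2 * M)) (lq M c)) :
    (1 + sd M / 8 < w.re ∧ w.re < 1 + c * ms M - sd M / 8) ∧
    (1 + sd M / 8 < w.im ∧ w.im < 1 + c * ms M - sd M / 8) ∧
    (2 + c * ms M - sd M / 4 < w.re + w.im ∧ w.re + w.im < 2 + c * ms M + sd M / 4) := by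
  obtain ⟨h0, h1, h2, h3⟩ := num hM
  have h4 := sd_pos hM
  obtain ⟨⟨a1, a2⟩, a3, a4⟩ := (mem_diag hM hc).1 h
  refine ⟨⟨by linarith, by linarith⟩, ⟨by linarith, by linarith⟩, by linarith, by linarith⟩

/-! ### periodicity -/

theorem hp_periodic (M : ℕ) (c : ℝ) : Function.Periodic (fun k => hp M k c) (nc M) := by
  intro k
  show hp M (k + nc M) c = hp M k c
  unfold hp
  rw [div_add_nc, mod_add_nc, I_pow_add_four]

theorem hp_mod (M k : ℕ) (c : ℝ) : hp M (k % nc M) c = hp M k c :=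
  (hp_periodic M c).map_mod_nat k

theorem pin_mod (M k : ℕ) : pin M (k % nc M) = pin M k := by rw [pin_eq, pin_eq, hp_mod]

theorem pout_mod (M k : ℕ) : pout M (k % nc M) = pout M k := by rw [pout_eq, pout_eq, hp_mod]

/-! ### the boxes -/

theorem mem_hbox {z w : ℂ} : w ∈ hbox M z ↔ |w.re - z.re| ≤ ms M / 32 ∧ |w.im - z.im| ≤ ms M / 32 := by
  unfold hbox hb nsup
  rw [mem_ofPred_eq, max_le_iff, sub_re, sub_im]

theorem hbox_sub_gbox' (hM : 0 < M) {c : ℝ} (hc : 7 / 16 ≤ c) (hc' : c ≤ 9 / 16) :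
    hbox M (hp M k c) ⊆ gbox M k := by
  intro z hz
  obtain ⟨w, rfl⟩ := exists_eq_I_pow_mul (k / (2 * M + 1)) z
  have h0 := ms_pos hM
  have h1 := (hbox_rot _).1 hz
  rw [mem_hbox] at h1
  simp only [lp] at h1
  obtain ⟨h1, h2⟩ := h1
  rw [abs_le] at h1 h2
  rw [mem_gbox_iff]
  refine ⟨⟨by nlinarith, by nlinarith⟩, by linarith, by linarith⟩

theorem hbox_pin_sub (hM : 0 < M) (k : ℕ) : hbox M (pin M k) ⊆ gbox M k := by
  rw [pin_eq]; exact hbox_sub_gbox' hM le_rfl (by norm_num)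

theorem hbox_pout_sub (hM : 0 < M) (k : ℕ) : hbox M (pout M k) ⊆ gbox M k := by
  rw [pout_eq]; exact hbox_sub_gbox' hM (by norm_num) le_rfl

theorem hbox_disj (hM : 0 < M) (k : ℕ) : Disjoint (hbox M (pin M k)) (hbox M (pout M k)) := by
  rw [Set.disjoint_left]
  intro z hz hz'
  obtain ⟨w, rfl⟩ := exists_eq_I_pow_mul (k / (2 * M + 1)) z
  rw [pin_eq] at hz
  rw [pout_eq] at hz'
  have h0 := ms_pos hM
  obtain ⟨h1, -⟩ := mem_hbox.1 ((hbox_rot _).1 hz)
  obtain ⟨h2, -⟩ := mem_hbox.1 ((hbox_rot _).1 hz')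
  simp only [lp] at h1 h2
  rw [abs_le] at h1 h2
  linarith

theorem tooth_sub (hM : 0 < M) (k : ℕ) : CBox M (pin M k) (pout M k) ⊆ gbox M k := by
  intro z hz
  obtain ⟨w, rfl⟩ := exists_eq_I_pow_mul (k / (2 * M + 1)) z
  rw [pin_eq, pout_eq] at hz
  obtain ⟨h0, h1, -, -⟩ := num hM
  have h4 := sd_pos hM
  obtain ⟨⟨a1, a2⟩, a3, a4⟩ := (mem_tooth hM).1 ((cbox_rot _).1 hz)
  rw [mem_gbox_iff]
  exact ⟨⟨by linarith, by linarith⟩, by linarith, by linarith⟩

/-- The rails in local coordinates. -/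
theorem rail_local (hM : 0 < M) {c : ℝ} (hc : 0 < c) (hc1 : c < 1) {w : ℂ}
    (h : I ^ (k / (2 * M + 1)) * w ∈ CBox M (hp M k c) (hp M (k + 1) c)) :
    (k % (2 * M + 1) ≠ 2 * M ∧
      (1 + c * ms M - sd M / 8 ≤ w.re ∧ w.re ≤ 1 + c * ms M + sd M / 8) ∧
      (-1 + (k % (2 * M + 1) : ℕ) * ms M + 3 * sd M / 8 ≤ w.im ∧
        w.im ≤ -1 + (k % (2 * M + 1) : ℕ) * ms M + ms M - 3 * sd M / 8)) ∨
    (k % (2 * M + 1) = 2 * M ∧
      (1 + sd M / 8 < w.re ∧ w.re < 1 + c * ms M - sd M / 8) ∧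
      (1 + sd M / 8 < w.im ∧ w.im < 1 + c * ms M - sd M / 8) ∧
      (2 + c * ms M - sd M / 4 < w.re + w.im ∧ w.re + w.im < 2 + c * ms M + sd M / 4)) := by
  by_cases hk : k % (2 * M + 1) = 2 * M
  · right
    refine ⟨hk, ?_⟩
    rw [hp_succ_of_eq hM hk] at h
    unfold hp at h
    rw [hk] at h
    exact diag_bd hM hc hc1 ((cbox_rot _).1 h)
  · left
    refine ⟨hk, ?_⟩
    rw [hp_succ_of_ne hk] at h
    unfold hp at h
    exact (mem_rail hM).1 ((cbox_rot _).1 h)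

theorem two_M_ms (hM : 0 < M) (h : k % (2 * M + 1) = 2 * M) :
    ((k % (2 * M + 1) : ℕ) : ℝ) * ms M = 2 := by
  rw [h]; exact mod_mul_eq hM

theorem rail_sub' (hM : 0 < M) {c : ℝ} (hc : 7 / 16 ≤ c) (hc' : c ≤ 9 / 16) (k : ℕ) :
    CBox M (hp M k c) (hp M (k + 1) c) ⊆ cell M k := by
  intro z hz
  obtain ⟨w, rfl⟩ := exists_eq_I_pow_mul (k / (2 * M + 1)) z
  obtain ⟨h0, h1, -, -⟩ := num hM
  have h4 := sd_pos hM
  rw [mem_cell_iff]
  have hcm : 7 / 16 * ms M ≤ c * ms M := mul_le_mul_of_nonneg_right hc h0.le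
  have hcm' : c * ms M ≤ 9 / 16 * ms M := mul_le_mul_of_nonneg_right hc' h0.le
  rcases rail_local hM (by linarith) (by linarith) hz with ⟨-, ⟨a1, a2⟩, a3, a4⟩ |
    ⟨hk, ⟨a1, a2⟩, ⟨a3, a4⟩, -⟩
  · exact ⟨⟨by linarith, by linarith⟩, by linarith, by linarith⟩
  · rw [two_M_ms hM hk]
    exact ⟨⟨by linarith, by linarith⟩, by linarith, by linarith⟩

theorem rail_in_sub (hM : 0 < M) (k : ℕ) : CBox M (pin M k) (pin M (k + 1)) ⊆ cell M k := by
  rw [pin_eq, pin_eq]; exact rail_sub' hM le_rfl (by norm_num) k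

theorem rail_out_sub (hM : 0 < M) (k : ℕ) : CBox M (pout M k) (pout M (k + 1)) ⊆ cell M k := by
  rw [pout_eq, pout_eq]; exact rail_sub' hM (by norm_num) le_rfl k

/-- The two rails of a section are disjoint. -/
theorem rails_disj (hM : 0 < M) (k : ℕ) :
    Disjoint (CBox M (pin M k) (pin M (k + 1))) (CBox M (pout M k) (pout M (k + 1))) := by
  rw [Set.disjoint_left]
  intro z hz hz'
  obtain ⟨w, rfl⟩ := exists_eq_I_pow_mul (k / (2 * M + 1)) z
  rw [pin_eq, pin_eq] at hz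
  rw [pout_eq, pout_eq] at hz'
  obtain ⟨h0, h1, -, -⟩ := num hM
  have h4 := sd_pos hM
  rcases rail_local hM (by norm_num) (by norm_num) hz with ⟨hk, ⟨a1, a2⟩, a3, a4⟩ |
    ⟨hk, ⟨a1, a2⟩, ⟨a3, a4⟩, a5, a6⟩ <;>
  rcases rail_local hM (by norm_num) (by norm_num) hz' with ⟨hk', ⟨b1, b2⟩, b3, b4⟩ |
    ⟨hk', ⟨b1, b2⟩, ⟨b3, b4⟩, b5, b6⟩
  · linarith
  · exact hk hk'
  · exact hk' hk
  · linarith

/-- The tooth of the gate `k` is disjoint from the rails of the section `k`. -/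
theorem tooth_rail' (hM : 0 < M) {c : ℝ} (hc : 7 / 16 ≤ c) (hc' : c ≤ 9 / 16) (k : ℕ) :
    Disjoint (CBox M (pin M k) (pout M k)) (CBox M (hp M k c) (hp M (k + 1) c)) := by
  rw [Set.disjoint_left]
  intro z hz hz'
  obtain ⟨w, rfl⟩ := exists_eq_I_pow_mul (k / (2 * M + 1)) z
  rw [pin_eq, pout_eq] at hz
  obtain ⟨h0, h1, -, -⟩ := num hM
  have h4 := sd_pos hM
  obtain ⟨⟨a1, a2⟩, a3, a4⟩ := (mem_tooth hM).1 ((cbox_rot _).1 hz)
  rcases rail_local hM (by linarith) (by linarith) hz' with ⟨hk, ⟨b1, b2⟩, b3, b4⟩ |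
    ⟨hk, ⟨b1, b2⟩, ⟨b3, b4⟩, b5, b6⟩
  · linarith
  · rw [two_M_ms hM hk] at a3 a4
    linarith

/-- The tooth of the gate `k + 1` is disjoint from the rails of the section `k`. -/
theorem tooth_succ_rail' (hM : 0 < M) {c : ℝ} (hc : 7 / 16 ≤ c) (hc' : c ≤ 9 / 16) (k : ℕ) :
    Disjoint (CBox M (pin M (k + 1)) (pout M (k + 1))) (CBox M (hp M k c) (hp M (k + 1) c)) := by
  rw [Set.disjoint_left]
  intro z hz hz'
  obtain ⟨w, rfl⟩ := exists_eq_I_pow_mul (k / (2 * M + 1)) z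
  rw [pin_eq, pout_eq] at hz
  obtain ⟨h0, h1, -, -⟩ := num hM
  have h4 := sd_pos hM
  rcases rail_local hM (by linarith) (by linarith) hz' with ⟨hk, ⟨b1, b2⟩, b3, b4⟩ |
    ⟨hk, ⟨b1, b2⟩, ⟨b3, b4⟩, b5, b6⟩
  · rw [hp_succ_of_ne hk, hp_succ_of_ne hk] at hz
    obtain ⟨⟨a1, a2⟩, a3, a4⟩ := (mem_tooth hM).1 ((cbox_rot _).1 hz)
    push_cast at a3 a4
    linarith
  · -- the next side
    obtain ⟨e1, e2⟩ := div_add_one_of_eq hM hk
    unfold hp at hz
    rw [e1, e2, pow_succ] at hz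
    have e3 : I ^ (k / (2 * M + 1)) * w = I ^ (k / (2 * M + 1)) * I * (-I * w) := by
      rw [mul_assoc, ← mul_assoc I, mul_neg, I_mul_I, neg_neg, one_mul]
    rw [e3, ← pow_succ] at hz
    obtain ⟨⟨a1, a2⟩, a3, a4⟩ := (mem_tooth hM).1 ((cbox_rot _).1 hz)
    simp only [neg_mul, neg_re, neg_im, I_mul_re, I_mul_im, neg_neg, Nat.cast_zero, zero_mul,
      add_zero] at a1 a2 a3 a4
    linarith

/-- The rails with parameter `c` are disjoint from the hub boxes with the other parameter. -/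
theorem rail_hbox' (hM : 0 < M) {c c' : ℝ} (hc : 7 / 16 ≤ c) (hc1 : c ≤ 9 / 16)
    (hcc : c + 1 / 8 ≤ c' ∨ c' + 1 / 8 ≤ c) (k : ℕ) :
    Disjoint (CBox M (hp M k c) (hp M (k + 1) c)) (hbox M (hp M k c')) := by
  rw [Set.disjoint_left]
  intro z hz hz'
  obtain ⟨w, rfl⟩ := exists_eq_I_pow_mul (k / (2 * M + 1)) z
  obtain ⟨h0, h1, -, -⟩ := num hM
  have h4 := sd_pos hM
  obtain ⟨a1, a2⟩ := mem_hbox.1 ((hbox_rot _).1 hz')
  simp only [lp] at a1 a2
  rw [abs_le] at a1 a2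
  have hm : c * ms M + ms M / 8 ≤ c' * ms M ∨ c' * ms M + ms M / 8 ≤ c * ms M := by
    rcases hcc with h | h
    · left
      have := mul_le_mul_of_nonneg_right h h0.le
      linarith
    · right
      have := mul_le_mul_of_nonneg_right h h0.le
      linarith
  rcases rail_local hM (by linarith) (by linarith) hz with ⟨hk, ⟨b1, b2⟩, b3, b4⟩ |
    ⟨hk, ⟨b1, b2⟩, ⟨b3, b4⟩, b5, b6⟩
  · rcases hm with hm | hm <;> linarith [a1.1, a1.2]
  · rw [two_M_ms hM hk] at a2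
    rcases hm with hm | hm <;> linarith [a1.1, a1.2, a2.1, a2.2]

theorem rail_hbox_succ' (hM : 0 < M) {c c' : ℝ} (hc : 7 / 16 ≤ c) (hc1 : c ≤ 9 / 16)
    (hcc : c + 1 / 8 ≤ c' ∨ c' + 1 / 8 ≤ c) (k : ℕ) :
    Disjoint (CBox M (hp M k c) (hp M (k + 1) c)) (hbox M (hp M (k + 1) c')) := by
  rw [Set.disjoint_left]
  intro z hz hz'
  obtain ⟨w, rfl⟩ := exists_eq_I_pow_mul (k / (2 * M + 1)) z
  obtain ⟨h0, h1, -, -⟩ := num hM
  have h4 := sd_pos hM
  have hm : c * ms M + ms M / 8 ≤ c' * ms M ∨ c' * ms M + ms M / 8 ≤ c * ms M := by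
    rcases hcc with h | h
    · left
      have := mul_le_mul_of_nonneg_right h h0.le
      linarith
    · right
      have := mul_le_mul_of_nonneg_right h h0.le
      linarith
  rcases rail_local hM (by linarith) (by linarith) hz with ⟨hk, ⟨b1, b2⟩, b3, b4⟩ |
    ⟨hk, ⟨b1, b2⟩, ⟨b3, b4⟩, b5, b6⟩
  · rw [hp_succ_of_ne hk] at hz'
    obtain ⟨a1, a2⟩ := mem_hbox.1 ((hbox_rot _).1 hz')
    simp only [lp] at a1 a2
    rw [abs_le] at a1 a2
    rcases hm with hm | hm <;> linarith [a1.1, a1.2]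
  · rw [hp_succ_of_eq hM hk] at hz'
    obtain ⟨a1, a2⟩ := mem_hbox.1 ((hbox_rot _).1 hz')
    simp only [lq] at a1 a2
    rw [abs_le] at a1 a2
    rcases hm with hm | hm <;> linarith [a1.1, a1.2, a2.1, a2.2]

end Vale.Agent.P148.R2.H995
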