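import Vale.Agent.P148.R2.H995.Seg
import Vale.Agent.P198.Hex.Miranda

/-!
# Exclusivity of crossings by straight Delaunay edges (P148, module R5b, R5c)
-/

open Set Metric unitInterval

namespace Vale.Agent.P148.R2.H995

open H592

/-- The polygonal curve through `v 0, ..., v n`. -/
theorem exists_curve (v : ℕ → ℂ) (n : ℕ) : ∃ γ : Path (v 0) (v (n + 1)),
    ∀ s, ∃ i < n + 1, ∃ t, 0 ≤ t ∧ t ≤ 1 ∧ γ s = sg (v i) (v (i + 1)) t := by
  -- the segment
  have seg : ∀ a b : ℂ, ∃ γ : Path a b, ∀ s, ∃ t : ℝ, 0 ≤ t ∧ t ≤ 1 ∧ γ s = sg a b t := by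
    intro a b
    refine ⟨⟨⟨fun s => sg a b (s : ℝ), ?_⟩, ?_, ?_⟩, fun s => ⟨s, s.2.1, s.2.2, rfl⟩⟩
    · unfold sg; fun_prop
    · simp [sg]
    · simp [sg]
  induction n with
  | zero =>
    obtain ⟨γ, hγ⟩ := seg (v 0) (v 1)
    exact ⟨γ, fun s => by obtain ⟨t, h⟩ := hγ s; exact ⟨0, by omega, t, h⟩⟩
  | succ n ih =>
    obtain ⟨γ, hγ⟩ := ih
    obtain ⟨γ', hγ'⟩ := seg (v (n + 1)) (v (n + 2))
    refine ⟨γ.trans γ', fun s => ?_⟩
    have hr : (γ.trans γ') s ∈ range γ ∪ range γ' := by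
      rw [← Path.trans_range]; exact mem_range_self s
    rcases hr with ⟨s', hs'⟩ | ⟨s', hs'⟩
    · obtain ⟨i, hi, t, h0, h1, h⟩ := hγ s'
      exact ⟨i, by omega, t, h0, h1, by rw [← hs', h]⟩
    · obtain ⟨t, h0, h1, h⟩ := hγ' s'
      exact ⟨n + 1, by omega, t, h0, h1, by rw [← hs', h]⟩

theorem sg_re (a b : ℂ) (t : ℝ) : (sg a b t).re = (1 - t) * a.re + t * b.re := by
  simp [sg]; ring

theorem sg_im (a b : ℂ) (t : ℝ) : (sg a b t).im = (1 - t) * a.im + t * b.im := by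
  simp [sg]; ring

theorem sg_affine (ι p a b : ℂ) (t : ℝ) :
    ι * (sg a b t - p) = sg (ι * (a - p)) (ι * (b - p)) t := by
  simp only [sg]; ring

theorem cvx_le {x y c t : ℝ} (h0 : 0 ≤ t) (h1 : t ≤ 1) (hx : x ≤ c) (hy : y ≤ c) :
    (1 - t) * x + t * y ≤ c := by
  nlinarith [mul_nonneg (sub_nonneg.2 h1) (sub_nonneg.2 hx), mul_nonneg h0 (sub_nonneg.2 hy)]

theorem le_cvx {x y c t : ℝ} (h0 : 0 ≤ t) (h1 : t ≤ 1) (hx : c ≤ x) (hy : c ≤ y) :
    c ≤ (1 - t) * x + t * y := by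
  nlinarith [mul_nonneg (sub_nonneg.2 h1) (sub_nonneg.2 hx), mul_nonneg h0 (sub_nonneg.2 hy)]

/-- Crossing lemma for curves defined on `[0,1]`, the vertical curve being restricted to a
subinterval. -/
theorem crossing_sub {a b c d : ℝ} {f : I → ℂ} (hf : Continuous f) (δ : C(I, ℂ)) {S T : I}
    (hST : S ≤ T) (hγ : ∀ s, S ≤ s → s ≤ T → a ≤ (f s).re ∧ (f s).re ≤ b)
    (hδ : ∀ t, c ≤ (δ t).im ∧ (δ t).im ≤ d) (h0 : (f S).im ≤ c) (h1 : d ≤ (f T).im)
    (k0 : (δ 0).re ≤ a) (k1 : b ≤ (δ 1).re) : ∃ s t, f s = δ t := by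
  -- reparametrise
  have hm : ∀ u : I, (S : ℝ) + u * (T - S) ∈ I := by
    intro u
    have hST' : (S : ℝ) ≤ T := hST
    have h2 : 0 ≤ (u : ℝ) * (T - S) := mul_nonneg u.2.1 (sub_nonneg.2 hST')
    have h3 : (u : ℝ) * (T - S) ≤ T - S := by
      have := mul_le_mul_of_nonneg_right u.2.2 (sub_nonneg.2 hST')
      linarith
    exact ⟨by linarith [S.2.1], by linarith [T.2.2]⟩
  let g : C(I, ℂ) := ⟨fun u => f ⟨(S : ℝ) + u * (T - S), hm u⟩, by
    apply hf.comp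
    exact Continuous.subtype_mk (by fun_prop) _⟩
  have hg : ∀ u : I, S ≤ (⟨(S : ℝ) + u * (T - S), hm u⟩ : I) ∧
      (⟨(S : ℝ) + u * (T - S), hm u⟩ : I) ≤ T := by
    intro u
    have hST' : (S : ℝ) ≤ T := hST
    have h2 : 0 ≤ (u : ℝ) * (T - S) := mul_nonneg u.2.1 (sub_nonneg.2 hST')
    have h3 : (u : ℝ) * (T - S) ≤ T - S := by
      have := mul_le_mul_of_nonneg_right u.2.2 (sub_nonneg.2 hST')
      linarith
    constructor
    · show (S : ℝ) ≤ _; linarith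
    · show _ ≤ (T : ℝ); simp only; linarith
  have g0 : g 0 = f S := by
    show f ⟨(S : ℝ) + (0 : I) * (T - S), _⟩ = f S
    congr 1; apply Subtype.ext; simp
  have g1 : g 1 = f T := by
    show f ⟨(S : ℝ) + (1 : I) * (T - S), _⟩ = f T
    congr 1; apply Subtype.ext; simp
  obtain ⟨s, t, h⟩ := P198.PlanarTop.crossing a b c d g δ
    (fun s => hγ _ (hg s).1 (hg s).2) hδ (by rw [g0]; exact h0) (by rw [g1]; exact h1) k0 k1
  exact ⟨_, t, h⟩

/-- sup norm -/
noncomputable def nin (z : ℂ) : ℝ := max |z.re| |z.im|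

theorem continuous_nin : Continuous nin := by
  unfold nin
  exact (continuous_abs.comp Complex.continuous_re).max (continuous_abs.comp Complex.continuous_im)

/-- A curve from the inner square to the outside of the outer square crosses one of the four
rectangles. The rectangle is turned by `ι` with `ι ^ 4 = 1`. -/
theorem exists_turn {f : I → ℂ} (hf : Continuous f) {r R : ℝ} (hrR : r < R)
    (h0 : nin (f 0) ≤ r) (h1 : R ≤ nin (f 1)) :
    ∃ ι : ℂ, (ι = 1 ∨ ι = Complex.I ∨ ι = -1 ∨ ι = -Complex.I) ∧ ∃ S T : I, S ≤ T ∧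
      (∀ s, S ≤ s → s ≤ T → -R ≤ (ι * f s).re ∧ (ι * f s).re ≤ R) ∧ (ι * f S).im ≤ r ∧
      R ≤ (ι * f T).im := by
  have hc : Continuous fun s => nin (f s) := continuous_nin.comp hf
  -- first time at level `R`
  have hne : {s : I | R ≤ nin (f s)}.Nonempty := ⟨1, h1⟩
  have hcl : IsClosed {s : I | R ≤ nin (f s)} := isClosed_le continuous_const hc
  obtain ⟨T, hT⟩ := hcl.isCompact.exists_isLeast hne
  have hTR : ∀ s, s ≤ T → nin (f s) ≤ R := by
    intro s hs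
    rcases hs.lt_or_eq with hlt | rfl
    · by_contra hcon
      exact absurd (hT.2 (show R ≤ nin (f s) from (not_le.1 hcon).le)) (not_le.2 hlt)
    · -- at the time itself, by continuity from the left
      by_contra hcon
      have hcon' : R < nin (f s) := not_le.1 hcon
      -- intermediate value on [0, s]
      have h3 : R ∈ Icc (nin (f 0)) (nin (f s)) := ⟨h0.trans hrR.le, hcon'.le⟩
      obtain ⟨u, hu, hu2⟩ := intermediate_value_Icc (show (0 : I) ≤ s from bot_le)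
        hc.continuousOn h3
      have h5 : s ≤ u := hT.2 (show R ≤ nin (f u) from hu2.ge)
      have h6 : u = s := le_antisymm hu.2 h5
      rw [h6] at hu2
      exact absurd hu2 hcon'.ne'
  have hTe : nin (f T) = R := le_antisymm (hTR T le_rfl) hT.1
  -- choose the side
  have side : ∃ ι : ℂ, (ι = 1 ∨ ι = Complex.I ∨ ι = -1 ∨ ι = -Complex.I) ∧
      (ι * f T).im = R := by
    have hm : nin (f T) = |(f T).re| ∨ nin (f T) = |(f T).im| := max_choice _ _
    rcases hm with h | h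
    · rcases abs_choice (f T).re with h' | h'
      · refine ⟨Complex.I, by simp, ?_⟩
        simp only [Complex.mul_im, Complex.I_re, Complex.I_im]
        linarith
      · refine ⟨-Complex.I, by simp, ?_⟩
        simp only [Complex.mul_im, Complex.neg_re, Complex.neg_im, Complex.I_re, Complex.I_im]
        linarith
    · rcases abs_choice (f T).im with h' | h'
      · exact ⟨1, by simp, by rw [one_mul]; linarith⟩
      · refine ⟨-1, by simp, ?_⟩
        simp only [neg_mul, one_mul, Complex.neg_im]; linarith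
  obtain ⟨ι, hι, hιT⟩ := side
  have hbd : ∀ z : ℂ, |(ι * z).re| ≤ nin z ∧ |(ι * z).im| ≤ nin z := by
    intro z
    rcases hι with rfl | rfl | rfl | rfl
    · simp [nin]
    · simp [nin, Complex.mul_re, Complex.mul_im]
    · simp [nin]
    · simp [nin, Complex.mul_re, Complex.mul_im]
  -- last time below level r before T
  have hcι : Continuous fun s => (ι * f s).im :=
    Complex.continuous_im.comp (continuous_const.mul hf)
  have hne2 : {s : I | s ≤ T ∧ (ι * f s).im ≤ r}.Nonempty :=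
    ⟨0, bot_le, ((abs_le.1 (hbd (f 0)).2).2).trans h0⟩
  have hcl2 : IsClosed {s : I | s ≤ T ∧ (ι * f s).im ≤ r} :=
    (isClosed_le continuous_id continuous_const).inter (isClosed_le hcι continuous_const)
  obtain ⟨S, hS⟩ := hcl2.isCompact.exists_isGreatest hne2
  refine ⟨ι, hι, S, T, hS.1.1, fun s _ hs => ?_, hS.1.2, hιT.ge⟩
  have := (hbd (f s)).1.trans (hTR s hs)
  exact abs_le.1 this

/-- **No arm.** If each of the four rectangles of a square annulus is crossed the long way by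
a path of `B`, no path of the Delaunay graph outside `B` joins the inner square to the outside. -/
theorem no_arm {X : Set ℂ} (hX : Three X) {p : ℂ} {r R : ℝ} (hrR : r < R) {B W : Set ℂ}
    (hBW : Disjoint B W)
    (hB : ∀ ι : ℂ, (ι = 1 ∨ ι = Complex.I ∨ ι = -1 ∨ ι = -Complex.I) →
      ∃ (n : ℕ) (v : ℕ → ℂ), (∀ i < n, nbr X (v i) (v (i + 1))) ∧
        (∀ i ≤ n, v i ∈ B ∧ r ≤ (ι * (v i - p)).im ∧ (ι * (v i - p)).im ≤ R) ∧
        (ι * (v 0 - p)).re ≤ -R ∧ R ≤ (ι * (v n - p)).re) (hR : 0 < R)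
    {m : ℕ} {w : ℕ → ℂ} (hw : ∀ i < m, nbr X (w i) (w (i + 1))) (hwW : ∀ i ≤ m, w i ∈ W)
    (hw0 : nin (w 0 - p) ≤ r) (hw1 : R ≤ nin (w m - p)) : False := by
  have hm : m ≠ 0 := by rintro rfl; linarith
  obtain ⟨m, rfl⟩ := Nat.exists_eq_succ_of_ne_zero hm
  obtain ⟨γ, hγ⟩ := exists_curve w m
  obtain ⟨ι, hι, S, T, hST, hre, h0, h1⟩ := exists_turn (f := fun s => γ s - p)
    (by fun_prop) hrR (by simpa using hw0) (by simpa using hw1)
  obtain ⟨n, v, hv, hvB, hv0, hv1⟩ := hB ι hι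
  have hn : n ≠ 0 := by rintro rfl; linarith
  obtain ⟨n, rfl⟩ := Nat.exists_eq_succ_of_ne_zero hn
  obtain ⟨δ, hδ⟩ := exists_curve v n
  let δ' : C(I, ℂ) := ⟨fun t => ι * (δ t - p), by fun_prop⟩
  have hδ' : ∀ t, r ≤ (δ' t).im ∧ (δ' t).im ≤ R := by
    intro t
    obtain ⟨i, hi, u, hu0, hu1, he⟩ := hδ t
    show r ≤ (ι * (δ t - p)).im ∧ (ι * (δ t - p)).im ≤ R
    rw [he, sg_affine, sg_im]
    exact ⟨le_cvx hu0 hu1 (hvB i (by omega)).2.1 (hvB (i + 1) (by omega)).2.1,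
      cvx_le hu0 hu1 (hvB i (by omega)).2.2 (hvB (i + 1) (by omega)).2.2⟩
  obtain ⟨s, t, he⟩ := crossing_sub (a := -R) (b := R) (c := r) (d := R)
    (f := fun s => ι * (γ s - p)) (by fun_prop) δ' hST hre hδ' h0 h1
    (by show (ι * (δ 0 - p)).re ≤ -R; rw [δ.source]; exact hv0)
    (by show R ≤ (ι * (δ 1 - p)).re; rw [δ.target]; exact hv1)
  have hι0 : ι ≠ 0 := by
    rcases hι with rfl | rfl | rfl | rfl <;> simp
  have he' : γ s = δ t := by
    have h2 : ι * (γ s - p) = ι * (δ t - p) := he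
    have := mul_left_cancel₀ hι0 h2
    linear_combination this
  obtain ⟨i, hi, u, hu0, hu1, e1⟩ := hγ s
  obtain ⟨j, hj, u', hu0', hu1', e2⟩ := hδ t
  have neq : ∀ i ≤ m + 1, ∀ j ≤ n + 1, w i ≠ v j := by
    intro i hi j hj h
    exact (Set.disjoint_left.1 hBW (hvB j hj).1) (h ▸ hwW i hi)
  refine seg_disjoint hX (hw i hi) (hv j hj) (neq _ (by omega) _ (by omega))
    (neq _ (by omega) _ (by omega)) (neq _ (by omega) _ (by omega))
    (neq _ (by omega) _ (by omega)) hu0 hu1 hu0' hu1' ?_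
  rw [← e1, ← e2, he']

/-- **Exclusivity in a rectangle.** -/
theorem exclusive {X : Set ℂ} (hX : Three X) {a b c d : ℝ} {B W : Set ℂ} (hBW : Disjoint B W)
    {n : ℕ} {v : ℕ → ℂ} (hv : ∀ i < n, nbr X (v i) (v (i + 1)))
    (hvB : ∀ i ≤ n, v i ∈ B ∧ c ≤ (v i).im ∧ (v i).im ≤ d) (hv0 : (v 0).re ≤ a)
    (hv1 : b ≤ (v n).re) {m : ℕ} {w : ℕ → ℂ} (hw : ∀ i < m, nbr X (w i) (w (i + 1)))
    (hwW : ∀ i ≤ m, w i ∈ W ∧ a ≤ (w i).re ∧ (w i).re ≤ b) (hw0 : (w 0).im ≤ c)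
    (hw1 : d ≤ (w m).im) (hab : a < b) (hcd : c < d) : False := by
  have hm : m ≠ 0 := by rintro rfl; linarith
  obtain ⟨m, rfl⟩ := Nat.exists_eq_succ_of_ne_zero hm
  have hn : n ≠ 0 := by rintro rfl; linarith
  obtain ⟨n, rfl⟩ := Nat.exists_eq_succ_of_ne_zero hn
  obtain ⟨γ, hγ⟩ := exists_curve w m
  obtain ⟨δ, hδ⟩ := exists_curve v n
  obtain ⟨s, t, he⟩ := P198.PlanarTop.crossing a b c d ⟨γ, by fun_prop⟩ ⟨δ, by fun_prop⟩
    (fun s => by
      obtain ⟨i, hi, u, hu0, hu1, he⟩ := hγ s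
      show a ≤ (γ s).re ∧ (γ s).re ≤ b
      rw [he, sg_re]
      exact ⟨le_cvx hu0 hu1 (hwW i (by omega)).2.1 (hwW (i + 1) (by omega)).2.1,
        cvx_le hu0 hu1 (hwW i (by omega)).2.2 (hwW (i + 1) (by omega)).2.2⟩)
    (fun t => by
      obtain ⟨i, hi, u, hu0, hu1, he⟩ := hδ t
      show c ≤ (δ t).im ∧ (δ t).im ≤ d
      rw [he, sg_im]
      exact ⟨le_cvx hu0 hu1 (hvB i (by omega)).2.1 (hvB (i + 1) (by omega)).2.1,
        cvx_le hu0 hu1 (hvB i (by omega)).2.2 (hvB (i + 1) (by omega)).2.2⟩)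
    (by show (γ 0).im ≤ c; rw [γ.source]; exact hw0)
    (by show d ≤ (γ 1).im; rw [γ.target]; exact hw1)
    (by show (δ 0).re ≤ a; rw [δ.source]; exact hv0)
    (by show b ≤ (δ 1).re; rw [δ.target]; exact hv1)
  have he' : γ s = δ t := he
  obtain ⟨i, hi, u, hu0, hu1, e1⟩ := hγ s
  obtain ⟨j, hj, u', hu0', hu1', e2⟩ := hδ t
  have neq : ∀ i ≤ m + 1, ∀ j ≤ n + 1, w i ≠ v j := by
    intro i hi j hj h
    exact (Set.disjoint_left.1 hBW (hvB j hj).1) (h ▸ (hwW i hi).1)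
  refine seg_disjoint hX (hw i hi) (hv j hj) (neq _ (by omega) _ (by omega))
    (neq _ (by omega) _ (by omega)) (neq _ (by omega) _ (by omega))
    (neq _ (by omega) _ (by omega)) hu0 hu1 hu0' hu1' ?_
  rw [← e1, ← e2, he']

end Vale.Agent.P148.R2.H995
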