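import Vale.Agent.P148.R2.H995.Dual2
import Vale.Agent.P148.R2.H995.Excl
import Vale.Agent.P148.R2.H995.Surg
import Vale.Agent.P148.R2.H938.Hp

/-!
# P148, module E2b: quenched lower bounds for crossings of (turned) rectangles
-/

open Set Metric
open scoped unitInterval

namespace Vale.Agent.P148.R2.H995

open H592 H938

/-- Crossing, by a path of `W`, of the turned rectangle with coordinates `ι * (z - p)` in
`[x0, x1] × [y0, y1]`; the path may exceed the short sides by `t`. -/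
def TCr (X W : Set ℂ) (ι p : ℂ) (x0 x1 y0 y1 t : ℝ) : Prop :=
  ∃ (n : ℕ) (v : ℕ → ℂ), (∀ i < n, nbr X (v i) (v (i + 1))) ∧
    (∀ i ≤ n, v i ∈ W ∧ ι * (v i - p) ∈ Rc (x0 - t) (x1 + t) y0 y1) ∧
    (ι * (v 0 - p)).re ≤ x0 ∧ x1 ≤ (ι * (v n - p)).re

/-- The box of a crossing. -/
def Box (ι p : ℂ) (x0 x1 y0 y1 t : ℝ) : Set ℂ := {v | ι * (v - p) ∈ Rc (x0 - t) (x1 + t) y0 y1}

theorem TCr.mono {X W W' : Set ℂ} {ι p : ℂ} {x0 x1 y0 y1 t : ℝ} (h : TCr X W ι p x0 x1 y0 y1 t)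
    (hW : W ∩ Box ι p x0 x1 y0 y1 t ⊆ W') : TCr X W' ι p x0 x1 y0 y1 t := by
  obtain ⟨n, v, h1, h2, h3, h4⟩ := h
  exact ⟨n, v, h1, fun i hi => ⟨hW ⟨(h2 i hi).1, (h2 i hi).2⟩, (h2 i hi).2⟩, h3, h4⟩

theorem tcr_inter {X W : Set ℂ} {ι p : ℂ} {x0 x1 y0 y1 t : ℝ} {A : Set ℂ}
    (hA : Box ι p x0 x1 y0 y1 t ⊆ A) :
    TCr X W ι p x0 x1 y0 y1 t ↔ TCr X (W ∩ A) ι p x0 x1 y0 y1 t :=
  ⟨fun h => h.mono fun _ hz => ⟨hz.1, hA hz.2⟩, fun h => h.mono fun _ hz => hz.1.1⟩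

theorem TCr.widen {X W : Set ℂ} {ι p : ℂ} {x0 x1 y0 y1 t t' : ℝ}
    (h : TCr X W ι p x0 x1 y0 y1 t) (ht : t ≤ t') : TCr X W ι p x0 x1 y0 y1 t' := by
  obtain ⟨n, v, h1, h2, h3, h4⟩ := h
  refine ⟨n, v, h1, fun i hi => ⟨(h2 i hi).1, ?_⟩, h3, h4⟩
  obtain ⟨a1, a2, a3, a4⟩ := (h2 i hi).2
  exact ⟨by linarith, by linarith, a3, a4⟩

/-- The point with coordinates `(x, y)`. -/
noncomputable def cen (ι p : ℂ) (x y : ℝ) : ℂ := p + ι⁻¹ * ((x : ℂ) + (y : ℂ) * Complex.I)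

theorem mul_cen {ι : ℂ} (hι : ‖ι‖ = 1) (p : ℂ) (x y : ℝ) (z : ℂ) :
    ι * (z - cen ι p x y) = ι * (z - p) - ((x : ℂ) + (y : ℂ) * Complex.I) := by
  have hι0 : ι ≠ 0 := by
    rintro rfl
    simp at hι
  unfold cen
  field_simp
  ring

theorem re_cen {ι : ℂ} (hι : ‖ι‖ = 1) (p : ℂ) (x y : ℝ) (z : ℂ) :
    (ι * (z - cen ι p x y)).re = (ι * (z - p)).re - x := by
  rw [mul_cen hι]; simp

theorem im_cen {ι : ℂ} (hι : ‖ι‖ = 1) (p : ℂ) (x y : ℝ) (z : ℂ) :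
    (ι * (z - cen ι p x y)).im = (ι * (z - p)).im - y := by
  rw [mul_cen hι]; simp

theorem dist_eq_turn {ι : ℂ} (hι : ‖ι‖ = 1) (z k : ℂ) : dist z k = ‖ι * (z - k)‖ := by
  rw [norm_mul, hι, one_mul, Complex.dist_eq]

/-- The cells at the points of the rectangle. -/
structure NetR (X : Set ℂ) (ι p : ℂ) (x0 x1 y0 y1 ε : ℝ) : Prop where
  fin : {x ∈ X | ∃ z ∈ vcell X x, ι * (z - p) ∈ Rc x0 x1 y0 y1}.Finite
  cov : ∀ z, ι * (z - p) ∈ Rc x0 x1 y0 y1 → ∃ x ∈ X, z ∈ vcell X x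
  net : ∀ z, ι * (z - p) ∈ Rc x0 x1 y0 y1 → ∀ x ∈ X, z ∈ vcell X x → dist z x ≤ ε

/-- **Either a long crossing in `W`, or one of finitely many half-plane arms in the complement.** -/
theorem tcr_or_arm {X W : Set ℂ} {ι p : ℂ} (hι : ‖ι‖ = 1) {x0 x1 y0 y1 t s h g : ℝ}
    (hx : x0 < x1) (hs : 0 < s) (ht : 2 * s ≤ t) (hy : 2 * s < y1 - y0) (hh : 0 < h) (hg : 0 < g)
    (hnet : NetR X ι p (x0 - s) (x1 + s) (y0 + s) (y1 - s) s) {M : ℕ}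
    (hM : x1 - x0 + 2 * t ≤ M * g) :
    TCr X (X ∩ W) ι p x0 x1 y0 y1 t ∨ ∃ j ≤ M, HPArm (nbr X) ((X \ W) ∩ Box ι p x0 x1 y0 y1 t)
      (cen ι p (x0 - t + j * g) (y0 - 2 * h)) (-Complex.I * ι) h (g + 2 * h + 2 * s)
      (y1 - y0 - 2 * s) := by
  rcases dual_cells (W := W) hι (show x0 - s < x1 + s by linarith)
    (show y0 + s < y1 - s by linarith) hnet.fin hnet.cov hnet.net with
    ⟨u, w, ⟨n, v, h1, h2, h3, h4⟩, h5, h6⟩ | ⟨u, w, ⟨n, v, h1, h2, h3, h4⟩, h5, h6⟩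
  · left
    refine ⟨n, v, h1, fun i hi => ⟨(h2 i hi).1, ?_⟩, ?_, ?_⟩
    · obtain ⟨a1, a2, a3, a4⟩ := (h2 i hi).2
      exact ⟨by linarith, by linarith, by linarith, by linarith⟩
    · rw [h3]; linarith
    · rw [h4]; linarith
  · right
    have hbox : ∀ i ≤ n, ι * (v i - p) ∈ Rc (x0 - t) (x1 + t) y0 y1 := by
      intro i hi
      obtain ⟨a1, a2, a3, a4⟩ := (h2 i hi).2
      exact ⟨by linarith, by linarith, by linarith, by linarith⟩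
    obtain ⟨b1, b2, b3, b4⟩ := hbox 0 (Nat.zero_le n)
    set y := (ι * (v 0 - p)).re - (x0 - t) with hyd
    have hy0 : 0 ≤ y := by linarith
    set j := ⌊y / g⌋₊ with hj
    have e1 : (j : ℝ) ≤ y / g := Nat.floor_le (div_nonneg hy0 hg.le)
    have e2 : y / g < j + 1 := Nat.lt_floor_add_one _
    rw [le_div_iff₀ hg] at e1
    rw [div_lt_iff₀ hg] at e2
    have hjM : j ≤ M := by
      have : (j : ℝ) * g ≤ M * g := by linarith
      exact_mod_cast le_of_mul_le_mul_right this hg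
    have hre : ∀ z, ((-Complex.I * ι) * (z - cen ι p (x0 - t + j * g) (y0 - 2 * h))).re =
        (ι * (z - p)).im - (y0 - 2 * h) := by
      intro z
      rw [mul_assoc, neg_mul, Complex.neg_re, Complex.I_mul_re, neg_neg, im_cen hι]
    refine ⟨j, hjM, n, v, h1, fun i hi => ⟨⟨(h2 i hi).1, hbox i hi⟩, ?_⟩, ?_, ?_⟩
    · rw [hre]
      obtain ⟨a1, a2, a3, a4⟩ := (h2 i hi).2
      linarith
    · rw [dist_eq_turn hι]
      refine (norm_le_re_add_im _).trans ?_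
      rw [re_cen hι, im_cen hι]
      have c1 : |(ι * (v 0 - p)).re - (x0 - t + j * g)| ≤ g := by
        rw [abs_le]; constructor <;> linarith
      have c2 : |(ι * (v 0 - p)).im - (y0 - 2 * h)| ≤ 2 * h + 2 * s := by
        rw [h3] at b3 ⊢
        rw [abs_le]; constructor <;> linarith
      linarith
    · rw [dist_eq_turn hι]
      refine le_trans ?_ (Complex.abs_im_le_norm _)
      rw [im_cen hι, h4]
      refine le_trans ?_ (le_abs_self _)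
      linarith

theorem hparm_mono {rel : ℂ → ℂ → Prop} {W W' : Set ℂ} {k ι : ℂ} {h ρ D : ℝ} (hW : W ⊆ W')
    (H : HPArm rel W k ι h ρ D) : HPArm rel W' k ι h ρ D := by
  obtain ⟨n, v, h1, h2, h3⟩ := H
  exact ⟨n, v, h1, fun i hi => ⟨hW (h2 i hi).1, (h2 i hi).2⟩, h3⟩

theorem hparm_shrink {rel : ℂ → ℂ → Prop} {W : Set ℂ} {k ι : ℂ} {h ρ ρ' D D' : ℝ} (hρ : ρ ≤ ρ')
    (hD : D' ≤ D) (H : HPArm rel W k ι h ρ D) : HPArm rel W k ι h ρ' D' := by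
  obtain ⟨n, v, h1, h2, h3, h4⟩ := H
  exact ⟨n, v, h1, h2, h3.trans hρ, hD.trans h4⟩

/-- **Lower bound for the crossing probability**, from upper bounds of half-plane arms. -/
theorem cp_tcr_ge {X N : Set ℂ} (hN : N.Finite) {ι p : ℂ} (hι : ‖ι‖ = 1)
    {x0 x1 y0 y1 t s h g : ℝ} (hx : x0 < x1) (hs : 0 < s) (ht : 2 * s ≤ t)
    (hy : 2 * s < y1 - y0) (hh : 0 < h) (hg : 0 < g)
    (hnet : NetR X ι p (x0 - s) (x1 + s) (y0 + s) (y1 - s) s) {M : ℕ}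
    (hM : x1 - x0 + 2 * t ≤ M * g) (hbox : X ∩ Box ι p x0 x1 y0 y1 t ⊆ N) {q : ℝ} (hq : q ≤ 1)
    (hHP : ∀ j ≤ M, cp N (fun W => HPArm (nbr X) W (cen ι p (x0 - t + j * g) (y0 - 2 * h))
      (-Complex.I * ι) h (g + 2 * h + 2 * s) (y1 - y0 - 2 * s)) ≤ q) :
    (1 - q) ^ (M + 1) ≤ cp N (fun W => TCr X W ι p x0 x1 y0 y1 t) := by
  have h1 := cp_none_ge hN (Finset.range (M + 1))
    (F := fun (j : ℕ) W => HPArm (nbr X) W (cen ι p (x0 - t + j * g) (y0 - 2 * h))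
      (-Complex.I * ι) h (g + 2 * h + 2 * s) (y1 - y0 - 2 * s))
    (fun j _ W W' hWW' H => hparm_mono hWW' H) hq
    (fun j hj => hHP j (Nat.lt_succ_iff.1 (Finset.mem_range.1 hj)))
  rw [Finset.card_range] at h1
  refine h1.trans ?_
  rw [← cp_compl]
  refine cp_mono hN fun W _ hW => ?_
  rcases tcr_or_arm (W := W) hι hx hs ht hy hh hg hnet hM with H | ⟨j, hj, H⟩
  · exact H.mono fun z hz => hz.1.2
  · exfalso
    refine hW j (Finset.mem_range.2 (Nat.lt_succ_of_le hj)) (hparm_mono ?_ H)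
    rintro z ⟨⟨hzX, hzW⟩, hzB⟩
    exact ⟨hbox ⟨hzX, hzB⟩, hzW⟩

/-- **Two crossing paths share a vertex.** -/
theorem path_meet {X : Set ℂ} (hX : Three X) {ι p : ℂ} (hι : ‖ι‖ = 1) {a b c d : ℝ} (hab : a < b)
    (hcd : c < d) {n : ℕ} {v : ℕ → ℂ} (hv : ∀ i < n, nbr X (v i) (v (i + 1)))
    (hvB : ∀ i ≤ n, c ≤ (ι * (v i - p)).im ∧ (ι * (v i - p)).im ≤ d)
    (hv0 : (ι * (v 0 - p)).re ≤ a) (hv1 : b ≤ (ι * (v n - p)).re) {m : ℕ} {w : ℕ → ℂ}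
    (hw : ∀ i < m, nbr X (w i) (w (i + 1)))
    (hwW : ∀ i ≤ m, a ≤ (ι * (w i - p)).re ∧ (ι * (w i - p)).re ≤ b)
    (hw0 : (ι * (w 0 - p)).im ≤ c) (hw1 : d ≤ (ι * (w m - p)).im) :
    ∃ i ≤ n, ∃ j ≤ m, v i = w j := by
  by_contra hcon
  push Not at hcon
  have hm : m ≠ 0 := by rintro rfl; linarith
  obtain ⟨m, rfl⟩ := Nat.exists_eq_succ_of_ne_zero hm
  have hn : n ≠ 0 := by rintro rfl; linarith
  obtain ⟨n, rfl⟩ := Nat.exists_eq_succ_of_ne_zero hn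
  obtain ⟨γ, hγ⟩ := exists_curve w m
  obtain ⟨δ, hδ⟩ := exists_curve v n
  obtain ⟨s, t, he⟩ := P198.PlanarTop.crossing a b c d ⟨fun s => ι * (γ s - p), by fun_prop⟩
    ⟨fun s => ι * (δ s - p), by fun_prop⟩
    (fun s => by
      obtain ⟨i, hi, u, hu0, hu1, he⟩ := hγ s
      show a ≤ (ι * (γ s - p)).re ∧ (ι * (γ s - p)).re ≤ b
      rw [he, sg_affine, sg_re]
      exact ⟨le_cvx hu0 hu1 (hwW i (by omega)).1 (hwW (i + 1) (by omega)).1,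
        cvx_le hu0 hu1 (hwW i (by omega)).2 (hwW (i + 1) (by omega)).2⟩)
    (fun t => by
      obtain ⟨i, hi, u, hu0, hu1, he⟩ := hδ t
      show c ≤ (ι * (δ t - p)).im ∧ (ι * (δ t - p)).im ≤ d
      rw [he, sg_affine, sg_im]
      exact ⟨le_cvx hu0 hu1 (hvB i (by omega)).1 (hvB (i + 1) (by omega)).1,
        cvx_le hu0 hu1 (hvB i (by omega)).2 (hvB (i + 1) (by omega)).2⟩)
    (by show (ι * (γ 0 - p)).im ≤ c; rw [γ.source]; exact hw0)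
    (by show d ≤ (ι * (γ 1 - p)).im; rw [γ.target]; exact hw1)
    (by show (ι * (δ 0 - p)).re ≤ a; rw [δ.source]; exact hv0)
    (by show b ≤ (ι * (δ 1 - p)).re; rw [δ.target]; exact hv1)
  have hι0 : ι ≠ 0 := by
    rintro rfl
    simp at hι
  have he' : γ s = δ t := by
    have h2 : ι * (γ s - p) = ι * (δ t - p) := he
    have := mul_left_cancel₀ hι0 h2
    linear_combination this
  obtain ⟨i, hi, u, hu0, hu1, e1⟩ := hγ s
  obtain ⟨j, hj, u', hu0', hu1', e2⟩ := hδ t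
  have neq : ∀ i ≤ m + 1, ∀ j ≤ n + 1, w i ≠ v j := fun i hi j hj h => hcon j hj i hi h.symm
  refine seg_disjoint hX (hw i hi) (hv j hj) (neq _ (by omega) _ (by omega))
    (neq _ (by omega) _ (by omega)) (neq _ (by omega) _ (by omega))
    (neq _ (by omega) _ (by omega)) hu0 hu1 hu0' hu1' ?_
  rw [← e1, ← e2, he']

/-- The crossings of two rectangles, the second one being crossed in the orthogonal direction
(`-I * ι`, coordinates `(im, -re)`), share a vertex. -/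
theorem tcr_meet {X : Set ℂ} (hX : Three X) {ι p : ℂ} (hι : ‖ι‖ = 1)
    {x0 x1 y0 y1 x0' x1' y0' y1' t t' : ℝ} {n : ℕ} {v : ℕ → ℂ}
    (hv : ∀ i < n, nbr X (v i) (v (i + 1)))
    (hvB : ∀ i ≤ n, ι * (v i - p) ∈ Rc (x0 - t) (x1 + t) y0 y1)
    (hv0 : (ι * (v 0 - p)).re ≤ x0) (hv1 : x1 ≤ (ι * (v n - p)).re) {m : ℕ} {w : ℕ → ℂ}
    (hw : ∀ i < m, nbr X (w i) (w (i + 1)))
    (hwW : ∀ i ≤ m, (-Complex.I * ι) * (w i - p) ∈ Rc (x0' - t') (x1' + t') y0' y1')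
    (hw0 : ((-Complex.I * ι) * (w 0 - p)).re ≤ x0') (hw1 : x1' ≤ ((-Complex.I * ι) * (w m - p)).re)
    (h1 : x0 ≤ -y1') (h2 : -y0' ≤ x1) (h3 : x0' ≤ y0) (h4 : y1 ≤ x1') (h5 : y0' < y1')
    (h6 : y0 < y1) :
    ∃ i ≤ n, ∃ j ≤ m, v i = w j := by
  have ere : ∀ z, ((-Complex.I * ι) * (z - p)).re = (ι * (z - p)).im := by
    intro z
    rw [mul_assoc, neg_mul, Complex.neg_re, Complex.I_mul_re, neg_neg]
  have eim : ∀ z, ((-Complex.I * ι) * (z - p)).im = -(ι * (z - p)).re := by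
    intro z
    rw [mul_assoc, neg_mul, Complex.neg_im, Complex.I_mul_im]
  refine path_meet hX hι (a := -y1') (b := -y0') (c := y0) (d := y1) (by linarith) h6 hv
    (fun i hi => ⟨(hvB i hi).2.2.1, (hvB i hi).2.2.2⟩) (by linarith) (by linarith) hw
    (fun i hi => ?_) ?_ ?_
  · obtain ⟨a1, a2, a3, a4⟩ := hwW i hi
    rw [eim] at a3 a4
    constructor <;> linarith
  · rw [ere] at hw0; linarith
  · rw [ere] at hw1; linarith

end Vale.Agent.P148.R2.H995
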