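import Vale.Agent.P148.Dual
import Vale.Agent.P148.Sep
import Vale.Agent.P148.R2.H592.Del1

/-!
# P148, module E2a: duality for chains of Voronoi cells in a rectangle
-/

open Set Metric

namespace Vale.Agent.P148.R2.H995

open H592
open _root_.P148 (sq side SepStmt DualStmt)

/-- The closed rectangle. -/
def Rc (x0 x1 y0 y1 : ℝ) : Set ℂ := {z | x0 ≤ z.re ∧ z.re ≤ x1 ∧ y0 ≤ z.im ∧ z.im ≤ y1}

theorem isClosed_Rc (x0 x1 y0 y1 : ℝ) : IsClosed (Rc x0 x1 y0 y1) :=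
  (isClosed_le continuous_const Complex.continuous_re).inter
    ((isClosed_le Complex.continuous_re continuous_const).inter
      ((isClosed_le continuous_const Complex.continuous_im).inter
        (isClosed_le Complex.continuous_im continuous_const)))

/-- Paths for `rel` in `W`. -/
def Chain (rel : ℂ → ℂ → Prop) (W : Set ℂ) (u w : ℂ) : Prop :=
  ∃ (n : ℕ) (v : ℕ → ℂ), (∀ i < n, rel (v i) (v (i + 1))) ∧ (∀ i ≤ n, v i ∈ W) ∧ v 0 = u ∧ v n = w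

theorem Chain.refl {rel : ℂ → ℂ → Prop} {W : Set ℂ} {u : ℂ} (hu : u ∈ W) : Chain rel W u u :=
  ⟨0, fun _ => u, fun i hi => absurd hi (by omega), fun _ _ => hu, rfl, rfl⟩

theorem Chain.snoc {rel : ℂ → ℂ → Prop} {W : Set ℂ} {u w x : ℂ} (h : Chain rel W u w)
    (hx : x ∈ W) (hr : rel w x) : Chain rel W u x := by
  obtain ⟨n, v, h1, h2, h3, h4⟩ := h
  refine ⟨n + 1, fun i => if i ≤ n then v i else x, fun i hi => ?_, fun i hi => ?_, ?_, ?_⟩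
  · rcases (Nat.lt_succ_iff.1 hi).lt_or_eq with hlt | rfl
    · have a1 : i ≤ n := hlt.le
      have a2 : i + 1 ≤ n := hlt
      simp only [a1, a2, if_true]
      exact h1 i hlt
    · simp only [le_refl, if_true, show ¬ (i + 1 ≤ i) by omega, if_false]
      rw [h4]; exact hr
  · by_cases hin : i ≤ n
    · simp only [hin, if_true]; exact h2 i hin
    · simp only [hin, if_false]; exact hx
  · simp [h3]
  · simp

theorem Chain.mono {rel : ℂ → ℂ → Prop} {W W' : Set ℂ} {u w : ℂ} (h : Chain rel W u w)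
    (hW : W ⊆ W') : Chain rel W' u w := by
  obtain ⟨n, v, h1, h2, h3, h4⟩ := h
  exact ⟨n, v, h1, fun i hi => hW (h2 i hi), h3, h4⟩

/-- A connected set in a finite union of cells gives a path. -/
theorem chain_of_connected {X W K : Set ℂ} (hWX : W ⊆ X)
    (hfin : {x ∈ W | (vcell X x ∩ K).Nonempty}.Finite) (hK : IsPreconnected K)
    (hcov : ∀ z ∈ K, ∃ x ∈ W, z ∈ vcell X x) {u w y z : ℂ} (hu : u ∈ W) (hw : w ∈ W)
    (hy : y ∈ K) (hz : z ∈ K) (hyu : y ∈ vcell X u) (hzw : z ∈ vcell X w) :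
    Chain (nbr X) {x ∈ W | (vcell X x ∩ K).Nonempty} u w := by
  classical
  set F := {x ∈ W | (vcell X x ∩ K).Nonempty} with hF
  have huF : u ∈ F := ⟨hu, y, hyu, hy⟩
  have hwF : w ∈ F := ⟨hw, z, hzw, hz⟩
  by_contra hcon
  set A := {x ∈ F | Chain (nbr X) F u x} with hA
  have h1 : IsClosed (⋃ x ∈ A, vcell X x) :=
    (hfin.subset fun x hx => hx.1).isClosed_biUnion fun x _ => isClosed_vcell X x
  have h2 : IsClosed (⋃ x ∈ F \ A, vcell X x) :=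
    (hfin.subset fun x hx => hx.1).isClosed_biUnion fun x _ => isClosed_vcell X x
  obtain ⟨q, hqK, hq1, hq2⟩ := isPreconnected_closed_iff.1 hK _ _ h1 h2 (by
    intro q hq
    obtain ⟨x, hxW, hx⟩ := hcov q hq
    have hxF : x ∈ F := ⟨hxW, q, hx, hq⟩
    by_cases hxA : x ∈ A
    · exact Or.inl (mem_biUnion hxA hx)
    · exact Or.inr (mem_biUnion (show x ∈ F \ A from ⟨hxF, hxA⟩) hx))
    ⟨y, hy, mem_biUnion (show u ∈ A from ⟨huF, Chain.refl huF⟩) hyu⟩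
    ⟨z, hz, mem_biUnion (show w ∈ F \ A from ⟨hwF, fun h => hcon h.2⟩) hzw⟩
  simp only [mem_iUnion, exists_prop] at hq1 hq2
  obtain ⟨a, haA, hqa⟩ := hq1
  obtain ⟨b, hbB, hqb⟩ := hq2
  have hab : a ≠ b := by
    rintro rfl
    exact hbB.2 haA
  exact hbB.2 ⟨hbB.1, haA.2.snoc hbB.1 ⟨hWX haA.1.1, hWX hbB.1.1, hab, q, hqa, hqb⟩⟩

/-- Duality in a rectangle. -/
theorem dual_rc {x0 x1 y0 y1 : ℝ} (hx : x0 < x1) (hy : y0 < y1) {F F' : Set ℂ} (hF : IsClosed F)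
    (hF' : IsClosed F') (hcov : Rc x0 x1 y0 y1 ⊆ F ∪ F') :
    (∃ K ⊆ F ∩ Rc x0 x1 y0 y1, IsConnected K ∧ (∃ z ∈ K, z.re = x0) ∧ ∃ z ∈ K, z.re = x1) ∨
    (∃ K ⊆ F' ∩ Rc x0 x1 y0 y1, IsConnected K ∧ (∃ z ∈ K, z.im = y0) ∧ ∃ z ∈ K, z.im = y1) := by
  -- the affine map
  set f : ℂ → ℂ := fun z => (((x0 + x1) / 2 + (x1 - x0) / 2 * z.re : ℝ) : ℂ) +
    (((y0 + y1) / 2 + (y1 - y0) / 2 * z.im : ℝ) : ℂ) * Complex.I with hf
  have hfc : Continuous f := by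
    rw [hf]; fun_prop
  have fre : ∀ z, (f z).re = (x0 + x1) / 2 + (x1 - x0) / 2 * z.re := fun z => by simp [hf]
  have fim : ∀ z, (f z).im = (y0 + y1) / 2 + (y1 - y0) / 2 * z.im := fun z => by simp [hf]
  have hsq : ∀ z ∈ sq, f z ∈ Rc x0 x1 y0 y1 := by
    intro z hz
    obtain ⟨h1, h2⟩ := hz
    rw [abs_le] at h1 h2
    refine ⟨?_, ?_, ?_, ?_⟩
    · rw [fre]; nlinarith
    · rw [fre]; nlinarith
    · rw [fim]; nlinarith
    · rw [fim]; nlinarith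
  have hD : DualStmt := _root_.P148.dual _root_.P148.sep
  rcases hD (f ⁻¹' F') (f ⁻¹' F) (hF'.preimage hfc) (hF.preimage hfc) (fun z hz => by
    rcases hcov (hsq z hz) with h | h
    · exact Or.inr h
    · exact Or.inl h) with ⟨K, hK, hKc, ⟨a, haK, ha⟩, ⟨b, hbK, hb⟩⟩ | ⟨K, hK, hKc, ⟨a, haK, ha⟩,
      ⟨b, hbK, hb⟩⟩
  · right
    refine ⟨f '' K, ?_, hKc.image _ hfc.continuousOn, ⟨f a, mem_image_of_mem _ haK, ?_⟩,
      ⟨f b, mem_image_of_mem _ hbK, ?_⟩⟩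
    · rintro _ ⟨z, hz, rfl⟩
      exact ⟨(hK hz).1, hsq z (hK hz).2⟩
    · have : a.im = -1 := ha.2
      rw [fim, this]; ring
    · have : b.im = 1 := hb.2
      rw [fim, this]; ring
  · left
    refine ⟨f '' K, ?_, hKc.image _ hfc.continuousOn, ⟨f b, mem_image_of_mem _ hbK, ?_⟩,
      ⟨f a, mem_image_of_mem _ haK, ?_⟩⟩
    · rintro _ ⟨z, hz, rfl⟩
      exact ⟨(hK hz).1, hsq z (hK hz).2⟩
    · have : b.re = -1 := hb.1
      rw [fre, this]; ring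
    · have : a.re = 1 := ha.1
      rw [fre, this]; ring

/-- Duality in a turned rectangle. -/
theorem dual_trc {ι p : ℂ} (hι : ‖ι‖ = 1) {x0 x1 y0 y1 : ℝ} (hx : x0 < x1) (hy : y0 < y1)
    {F F' : Set ℂ} (hF : IsClosed F) (hF' : IsClosed F')
    (hcov : ∀ z, ι * (z - p) ∈ Rc x0 x1 y0 y1 → z ∈ F ∪ F') :
    (∃ K ⊆ F, (∀ z ∈ K, ι * (z - p) ∈ Rc x0 x1 y0 y1) ∧ IsConnected K ∧
      (∃ z ∈ K, (ι * (z - p)).re = x0) ∧ ∃ z ∈ K, (ι * (z - p)).re = x1) ∨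
    (∃ K ⊆ F', (∀ z ∈ K, ι * (z - p) ∈ Rc x0 x1 y0 y1) ∧ IsConnected K ∧
      (∃ z ∈ K, (ι * (z - p)).im = y0) ∧ ∃ z ∈ K, (ι * (z - p)).im = y1) := by
  have hι0 : ι ≠ 0 := by
    rintro rfl
    simp at hι
  set g : ℂ → ℂ := fun u => p + ι⁻¹ * u with hg
  have hgc : Continuous g := by rw [hg]; fun_prop
  have hgi : ∀ u, ι * (g u - p) = u := by
    intro u
    simp only [hg, add_sub_cancel_left]
    rw [← mul_assoc, mul_inv_cancel₀ hι0, one_mul]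
  rcases dual_rc hx hy (hF.preimage hgc) (hF'.preimage hgc) (fun u hu => hcov (g u)
    (by rw [hgi]; exact hu)) with
    ⟨K, hK, hKc, ⟨a, haK, ha⟩, ⟨b, hbK, hb⟩⟩ | ⟨K, hK, hKc, ⟨a, haK, ha⟩, ⟨b, hbK, hb⟩⟩
  · left
    refine ⟨g '' K, ?_, ?_, hKc.image _ hgc.continuousOn, ⟨g a, mem_image_of_mem _ haK, ?_⟩,
      ⟨g b, mem_image_of_mem _ hbK, ?_⟩⟩
    · rintro _ ⟨z, hz, rfl⟩
      exact (hK hz).1
    · rintro _ ⟨z, hz, rfl⟩
      rw [hgi]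
      exact (hK hz).2
    · rw [hgi]; exact ha
    · rw [hgi]; exact hb
  · right
    refine ⟨g '' K, ?_, ?_, hKc.image _ hgc.continuousOn, ⟨g a, mem_image_of_mem _ haK, ?_⟩,
      ⟨g b, mem_image_of_mem _ hbK, ?_⟩⟩
    · rintro _ ⟨z, hz, rfl⟩
      exact (hK hz).1
    · rintro _ ⟨z, hz, rfl⟩
      rw [hgi]
      exact (hK hz).2
    · rw [hgi]; exact ha
    · rw [hgi]; exact hb

theorem abs_re_turn {ι : ℂ} (hι : ‖ι‖ = 1) (p z w : ℂ) :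
    |(ι * (z - p)).re - (ι * (w - p)).re| ≤ dist z w := by
  rw [← Complex.sub_re]
  refine (Complex.abs_re_le_norm _).trans ?_
  rw [show ι * (z - p) - ι * (w - p) = ι * (z - w) by ring, norm_mul, hι, one_mul, Complex.dist_eq]

theorem abs_im_turn {ι : ℂ} (hι : ‖ι‖ = 1) (p z w : ℂ) :
    |(ι * (z - p)).im - (ι * (w - p)).im| ≤ dist z w := by
  rw [← Complex.sub_im]
  refine (Complex.abs_im_le_norm _).trans ?_
  rw [show ι * (z - p) - ι * (w - p) = ι * (z - w) by ring, norm_mul, hι, one_mul, Complex.dist_eq]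

/-- **Duality for cells in a turned rectangle**: either the cells of `W` cross from left to right,
or the cells of the other points from bottom to top. -/
theorem dual_cells {ι p : ℂ} (hι : ‖ι‖ = 1) {X W : Set ℂ} {x0 x1 y0 y1 ε : ℝ} (hx : x0 < x1)
    (hy : y0 < y1)
    (hfin : {x ∈ X | ∃ z ∈ vcell X x, ι * (z - p) ∈ Rc x0 x1 y0 y1}.Finite)
    (hcov : ∀ z, ι * (z - p) ∈ Rc x0 x1 y0 y1 → ∃ x ∈ X, z ∈ vcell X x)
    (hnet : ∀ z, ι * (z - p) ∈ Rc x0 x1 y0 y1 → ∀ x ∈ X, z ∈ vcell X x → dist z x ≤ ε) :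
    (∃ u w, Chain (nbr X)
        {v ∈ X ∩ W | ι * (v - p) ∈ Rc (x0 - ε) (x1 + ε) (y0 - ε) (y1 + ε)} u w ∧
      (ι * (u - p)).re ≤ x0 + ε ∧ x1 - ε ≤ (ι * (w - p)).re) ∨
    (∃ u w, Chain (nbr X)
        {v ∈ X \ W | ι * (v - p) ∈ Rc (x0 - ε) (x1 + ε) (y0 - ε) (y1 + ε)} u w ∧
      (ι * (u - p)).im ≤ y0 + ε ∧ y1 - ε ≤ (ι * (w - p)).im) := by
  classical
  have near : ∀ x ∈ X, (∃ z ∈ vcell X x, ι * (z - p) ∈ Rc x0 x1 y0 y1) →
      ι * (x - p) ∈ Rc (x0 - ε) (x1 + ε) (y0 - ε) (y1 + ε) := by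
    rintro x hx ⟨z, hz, hzR⟩
    have h1 := hnet z hzR x hx hz
    have h2 := abs_le.1 ((abs_re_turn hι p z x).trans h1)
    have h3 := abs_le.1 ((abs_im_turn hι p z x).trans h1)
    obtain ⟨a1, a2, a3, a4⟩ := hzR
    exact ⟨by linarith, by linarith, by linarith, by linarith⟩
  have clos : ∀ Y ⊆ X, IsClosed
      (⋃ x ∈ {x ∈ Y | ∃ z ∈ vcell X x, ι * (z - p) ∈ Rc x0 x1 y0 y1}, vcell X x) :=
    fun Y hY => (hfin.subset fun x hx => ⟨hY hx.1, hx.2⟩).isClosed_biUnion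
      fun x _ => isClosed_vcell X x
  have key := dual_trc (p := p) hι hx hy (clos (X ∩ W) inter_subset_left)
    (clos (X \ W) sdiff_subset) (by
    intro z hz
    obtain ⟨x, hxX, hxz⟩ := hcov z hz
    by_cases hxW : x ∈ W
    · exact Or.inl (mem_biUnion (show x ∈ {x ∈ X ∩ W | _} from ⟨⟨hxX, hxW⟩, z, hxz, hz⟩) hxz)
    · exact Or.inr (mem_biUnion (show x ∈ {x ∈ X \ W | _} from ⟨⟨hxX, hxW⟩, z, hxz, hz⟩) hxz))
  have aux : ∀ Y ⊆ X, ∀ K ⊆ ⋃ x ∈ {x ∈ Y | ∃ z ∈ vcell X x, ι * (z - p) ∈ Rc x0 x1 y0 y1},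
      vcell X x, (∀ z ∈ K, ι * (z - p) ∈ Rc x0 x1 y0 y1) →
      IsPreconnected K → ∀ y ∈ K, ∀ z ∈ K, ∃ u w, Chain (nbr X)
        {v ∈ Y | ι * (v - p) ∈ Rc (x0 - ε) (x1 + ε) (y0 - ε) (y1 + ε)} u w ∧ dist y u ≤ ε ∧
        dist z w ≤ ε := by
    intro Y hY K hK hKR hKc y hy z hz
    have hc : ∀ z ∈ K, ∃ x ∈ Y, z ∈ vcell X x := by
      intro z hz
      have h1 := hK hz
      simp only [mem_iUnion, exists_prop] at h1
      obtain ⟨x, hx, hxz⟩ := h1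
      exact ⟨x, hx.1, hxz⟩
    have sub : ∀ x ∈ Y, (vcell X x ∩ K).Nonempty →
        ∃ z ∈ vcell X x, ι * (z - p) ∈ Rc x0 x1 y0 y1 := by
      rintro x _ ⟨q, hq1, hq2⟩
      exact ⟨q, hq1, hKR q hq2⟩
    obtain ⟨u, hu, hyu⟩ := hc y hy
    obtain ⟨w, hw, hzw⟩ := hc z hz
    refine ⟨u, w, (chain_of_connected hY (hfin.subset fun x hx => ⟨hY hx.1,
      sub x hx.1 hx.2⟩) hKc hc hu hw hy hz hyu hzw).mono ?_,
      hnet y (hKR y hy) u (hY hu) hyu, hnet z (hKR z hz) w (hY hw) hzw⟩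
    rintro x ⟨hxY, hx⟩
    exact ⟨hxY, near x (hY hxY) (sub x hxY hx)⟩
  rcases key with ⟨K, hK, hKR, hKc, ⟨y, hyK, hy0⟩, ⟨z, hzK, hz1⟩⟩ | ⟨K, hK, hKR, hKc,
    ⟨y, hyK, hy0⟩, ⟨z, hzK, hz1⟩⟩
  · obtain ⟨u, w, hc, h1, h2⟩ := aux _ inter_subset_left K hK hKR hKc.isPreconnected y hyK z hzK
    have e1 := abs_le.1 ((abs_re_turn hι p y u).trans h1)
    have e2 := abs_le.1 ((abs_re_turn hι p z w).trans h2)
    exact Or.inl ⟨u, w, hc, by linarith, by linarith⟩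
  · obtain ⟨u, w, hc, h1, h2⟩ := aux _ sdiff_subset K hK hKR hKc.isPreconnected y hyK z hzK
    have e1 := abs_le.1 ((abs_im_turn hι p y u).trans h1)
    have e2 := abs_le.1 ((abs_im_turn hι p z w).trans h2)
    exact Or.inr ⟨u, w, hc, by linarith, by linarith⟩

end Vale.Agent.P148.R2.H995
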