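import Vale.Agent.P148.R2.H995.Hole

/-!
# P148: grid squares, density from non-empty squares, counting faces
-/

open Set Metric Topology MeasureTheory

namespace Vale.Agent.P148.R2.H995

open Vale.Agent.P148.R2.H990

variable {P P' : Set ℂ} {w : ℂ} {R ρ s : ℝ}

/-- The half-open grid square of side `s` with index `p`. -/
def sq (s : ℝ) (p : ℤ × ℤ) : Set ℂ :=
  {z | z.re ∈ Ico (p.1 * s) ((p.1 + 1) * s) ∧ z.im ∈ Ico (p.2 * s) ((p.2 + 1) * s)}

/-- The index of the grid square of a point. -/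
noncomputable def sqIx (s : ℝ) (z : ℂ) : ℤ × ℤ := (⌊z.re / s⌋, ⌊z.im / s⌋)

theorem mem_Ico_iff_floor (hs : 0 < s) (x : ℝ) (i : ℤ) :
    x ∈ Ico (i * s) ((i + 1) * s) ↔ ⌊x / s⌋ = i := by
  rw [Int.floor_eq_iff, mem_Ico, le_div_iff₀ hs, div_lt_iff₀ hs]

theorem mem_sq_iff (hs : 0 < s) {z : ℂ} {p : ℤ × ℤ} : z ∈ sq s p ↔ sqIx s z = p := by
  unfold sq sqIx
  rw [mem_setOf_eq, mem_Ico_iff_floor hs, mem_Ico_iff_floor hs, Prod.ext_iff]

theorem mem_sq_sqIx (hs : 0 < s) (z : ℂ) : z ∈ sq s (sqIx s z) := (mem_sq_iff hs).2 rfl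

theorem pairwise_disjoint_sq (hs : 0 < s) : Pairwise fun p q => Disjoint (sq s p) (sq s q) := by
  intro p q hpq
  rw [Set.disjoint_left]
  intro z hp hq
  exact hpq (((mem_sq_iff hs).1 hp).symm.trans ((mem_sq_iff hs).1 hq))

theorem iUnion_sq (hs : 0 < s) : ⋃ p, sq s p = univ :=
  eq_univ_of_forall fun z => mem_iUnion.2 ⟨_, mem_sq_sqIx hs z⟩

theorem measurableSet_sq (s : ℝ) (p : ℤ × ℤ) : MeasurableSet (sq s p) :=
  (Complex.measurable_re measurableSet_Ico).inter (Complex.measurable_im measurableSet_Ico)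

theorem dist_le_of_mem_sq {p : ℤ × ℤ} {x y : ℂ} (hx : x ∈ sq s p) (hy : y ∈ sq s p) :
    dist x y ≤ 2 * s := by
  obtain ⟨⟨h1, h2⟩, h3, h4⟩ := hx
  obtain ⟨⟨g1, g2⟩, g3, g4⟩ := hy
  have e1 : |x.re - y.re| ≤ s := by rw [abs_le]; constructor <;> nlinarith
  have e2 : |x.im - y.im| ≤ s := by rw [abs_le]; constructor <;> nlinarith
  calc dist x y = ‖x - y‖ := Complex.dist_eq _ _
    _ ≤ |(x - y).re| + |(x - y).im| := Complex.norm_le_abs_re_add_abs_im _
    _ ≤ 2 * s := by rw [Complex.sub_re, Complex.sub_im]; linarith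

theorem volume_sq (hs : 0 ≤ s) (p : ℤ × ℤ) : volume (sq s p) = ENNReal.ofReal (s ^ 2) := by
  have h : sq s p = Complex.measurableEquivRealProd ⁻¹'
      (Ico (p.1 * s) ((p.1 + 1) * s) ×ˢ Ico (p.2 * s) ((p.2 + 1) * s)) := by
    ext z
    simp [sq, Complex.measurableEquivRealProd]
  rw [h, Complex.volume_preserving_equiv_real_prod.measure_preimage
    (measurableSet_Ico.prod measurableSet_Ico).nullMeasurableSet, Measure.volume_eq_prod,
    Measure.prod_prod, Real.volume_Ico, Real.volume_Ico, ← ENNReal.ofReal_mul (by nlinarith)]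
  congr 1
  ring

/-- If all the grid squares which meet the disc contain points of `P`, then `P` is dense. -/
theorem net_of_grid (hs : 0 < s)
    (h : ∀ p, (sq s p ∩ closedBall w R).Nonempty → (P ∩ sq s p).Nonempty) :
    Net P (closedBall w R) (2 * s) := by
  intro z hz
  obtain ⟨v, hv, hv'⟩ := h (sqIx s z) ⟨z, mem_sq_sqIx hs z, hz⟩
  exact ⟨v, hv, dist_le_of_mem_sq (mem_sq_sqIx hs z) hv'⟩

/-- The indices of the grid squares which meet a disc. -/
def discIx (s : ℝ) (w : ℂ) (R : ℝ) : Set (ℤ × ℤ) := {p | (sq s p ∩ closedBall w R).Nonempty}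

theorem discIx_subset (hs : 0 < s) (w : ℂ) (R : ℝ) :
    discIx s w R ⊆ ((Finset.Icc ⌊(w.re - R) / s⌋ ⌊(w.re + R) / s⌋ ×ˢ
      Finset.Icc ⌊(w.im - R) / s⌋ ⌊(w.im + R) / s⌋ : Finset (ℤ × ℤ)) : Set (ℤ × ℤ)) := by
  rintro p ⟨z, hz, hzw⟩
  rw [mem_sq_iff hs] at hz
  subst hz
  rw [mem_closedBall, Complex.dist_eq] at hzw
  have h1 := (Complex.abs_re_le_norm (z - w)).trans hzw
  have h2 := (Complex.abs_im_le_norm (z - w)).trans hzw
  rw [Complex.sub_re, abs_le] at h1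
  rw [Complex.sub_im, abs_le] at h2
  rw [Finset.coe_product, Finset.coe_Icc, Finset.coe_Icc, mem_prod, mem_Icc, mem_Icc]
  refine ⟨⟨Int.floor_le_floor ?_, Int.floor_le_floor ?_⟩, Int.floor_le_floor ?_,
    Int.floor_le_floor ?_⟩ <;> apply div_le_div_of_nonneg_right _ hs.le <;> linarith

theorem finite_discIx (hs : 0 < s) (w : ℂ) (R : ℝ) : (discIx s w R).Finite :=
  (Finset.finite_toSet _).subset (discIx_subset hs w R)

theorem card_Icc_floor_le (hs : 0 < s) (hR : 0 ≤ R) (x : ℝ) :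
    ((Finset.Icc ⌊(x - R) / s⌋ ⌊(x + R) / s⌋).card : ℝ) ≤ 2 * R / s + 2 := by
  rw [Int.card_Icc]
  have h1 : ⌊(x - R) / s⌋ ≤ ⌊(x + R) / s⌋ :=
    Int.floor_le_floor (div_le_div_of_nonneg_right (by linarith) hs.le)
  have h2 : ((⌊(x + R) / s⌋ + 1 - ⌊(x - R) / s⌋).toNat : ℝ) =
      (⌊(x + R) / s⌋ : ℝ) + 1 - ⌊(x - R) / s⌋ := by
    have h3 : ((⌊(x + R) / s⌋ + 1 - ⌊(x - R) / s⌋).toNat : ℤ) =
        ⌊(x + R) / s⌋ + 1 - ⌊(x - R) / s⌋ := Int.toNat_of_nonneg (by omega)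
    have h4 : (((⌊(x + R) / s⌋ + 1 - ⌊(x - R) / s⌋).toNat : ℤ) : ℝ) =
        ((⌊(x + R) / s⌋ + 1 - ⌊(x - R) / s⌋ : ℤ) : ℝ) := by rw [h3]
    push_cast at h4
    exact h4
  rw [h2]
  have h5 := Int.floor_le ((x + R) / s)
  have h6 := Int.lt_floor_add_one ((x - R) / s)
  have h7 : (x + R) / s - (x - R) / s = 2 * R / s := by ring
  linarith

theorem ncard_discIx_le (hs : 0 < s) (hR : 0 ≤ R) (w : ℂ) :
    ((discIx s w R).ncard : ℝ) ≤ (2 * R / s + 2) ^ 2 := by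
  have h1 := Set.ncard_le_ncard (discIx_subset hs w R) (Finset.finite_toSet _)
  rw [Set.ncard_coe_finset, Finset.card_product] at h1
  calc ((discIx s w R).ncard : ℝ) ≤ (((Finset.Icc ⌊(w.re - R) / s⌋ ⌊(w.re + R) / s⌋).card *
      (Finset.Icc ⌊(w.im - R) / s⌋ ⌊(w.im + R) / s⌋).card : ℕ) : ℝ) := by exact_mod_cast h1
    _ = ((Finset.Icc ⌊(w.re - R) / s⌋ ⌊(w.re + R) / s⌋).card : ℝ) *
      ((Finset.Icc ⌊(w.im - R) / s⌋ ⌊(w.im + R) / s⌋).card : ℝ) := by push_cast; ring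
    _ ≤ (2 * R / s + 2) * (2 * R / s + 2) := by
        gcongr
        · exact card_Icc_floor_le hs hR _
        · exact card_Icc_floor_le hs hR _
    _ = (2 * R / s + 2) ^ 2 := by ring

/-- A square which meets a disc is contained in a slightly larger disc. -/
theorem sq_subset_of_mem_discIx {p : ℤ × ℤ} (hp : p ∈ discIx s w R) :
    sq s p ⊆ closedBall w (R + 2 * s) := by
  obtain ⟨z, hz, hzw⟩ := hp
  intro y hy
  rw [mem_closedBall] at *
  calc dist y w ≤ dist y z + dist z w := dist_triangle _ _ _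
    _ ≤ R + 2 * s := by linarith [dist_le_of_mem_sq hy hz]

/-- The negation of density is witnessed by an empty grid square. -/
theorem exists_empty_sq (hs : 0 < s) (h : ¬ Net P (closedBall w R) (2 * s)) :
    ∃ p ∈ discIx s w R, P ∩ sq s p = ∅ := by
  by_contra hcon
  push Not at hcon
  exact h (net_of_grid hs fun p hp => hcon p hp)

/-- The ordered faces whose first corner is in the disc. -/
def facesAt (P : Set ℂ) (w : ℂ) (R : ℝ) : Set (ℂ × ℂ × ℂ) :=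
  {t | Face P t.1 t.2.1 t.2.2 ∧ t.1 ∈ closedBall w R}

/-- The number of faces is at most the cube of the number of points. -/
theorem facesAt_subset (hρ : 0 < ρ) (h : Net P (closedBall w (R + 3 * ρ)) ρ) :
    facesAt P w R ⊆ (P ∩ closedBall w (R + 2 * ρ)) ×ˢ
      ((P ∩ closedBall w (R + 2 * ρ)) ×ˢ (P ∩ closedBall w (R + 2 * ρ))) := by
  rintro ⟨a, b, c⟩ ⟨hf, haw⟩
  obtain ⟨ha, hb, hc, -, -, -, z, ⟨hza, hzb⟩, hzc⟩ := hf
  have h1 := Net.near_of_adj hρ h ha hb haw hza hzb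
  have h2 := Net.near_of_adj hρ h ha hc haw hza hzc
  exact ⟨⟨ha, closedBall_subset_closedBall (by linarith) haw⟩, ⟨hb, h1.2.2.2.2⟩,
    ⟨hc, h2.2.2.2.2⟩⟩

theorem finite_facesAt (hρ : 0 < ρ) (h : Net P (closedBall w (R + 3 * ρ)) ρ)
    (hfin : (P ∩ closedBall w (R + 2 * ρ)).Finite) : (facesAt P w R).Finite :=
  (hfin.prod (hfin.prod hfin)).subset (facesAt_subset hρ h)

theorem ncard_facesAt_le (hρ : 0 < ρ) (h : Net P (closedBall w (R + 3 * ρ)) ρ)
    (hfin : (P ∩ closedBall w (R + 2 * ρ)).Finite) :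
    (facesAt P w R).ncard ≤ (P ∩ closedBall w (R + 2 * ρ)).ncard ^ 3 := by
  have h1 := Set.ncard_le_ncard (facesAt_subset hρ h) (hfin.prod (hfin.prod hfin))
  rw [Set.ncard_prod, Set.ncard_prod] at h1
  calc (facesAt P w R).ncard ≤ _ := h1
    _ = _ := by ring

end Vale.Agent.P148.R2.H995
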