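import Vale.Agent.P148.R2.H995.Loc
import Vale.Agent.P148.R2.H729.Q4
import Vale.Agent.P148.R2.H291.Unif

/-!
# The annealed one-arm bound from the annulus bound (P148, module R5d2)
-/

open MeasureTheory Set Metric Filter ProbabilityTheory
open scoped ENNReal NNReal
open P148 P148.H729

namespace Vale.Agent.P148.R2.H995

open H592

/-- Projection along a compact set. -/
theorem isClosed_exists_compact {Y : Type*} [TopologicalSpace Y] {K : Set ℂ} (hK : IsCompact K)
    {C : Set (ℂ × Y)} (hC : IsClosed C) : IsClosed {x : Y | ∃ z ∈ K, (z, x) ∈ C} := by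
  have : CompactSpace K := isCompact_iff_compactSpace.1 hK
  have h1 : IsClosed {q : K × Y | ((q.1 : ℂ), q.2) ∈ C} :=
    hC.preimage ((continuous_subtype_val.comp continuous_fst).prodMk continuous_snd)
  have h2 := isClosedMap_snd_of_compactSpace (X := K) (Y := Y) _ h1
  convert h2 using 1
  ext x
  constructor
  · rintro ⟨z, hz, hzx⟩
    exact ⟨(⟨z, hz⟩, x), hzx, rfl⟩
  · rintro ⟨⟨z, x'⟩, hzx, rfl⟩
    exact ⟨z, z.2, hzx⟩

theorem pts_range {n : ℕ} (x : Fin n → Pt) : pts (range x) = range fun i => (x i).1 := by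
  ext z
  constructor
  · rintro ⟨q, ⟨i, rfl⟩, rfl⟩
    exact ⟨i, rfl⟩
  · rintro ⟨i, rfl⟩
    exact ⟨x i, ⟨i, rfl⟩, rfl⟩

theorem measurableSet_nice (p : ℂ) (r : ℝ) (n : ℕ) :
    MeasurableSet {x : Fin n → Pt | Nice (pts (range x)) p r} := by
  have h : IsClosed {x : Fin n → Pt | Nice (pts (range x)) p r} := by
    have e : {x : Fin n → Pt | Nice (pts (range x)) p r} =
        ⋂ z ∈ An p (3 / 4 * r) (7 / 2 * r), {x | ∃ i, dist z (x i).1 ≤ r / 16} := by
      ext x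
      simp only [mem_iInter, mem_ofPred_eq, Nice, pts_range, mem_range, exists_exists_eq_and]
    rw [e]
    refine isClosed_biInter fun z _ => ?_
    have e2 : {x : Fin n → Pt | ∃ i, dist z (x i).1 ≤ r / 16} =
        ⋃ i, {x : Fin n → Pt | dist z (x i).1 ≤ r / 16} := by
      ext x; simp
    rw [e2]
    refine isClosed_iUnion_of_finite fun i => ?_
    exact isClosed_le (continuous_const.dist (continuous_fst.comp (continuous_apply i)))
      continuous_const
  exact h.measurableSet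

theorem measurableSet_meet {n : ℕ} (i j : Fin n) :
    MeasurableSet {x : Fin n → Pt | (vcell (pts (range x)) (x i).1 ∩
      vcell (pts (range x)) (x j).1).Nonempty} := by
  have e : {x : Fin n → Pt | (vcell (pts (range x)) (x i).1 ∩
      vcell (pts (range x)) (x j).1).Nonempty} = ⋃ M : ℕ, {x : Fin n → Pt | ∃ z ∈ closedBall (0 : ℂ) M,
        (z, x) ∈ {q : ℂ × (Fin n → Pt) | ∀ k, dist q.1 (q.2 i).1 ≤ dist q.1 (q.2 k).1 ∧
          dist q.1 (q.2 j).1 ≤ dist q.1 (q.2 k).1}} := by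
    ext x
    simp only [mem_iUnion, mem_ofPred_eq]
    constructor
    · rintro ⟨z, h1, h2⟩
      obtain ⟨M, hM⟩ := exists_nat_ge ‖z‖
      refine ⟨M, z, mem_closedBall_zero_iff.2 hM, fun k => ⟨h1 _ ?_, h2 _ ?_⟩⟩ <;>
        exact ⟨x k, ⟨k, rfl⟩, rfl⟩
    · rintro ⟨M, z, -, hz⟩
      refine ⟨z, ?_, ?_⟩
      · rintro w ⟨q, ⟨k, rfl⟩, rfl⟩
        exact (hz k).1
      · rintro w ⟨q, ⟨k, rfl⟩, rfl⟩
        exact (hz k).2
  rw [e]
  refine MeasurableSet.iUnion fun M => (isClosed_exists_compact (isCompact_closedBall _ _) ?_).measurableSet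
  have e3 : {q : ℂ × (Fin n → Pt) | ∀ k, dist q.1 (q.2 i).1 ≤ dist q.1 (q.2 k).1 ∧
      dist q.1 (q.2 j).1 ≤ dist q.1 (q.2 k).1} = ⋂ k, ({q | dist q.1 (q.2 i).1 ≤ dist q.1 (q.2 k).1} ∩
        {q | dist q.1 (q.2 j).1 ≤ dist q.1 (q.2 k).1}) := by
    ext q; simp
  rw [e3]
  have hc : ∀ k : Fin n, Continuous fun q : ℂ × (Fin n → Pt) => dist q.1 (q.2 k).1 := fun k =>
    continuous_fst.dist (continuous_fst.comp ((continuous_apply k).comp continuous_snd))
  exact isClosed_iInter fun k => (isClosed_le (hc i) (hc k)).inter (isClosed_le (hc j) (hc k))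

theorem measurable_fst_apply {n : ℕ} (i : Fin n) : Measurable fun x : Fin n → Pt => (x i).1 :=
  measurable_fst.comp (measurable_pi_apply i)

theorem measurable_snd_apply {n : ℕ} (i : Fin n) : Measurable fun x : Fin n → Pt => (x i).2 :=
  measurable_snd.comp (measurable_pi_apply i)

theorem measurableSet_nbr {n : ℕ} (i j : Fin n) :
    MeasurableSet {x : Fin n → Pt | nbr (pts (range x)) (x i).1 (x j).1} := by
  have e : {x : Fin n → Pt | nbr (pts (range x)) (x i).1 (x j).1} =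
      {x | (x i).1 = (x j).1}ᶜ ∩ {x : Fin n → Pt | (vcell (pts (range x)) (x i).1 ∩
      vcell (pts (range x)) (x j).1).Nonempty} := by
    ext x
    constructor
    · rintro ⟨-, -, h3, h4⟩
      exact ⟨h3, h4⟩
    · rintro ⟨h3, h4⟩
      exact ⟨⟨x i, ⟨i, rfl⟩, rfl⟩, ⟨x j, ⟨j, rfl⟩, rfl⟩, h3, h4⟩
  rw [e]
  exact (measurableSet_eq_fun (measurable_fst_apply i) (measurable_fst_apply j)).compl.inter
    (measurableSet_meet i j)

theorem measurable_nsup : Measurable nsup := continuous_nsup.measurable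

theorem measurableSet_sqArm (c : Bool) (p : ℂ) (r R : ℝ) (n : ℕ) :
    MeasurableSet {x : Fin n → Pt | SqArm (nbr (pts (range x))) (ofCol (range x) c) p r R} := by
  have e : {x : Fin n → Pt | SqArm (nbr (pts (range x))) (ofCol (range x) c) p r R} =
      ⋃ m : ℕ, ⋃ s : Fin (m + 1) → Fin n,
        ((⋂ i : Fin m, {x : Fin n → Pt | nbr (pts (range x)) (x (s i.castSucc)).1 (x (s i.succ)).1}) ∩
        (⋂ i : Fin (m + 1), {x : Fin n → Pt | (x (s i)).2 = c})) ∩
        ({x : Fin n → Pt | nsup ((x (s 0)).1 - p) ≤ r} ∩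
         {x : Fin n → Pt | R ≤ nsup ((x (s (Fin.last m))).1 - p)}) := by
    ext x
    simp only [mem_iUnion, mem_inter_iff, mem_iInter, mem_ofPred_eq]
    constructor
    · rintro ⟨m, v, h1, h2, h3, h4⟩
      have h5 : ∀ i : Fin (m + 1), ∃ j, x j = (v i, c) := fun i => h2 i (Nat.lt_succ_iff.1 i.2)
      choose s hs using h5
      refine ⟨m, s, ⟨fun i => ?_, fun i => by rw [hs]⟩, ?_, ?_⟩
      · rw [hs, hs]; exact h1 i i.2
      · rw [hs]; exact h3
      · rw [hs]; exact h4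
    · rintro ⟨m, s, ⟨h1, h2⟩, h3, h4⟩
      refine ⟨m, fun i => if h : i < m + 1 then (x (s ⟨i, h⟩)).1 else 0, fun i hi => ?_,
        fun i hi => ?_, ?_, ?_⟩
      · have a1 : i < m + 1 := by omega
        have a2 : i + 1 < m + 1 := by omega
        simp only [a1, a2, dif_pos]
        exact h1 ⟨i, hi⟩
      · have a1 : i < m + 1 := by omega
        simp only [a1, dif_pos]
        exact ⟨s ⟨i, a1⟩, Prod.ext rfl (h2 _)⟩
      · simpa using h3
      · have a1 : m < m + 1 := by omega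
        simp only [a1, dif_pos]
        exact h4
  rw [e]
  refine MeasurableSet.iUnion fun m => MeasurableSet.iUnion fun s => ?_
  refine ((MeasurableSet.iInter fun i => measurableSet_nbr _ _).inter
    (MeasurableSet.iInter fun i => ?_)).inter (MeasurableSet.inter ?_ ?_)
  · exact measurableSet_eq_fun (measurable_snd_apply _) measurable_const
  · exact measurableSet_le (measurable_nsup.comp ((measurable_fst_apply _).sub_const p))
      measurable_const
  · exact measurableSet_le measurable_const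
      (measurable_nsup.comp ((measurable_fst_apply _).sub_const p))

theorem measurableSet_badAnn_range (c : Bool) (p : ℂ) (r : ℝ) (n : ℕ) :
    MeasurableSet {x : Fin n → Pt | BadAnn c p r (range x)} := by
  have e : {x : Fin n → Pt | BadAnn c p r (range x)} =
      {x : Fin n → Pt | Nice (pts (range x)) p r}ᶜ ∪
      {x : Fin n → Pt | SqArm (nbr (pts (range x))) (ofCol (range x) c) p r (3 * r)} := by
    ext x; rfl
  rw [e]
  exact (measurableSet_nice p r n).compl.union (measurableSet_sqArm c p r _ n)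

/-- The window of the annulus. -/
def Win (p : ℂ) (r : ℝ) : Set ℂ := An p (r / 2) (4 * r)

theorem bdd_win (p : ℂ) (r : ℝ) : Bdd (Win p r ×ˢ (univ : Set Bool)) := by
  refine ⟨‖p‖ + 2 * (4 * r) + 1, ?_⟩
  rintro ⟨z, b⟩ ⟨hz, -⟩
  refine ⟨?_, mem_univ _⟩
  rw [mem_ball_zero_iff]
  have h1 := norm_le_nsup (z - p)
  have h2 : nsup (z - p) ≤ 4 * r := hz.2
  have h3 := norm_le_insert' z p
  linarith

variable {Ω : Type*} [MeasurableSpace Ω] {P : Measure Ω} {S : Ω → Set Pt} {lam : ℝ≥0}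

/-- The bad event of an annulus is measurable with respect to the configuration over its
window. -/
theorem measurableSet_badAnn (h : IsColouredPoisson P S lam) (c : Bool) (p : ℂ) {r : ℝ}
    (hr : 0 < r) : MeasurableSet[sig S (Win p r)] {ω | BadAnn c p r (S ω)} := by
  have h1 := measurableSet_window' (A := Win p r ×ˢ (univ : Set Bool))
    ((measurableSet_An _ _ _).prod MeasurableSet.univ) (bdd_win p r)
    (E := BadAnn c p r) (measurableSet_badAnn_range c p r)
  refine ⟨_, h1, ?_⟩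
  ext ω
  have hf : ((S ω) ∩ Win p r ×ˢ (univ : Set Bool)).Finite := finite_inter h (bdd_win p r) ω
  have e1 : res (Win p r) (S ω) ∩ Win p r ×ˢ (univ : Set Bool) = res (Win p r) (S ω) := by
    unfold res
    rw [inter_assoc, inter_self]
  simp only [mem_preimage, mem_ofPred_eq, e1]
  rw [badAnn_res (U := Win p r) hr subset_rfl]
  exact ⟨fun h => h.2, fun h => ⟨hf, h⟩⟩

/-- The net condition holds with high probability. -/
theorem nice_prob [IsProbabilityMeasure P] (h : IsColouredPoisson P S lam) (p : ℂ) {r : ℝ}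
    (hr : 0 < r) : P {ω | ¬ Nice (pts (S ω)) p r} ≤ ENNReal.ofReal
      (31 ^ 2 * H291.net.card * Real.exp (-(lam * (Real.pi / 4096 * r ^ 2)))) := by
  have h1 := H291.stab_unif h p (R := 7 * r) (s := r / 2) (by positivity) (by positivity)
  have e1 : (2 * (7 * r) / (r / 2) + 3) = 31 := by field_simp; norm_num
  have e2 : Real.pi / 1024 * (r / 2) ^ 2 = Real.pi / 4096 * r ^ 2 := by ring
  rw [e1, e2] at h1
  refine (measure_mono ?_).trans h1
  intro ω hω
  by_contra hcon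
  apply hω
  intro z hz
  have hz' : z ∈ closedBall p (7 * r) := by
    rw [mem_closedBall, Complex.dist_eq]
    refine (norm_le_nsup _).trans ?_
    have := hz.2
    linarith
  have hst : H291.Stab (pts (S ω)) z (r / 2) := by
    by_contra hn
    exact hcon ⟨z, hz', hn⟩
  obtain ⟨v, hv, hd⟩ := hst z (mem_closedBall_self (by positivity))
  exact ⟨v, hv, by linarith⟩

/-- **Product over the scales.** If an annulus is bad with probability at most `q` at the scales
`r₀ 16 ^ j`, `j < k`, then all of them are bad with probability at most `q ^ k`. -/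
theorem prob_all_bad [IsProbabilityMeasure P] (h : IsColouredPoisson P S lam) (c : Bool) (p : ℂ)
    {r₀ : ℝ} (hr : 0 < r₀) {q : ℝ≥0∞} {k : ℕ}
    (hq : ∀ j < k, P {ω | BadAnn c p (r₀ * 16 ^ j) (S ω)} ≤ q) :
    P {ω | ∀ j < k, BadAnn c p (r₀ * 16 ^ j) (S ω)} ≤ q ^ k := by
  have hpos : ∀ j : ℕ, 0 < r₀ * 16 ^ j := fun j => by positivity
  have hdisj : ∀ i j : ℕ, i < j → Disjoint (Win p (r₀ * 16 ^ i)) (Win p (r₀ * 16 ^ j)) := by
    intro i j hij
    rw [Set.disjoint_left]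
    intro z h1 h2
    have a1 : nsup (z - p) ≤ 4 * (r₀ * 16 ^ i) := h1.2
    have a2 : r₀ * 16 ^ j / 2 ≤ nsup (z - p) := h2.1
    have a3 : r₀ * 16 ^ (i + 1) ≤ r₀ * 16 ^ j :=
      mul_le_mul_of_nonneg_left (pow_le_pow_right₀ (by norm_num) hij) hr.le
    have a4 := hpos i
    rw [pow_succ] at a3
    nlinarith
  have hind := iIndep_sig h (U := fun j : ℕ => Win p (r₀ * 16 ^ j))
    (fun j => measurableSet_An _ _ _) (by
      intro i j hij
      rcases lt_or_gt_of_ne hij with h' | h'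
      · exact hdisj i j h'
      · exact (hdisj j i h').symm)
  have hset : {ω | ∀ j < k, BadAnn c p (r₀ * 16 ^ j) (S ω)} =
      ⋂ j ∈ Finset.range k, {ω | BadAnn c p (r₀ * 16 ^ j) (S ω)} := by
    ext ω; simp
  rw [hset, (iIndep_iff _ _).1 hind (Finset.range k) (fun j _ => measurableSet_badAnn h c p (hpos j))]
  calc ∏ j ∈ Finset.range k, P {ω | BadAnn c p (r₀ * 16 ^ j) (S ω)}
      ≤ ∏ _j ∈ Finset.range k, q := Finset.prod_le_prod' fun j hj => hq j (Finset.mem_range.1 hj)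
    _ = q ^ k := by rw [Finset.prod_const, Finset.card_range]

/-- The annulus bound, in the form which is needed. -/
def AnnBound (P : Measure Ω) (S : Ω → Set Pt) (lam : ℝ≥0) (c₀ C₀ : ℝ) : Prop :=
  ∀ (c : Bool) (p : ℂ) (r : ℝ), 0 < r → C₀ ≤ lam * r ^ 2 →
    P {ω | SqArm (nbr (pts (S ω))) (ofCol (S ω) c) p r (3 * r)} ≤ ENNReal.ofReal (1 - c₀)

/-- A bound for the bad event. -/
theorem prob_bad [IsProbabilityMeasure P] (h : IsColouredPoisson P S lam) {c₀ C₀ : ℝ}
    (hc₀ : 0 < c₀) (hc₁ : c₀ ≤ 1) (hA : AnnBound P S lam c₀ C₀) {C₁ : ℝ}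
    (hC₁ : ∀ t : ℝ, C₁ ≤ t → 31 ^ 2 * H291.net.card * Real.exp (-(Real.pi / 4096 * t)) ≤ c₀ / 2)
    (c : Bool) (p : ℂ) {r : ℝ} (hr : 0 < r) (h0 : C₀ ≤ lam * r ^ 2) (h1 : C₁ ≤ lam * r ^ 2) :
    P {ω | BadAnn c p r (S ω)} ≤ ENNReal.ofReal (1 - c₀ / 2) := by
  have e : {ω | BadAnn c p r (S ω)} = {ω | ¬ Nice (pts (S ω)) p r} ∪
      {ω | SqArm (nbr (pts (S ω))) (ofCol (S ω) c) p r (3 * r)} := by ext ω; rfl
  rw [e]
  refine (measure_union_le _ _).trans ?_
  have h2 := nice_prob h p hr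
  have h3 := hA c p r hr h0
  have h4 : 31 ^ 2 * H291.net.card * Real.exp (-(lam * (Real.pi / 4096 * r ^ 2))) ≤ c₀ / 2 := by
    have := hC₁ (lam * r ^ 2) h1
    have e5 : Real.pi / 4096 * (lam * r ^ 2) = lam * (Real.pi / 4096 * r ^ 2) := by ring
    rw [e5] at this
    exact this
  calc P {ω | ¬ Nice (pts (S ω)) p r} +
        P {ω | SqArm (nbr (pts (S ω))) (ofCol (S ω) c) p r (3 * r)}
      ≤ ENNReal.ofReal (c₀ / 2) + ENNReal.ofReal (1 - c₀) :=
        add_le_add (h2.trans (ENNReal.ofReal_le_ofReal h4)) h3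
    _ = ENNReal.ofReal (1 - c₀ / 2) := by
        rw [← ENNReal.ofReal_add (by linarith) (by linarith)]
        congr 1; ring

theorem exists_C₁ {c₀ : ℝ} (hc₀ : 0 < c₀) : ∃ C₁ : ℝ, ∀ t : ℝ, C₁ ≤ t →
    31 ^ 2 * (H291.net.card : ℝ) * Real.exp (-(Real.pi / 4096 * t)) ≤ c₀ / 2 := by
  have h1 : Tendsto (fun t : ℝ => 31 ^ 2 * (H291.net.card : ℝ) * Real.exp (-(Real.pi / 4096 * t)))
      atTop (nhds (31 ^ 2 * (H291.net.card : ℝ) * 0)) := by
    refine Tendsto.const_mul _ ?_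
    refine Real.tendsto_exp_neg_atTop_nhds_zero.comp ?_
    exact tendsto_id.const_mul_atTop (by positivity)
  rw [mul_zero] at h1
  have h2 := (h1.eventually (gt_mem_nhds (show (0 : ℝ) < c₀ / 2 by positivity))).exists_forall_of_atTop
  obtain ⟨C₁, h3⟩ := h2
  exact ⟨C₁, fun t ht => (h3 t ht).le⟩

/-- **The annealed one-arm bound**, quantitative form: `k` scales between `δ` and `ρ`. -/
theorem one_arm_pow {c₀ : ℝ} (hc₀ : 0 < c₀) (hc₁ : c₀ ≤ 1) (C₀ : ℝ) :
    ∃ C : ℝ, ∀ {Ω : Type*} [MeasurableSpace Ω] {P : Measure Ω} [IsProbabilityMeasure P]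
      {S : Ω → Set Pt} {lam : ℝ≥0}, IsColouredPoisson P S lam → AnnBound P S lam c₀ C₀ →
      ∀ (c : Bool) (p : ℂ) (k : ℕ) (r₀ δ ρ : ℝ), 0 < r₀ → C ≤ lam * r₀ ^ 2 → δ ≤ 3 / 4 * r₀ →
      7 * (r₀ * 16 ^ k) ≤ ρ →
      P {ω | CellArm (pts (S ω)) (ofCol (S ω) c) p δ ρ} ≤ ENNReal.ofReal (1 - c₀ / 2) ^ k := by
  obtain ⟨C₁, hC₁⟩ := exists_C₁ hc₀
  refine ⟨max C₀ C₁, ?_⟩
  intro Ω _ P _ S lam h hA c p k r₀ δ ρ hr₀ hC hδ hρ
  have hscale : ∀ j : ℕ, r₀ ≤ r₀ * 16 ^ j := fun j =>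
    le_mul_of_one_le_right hr₀.le (one_le_pow₀ (by norm_num))
  have hsq : ∀ j : ℕ, (lam : ℝ) * r₀ ^ 2 ≤ lam * (r₀ * 16 ^ j) ^ 2 := fun j =>
    mul_le_mul_of_nonneg_left (pow_le_pow_left₀ hr₀.le (hscale j) 2) lam.2
  have key := prob_all_bad h c p hr₀ (q := ENNReal.ofReal (1 - c₀ / 2)) (k := k) (fun j _ =>
    prob_bad h hc₀ hc₁ hA hC₁ c p (by positivity)
      ((le_max_left _ _).trans (hC.trans (hsq j))) ((le_max_right _ _).trans (hC.trans (hsq j))))
  refine (measure_mono ?_).trans key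
  intro ω hω j hj
  refine badAnn_of_cellArm (by positivity) ?_ ?_ hω
  · have := hscale j
    linarith
  · have : r₀ * 16 ^ j ≤ r₀ * 16 ^ k :=
      mul_le_mul_of_nonneg_left (pow_le_pow_right₀ (by norm_num) hj.le) hr₀.le
    linarith

/-- **The annealed one-arm bound.** -/
theorem one_arm {c₀ : ℝ} (hc₀ : 0 < c₀) (hc₁ : c₀ ≤ 1) (C₀ : ℝ) {ρ ε : ℝ} (hρ : 0 < ρ)
    (hε : 0 < ε) : ∃ δ > 0, ∃ Λ : ℝ, ∀ {Ω : Type*} [MeasurableSpace Ω] {P : Measure Ω}
      [IsProbabilityMeasure P] {S : Ω → Set Pt} {lam : ℝ≥0}, IsColouredPoisson P S lam →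
      AnnBound P S lam c₀ C₀ → Λ ≤ lam → ∀ (c : Bool) (p : ℂ),
      P {ω | CellArm (pts (S ω)) (ofCol (S ω) c) p δ ρ} ≤ ENNReal.ofReal ε := by
  obtain ⟨C, hC⟩ := one_arm_pow hc₀ hc₁ C₀
  obtain ⟨k, hk⟩ := exists_pow_lt_of_lt_one hε (show 1 - c₀ / 2 < 1 by linarith)
  set r₀ : ℝ := ρ / (7 * 16 ^ k) with hr₀
  have hr₀pos : 0 < r₀ := by positivity
  refine ⟨r₀ / 2, by positivity, C / r₀ ^ 2, ?_⟩
  intro Ω _ P _ S lam h hA hlam c p
  have h1 := hC h hA c p k r₀ (r₀ / 2) ρ hr₀pos (by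
    have := (div_le_iff₀ (by positivity)).1 hlam
    exact this) (by linarith) (by rw [hr₀]; apply le_of_eq; field_simp)
  refine h1.trans ?_
  rw [← ENNReal.ofReal_pow (by linarith)]
  exact ENNReal.ofReal_le_ofReal hk.le

end Vale.Agent.P148.R2.H995
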