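import Vale.Agent.P148.R2.H995.Excl

/-!
# Winding numbers of closed polygons made of convex pieces (P148, separation by a ring)
-/

open Set Metric Complex
open scoped unitInterval ComplexConjugate

namespace Vale.Agent.P148.R2.H995

/-- The angle from `a` to `b` seen from `z`. -/
noncomputable def ang (z a b : ℂ) : ℝ := arg ((b - z) / (a - z))

theorem ang_coe {z a b : ℂ} (ha : a ≠ z) (hb : b ≠ z) :
    ((ang z a b : ℝ) : Real.Angle) = (arg (b - z) : Real.Angle) - (arg (a - z) : Real.Angle) :=
  arg_div_coe_angle (sub_ne_zero.2 hb) (sub_ne_zero.2 ha)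

/-- The ratio is in the slit plane if the point is off the segment. -/
theorem slit_of_off {z a b : ℂ} (h : ∀ t : ℝ, 0 ≤ t → t ≤ 1 → z ≠ sg a b t) :
    (b - z) / (a - z) ∈ slitPlane := by
  have ha : a - z ≠ 0 := by
    have := h 0 le_rfl zero_le_one
    intro h0
    apply this
    simp only [sg, ofReal_zero, zero_mul, add_zero]
    exact (sub_eq_zero.1 h0).symm
  have hb : b - z ≠ 0 := by
    have := h 1 zero_le_one le_rfl
    intro h0
    apply this
    simp only [sg, ofReal_one, one_mul, add_sub_cancel]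
    exact (sub_eq_zero.1 h0).symm
  rw [mem_slitPlane_iff]
  by_contra hcon
  push Not at hcon
  obtain ⟨hre, him⟩ := hcon
  set r : ℝ := ((b - z) / (a - z)).re with hr
  have e : (b - z) / (a - z) = (r : ℂ) := by
    apply Complex.ext
    · simp [hr]
    · simp [him]
  have e2 : b - z = r * (a - z) := by
    rw [← e]; field_simp
  have h1 : (0 : ℝ) < 1 - r := by linarith
  have h1' : (1 : ℂ) - r ≠ 0 := by
    have : ((1 - r : ℝ) : ℂ) ≠ 0 := by exact_mod_cast h1.ne'
    push_cast at this
    exact this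
  refine h (1 / (1 - r)) (by positivity) ?_ ?_
  · rw [div_le_one h1]; linarith
  · unfold sg
    push_cast
    field_simp
    linear_combination -e2

/-- A half-plane of the complement gives a branch of the angle. -/
theorem ang_half {u z a b : ℂ} (ha : 0 < (u * (a - z)).re) (hb : 0 < (u * (b - z)).re) :
    ang z a b = arg (u * (b - z)) - arg (u * (a - z)) := by
  have hu : u ≠ 0 := by rintro rfl; simp at ha
  have haz : a - z ≠ 0 := by intro h; rw [h] at ha; simp at ha
  have hbz : b - z ≠ 0 := by intro h; rw [h] at hb; simp at hb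
  have h1 : |arg (u * (a - z))| < Real.pi / 2 := abs_arg_lt_pi_div_two_iff.2 (Or.inl ha)
  have h2 : |arg (u * (b - z))| < Real.pi / 2 := abs_arg_lt_pi_div_two_iff.2 (Or.inl hb)
  rw [abs_lt] at h1 h2
  have h3 : ((ang z a b : ℝ) : Real.Angle) =
      ((arg (u * (b - z)) - arg (u * (a - z)) : ℝ) : Real.Angle) := by
    rw [Real.Angle.coe_sub]
    unfold ang
    rw [← arg_div_coe_angle (mul_ne_zero hu hbz) (mul_ne_zero hu haz)]
    congr 2
    field_simp
  have h4 : (((ang z a b : ℝ) : Real.Angle)).toReal = ang z a b := by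
    rw [Real.Angle.toReal_coe_eq_self_iff]
    exact ⟨neg_pi_lt_arg _, arg_le_pi _⟩
  have h5 : (((arg (u * (b - z)) - arg (u * (a - z)) : ℝ) : Real.Angle)).toReal =
      arg (u * (b - z)) - arg (u * (a - z)) := by
    rw [Real.Angle.toReal_coe_eq_self_iff]
    constructor <;> linarith
  rw [← h4, h3, h5]

/-- A point outside an open convex set is separated from it. -/
theorem exists_half {C : Set ℂ} (hC : Convex ℝ C) (hO : IsOpen C) {z : ℂ} (hz : z ∉ C) :
    ∃ u : ℂ, ∀ w ∈ C, 0 < (u * (w - z)).re := by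
  obtain ⟨f, hf⟩ := geometric_hahn_banach_open_point hC hO hz
  refine ⟨-((f 1 : ℝ) : ℂ) + ((f Complex.I : ℝ) : ℂ) * Complex.I, fun w hw => ?_⟩
  have h1 : ∀ w : ℂ, f w = f 1 * w.re + f Complex.I * w.im := by
    intro w
    have e : w = w.re • (1 : ℂ) + w.im • Complex.I := by
      simp [Complex.re_add_im]
    conv_lhs => rw [e]
    rw [map_add, map_smul, map_smul, smul_eq_mul, smul_eq_mul]
    ring
  have h2 := hf w hw
  rw [h1 w, h1 z] at h2
  simp only [mul_re, add_re, neg_re, ofReal_re, ofReal_im, I_re, I_im, sub_re, sub_im, add_im,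
    neg_im, mul_im]
  nlinarith

/-- Sum of the angles over a piece inside a half-plane. -/
theorem sum_half {u z : ℂ} {n : ℕ} {v : ℕ → ℂ} (h : ∀ i ≤ n, 0 < (u * (v i - z)).re) :
    ∑ i ∈ Finset.range n, ang z (v i) (v (i + 1)) = ang z (v 0) (v n) := by
  induction n with
  | zero =>
    have h0 := h 0 le_rfl
    rw [Finset.sum_range_zero, ang_half h0 h0, sub_self]
  | succ n ih =>
    rw [Finset.sum_range_succ, ih fun i hi => h i (by omega),
      ang_half (h 0 (by omega)) (h n (by omega)), ang_half (h n (by omega)) (h (n + 1) le_rfl),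
      ang_half (h 0 (by omega)) (h (n + 1) le_rfl)]
    ring

/-- The winding of a closed polygon given in pieces. -/
noncomputable def wd (K : ℕ) (n : ℕ → ℕ) (v : ℕ → ℕ → ℂ) (z : ℂ) : ℝ :=
  ∑ k ∈ Finset.range K, ∑ i ∈ Finset.range (n k), ang z (v k i) (v k (i + 1))

/-- A closed polygon in pieces. -/
structure Pieces (K : ℕ) (n : ℕ → ℕ) (v : ℕ → ℕ → ℂ) (w : ℕ → ℂ) : Prop where
  start : ∀ k < K, v k 0 = w k
  stop : ∀ k < K, v k (n k) = w (k + 1)
  close : w K = w 0

variable {K : ℕ} {n : ℕ → ℕ} {v : ℕ → ℕ → ℂ} {w : ℕ → ℂ}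

theorem wd_int (hP : Pieces K n v w) {z : ℂ}
    (hz : ∀ k < K, ∀ i < n k, v k i ≠ z ∧ v k (i + 1) ≠ z) :
    ∃ m : ℤ, wd K n v z = m * (2 * Real.pi) := by
  have h1 : ((wd K n v z : ℝ) : Real.Angle) = 0 := by
    unfold wd
    have hs : ∀ (s : Finset ℕ) (g : ℕ → ℝ), ((∑ i ∈ s, g i : ℝ) : Real.Angle) =
        ∑ i ∈ s, ((g i : ℝ) : Real.Angle) := fun s g => map_sum Real.Angle.coeHom _ _
    rw [hs]
    have h2 : ∀ k ∈ Finset.range K,
        ((∑ i ∈ Finset.range (n k), ang z (v k i) (v k (i + 1)) : ℝ) : Real.Angle) =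
        (arg (w (k + 1) - z) : Real.Angle) - (arg (w k - z) : Real.Angle) := by
      intro k hk
      have hk' := Finset.mem_range.1 hk
      rw [hs]
      have h3 : ∀ i ∈ Finset.range (n k), ((ang z (v k i) (v k (i + 1)) : ℝ) : Real.Angle) =
          (arg (v k (i + 1) - z) : Real.Angle) - (arg (v k i - z) : Real.Angle) := by
        intro i hi
        have hi' := Finset.mem_range.1 hi
        exact ang_coe (hz k hk' i hi').1 (hz k hk' i hi').2
      rw [Finset.sum_congr rfl h3,
        Finset.sum_range_sub (fun i => (arg (v k i - z) : Real.Angle)), hP.start k hk',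
        hP.stop k hk']
    rw [Finset.sum_congr rfl h2, Finset.sum_range_sub (fun k => (arg (w k - z) : Real.Angle)),
      hP.close, sub_self]
  obtain ⟨m, hm⟩ := Real.Angle.coe_eq_zero_iff.1 h1
  exact ⟨m, by rw [← hm]; simp⟩

/-- The winding is constant along a curve off the polygon. -/
theorem wd_const (hP : Pieces K n v w) {f : I → ℂ} (hf : Continuous f)
    (h : ∀ s, ∀ k < K, ∀ i < n k, ∀ t : ℝ, 0 ≤ t → t ≤ 1 → f s ≠ sg (v k i) (v k (i + 1)) t) :
    wd K n v (f 0) = wd K n v (f 1) := by
  have h' : ∀ s, ∀ k < K, ∀ i < n k, v k i ≠ f s ∧ v k (i + 1) ≠ f s := by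
    intro s k hk i hi
    constructor
    · intro he
      exact h s k hk i hi 0 le_rfl zero_le_one (by simp [sg, he])
    · intro he
      exact h s k hk i hi 1 zero_le_one le_rfl (by simp [sg, he])
  have hc : Continuous fun s => wd K n v (f s) := by
    unfold wd
    refine continuous_finsetSum _ fun k hk => continuous_finsetSum _ fun i hi => ?_
    rw [continuous_iff_continuousAt]
    intro s
    have h1 := slit_of_off (h s k (Finset.mem_range.1 hk) i (Finset.mem_range.1 hi))
    have h2 : v k i - f s ≠ 0 :=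
      sub_ne_zero.2 (h' s k (Finset.mem_range.1 hk) i (Finset.mem_range.1 hi)).1
    have h3 : ContinuousAt (fun s => (v k (i + 1) - f s) / (v k i - f s)) s :=
      ContinuousAt.div (by fun_prop) (by fun_prop) h2
    exact ContinuousAt.comp (f := fun s => (v k (i + 1) - f s) / (v k i - f s))
      (continuousAt_arg h1) h3
  have hpi := Real.pi_pos
  choose m hm using fun s => wd_int hP (z := f s) (h' s)
  have hmc : Continuous fun s => ((m s : ℤ) : ℝ) := by
    have : (fun s => ((m s : ℤ) : ℝ)) = fun s => wd K n v (f s) / (2 * Real.pi) := by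
      funext s
      rw [hm s]
      field_simp
    rw [this]
    exact hc.div_const _
  have hmc' : Continuous m := Int.isClosedEmbedding_coe_real.continuous_iff.2 hmc
  have h3 : m 0 = m 1 := PreconnectedSpace.constant inferInstance hmc'
  rw [hm 0, hm 1, h3]

/-- The winding at a point separated from the polygon by an open convex set. -/
theorem wd_zero (hP : Pieces K n v w) {C : Set ℂ} (hC : Convex ℝ C) (hO : IsOpen C)
    (hv : ∀ k < K, ∀ i ≤ n k, v k i ∈ C) (hw : w 0 ∈ C) {z : ℂ} (hz : z ∉ C) :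
    wd K n v z = 0 := by
  obtain ⟨u, hu⟩ := exists_half hC hO hz
  have hwC : ∀ k ≤ K, w k ∈ C := by
    intro k hk
    rcases Nat.lt_or_ge k K with h | h
    · rw [← hP.start k h]; exact hv k h 0 (Nat.zero_le _)
    · have : k = K := le_antisymm hk h
      rw [this, hP.close]; exact hw
  have h1 : wd K n v z = ∑ k ∈ Finset.range K, ang z (w k) (w (k + 1)) := by
    unfold wd
    refine Finset.sum_congr rfl fun k hk => ?_
    have hk' := Finset.mem_range.1 hk
    rw [sum_half (u := u) fun i hi => hu _ (hv k hk' i hi), hP.start k hk', hP.stop k hk']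
  rw [h1, sum_half (u := u) fun k hk => hu _ (hwC k hk), hP.close]
  have h2 := hu _ hw
  rw [ang_half h2 h2, sub_self]

/-- The winding at a point off the convex pieces. -/
theorem wd_pieces (hP : Pieces K n v w) {C : ℕ → Set ℂ} (hC : ∀ k < K, Convex ℝ (C k))
    (hO : ∀ k < K, IsOpen (C k)) (hv : ∀ k < K, ∀ i ≤ n k, v k i ∈ C k) {z : ℂ}
    (hz : ∀ k < K, z ∉ C k) :
    wd K n v z = ∑ k ∈ Finset.range K, ang z (w k) (w (k + 1)) := by
  unfold wd
  refine Finset.sum_congr rfl fun k hk => ?_
  have hk' := Finset.mem_range.1 hk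
  obtain ⟨u, hu⟩ := exists_half (hC k hk') (hO k hk') (hz k hk')
  rw [sum_half (u := u) fun i hi => hu _ (hv k hk' i hi), hP.start k hk', hP.stop k hk']

theorem ang_pos {z a b : ℂ} (h : 0 < (conj (a - z) * (b - z)).im) : 0 < ang z a b := by
  have ha : a - z ≠ 0 := by intro h0; rw [h0] at h; simp at h
  have h1 : 0 < ((b - z) / (a - z)).im := by
    have e : (b - z) / (a - z) = ((normSq (a - z))⁻¹ : ℝ) * (conj (a - z) * (b - z)) := by
      rw [div_eq_mul_inv, Complex.inv_def]
      push_cast
      ring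
    rw [e, Complex.im_ofReal_mul]
    have h2 : 0 < (normSq (a - z))⁻¹ := inv_pos.2 (normSq_pos.2 ha)
    positivity
  unfold ang
  rcases (arg_nonneg_iff.2 h1.le).lt_or_eq with h2 | h2
  · exact h2
  · exfalso
    have := (arg_eq_zero_iff.1 h2.symm).2
    linarith

end Vale.Agent.P148.R2.H995
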